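import Vale.Agent.P218M.Bvp

/-! Per-mode estimates on the ends: weights and statements (block MODE). -/

open Set

noncomputable section

namespace Vale.Agent.P218M

/-- `u` is `C²` in the interior of `s`, and `u, u', u''` are continuous on `s` -/
structure J2 (s : Set ℝ) (u u₁ u₂ : ℝ → ℂ) : Prop where
  c0 : ContinuousOn u s
  c1 : ContinuousOn u₁ s
  c2 : ContinuousOn u₂ s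
  d : D2 (interior s) u u₁ u₂

/-- reference profile `ρ = 2 + c (z² - 2)` -/
def rh (c : ℂ) (z : ℝ) : ℂ := 2 + c * ((z : ℂ) ^ 2 - 2)
/-- `σ = Re (1/ρ)` -/
def sg (c : ℂ) (z : ℝ) : ℝ := ((rh c z)⁻¹).re
/-- boundary layer at the cut `Z` -/
def ly (Z z : ℝ) : ℝ := Real.exp ((z ^ 2 - Z ^ 2) / 8)
/-- `τ = |ρ| / Re ρ` -/
def ta (c : ℂ) (z : ℝ) : ℝ := ‖rh c z‖ / (rh c z).re
/-- weight of the modes `k ≠ 0` -/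
def wN (c : ℂ) (z : ℝ) : ℝ := z ^ (-3 / 2 : ℝ) * ‖rh c z‖ ^ (7 / 4 : ℝ)
/-- data weight of the modes `k ≠ 0` -/
def gN (c : ℂ) (Z z : ℝ) : ℝ := wN c z * (sg c z + z ^ 2 * ly Z z)
/-- weight of mode `0` -/
def wO (c : ℂ) (z : ℝ) : ℝ := z ^ (-3 / 2 : ℝ) * (rh c z).re ^ (1 / 4 : ℝ)
/-- data weight of mode `0` -/
def gO (c : ℂ) (Z z : ℝ) : ℝ := wO c z * (((rh c z).re)⁻¹ + z ^ 2 * ly Z z)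

/-- standing assumptions on a truncated cylindrical end -/
structure Cyl (Y R Z : ℝ) (c : ℂ) : Prop where
  R0 : 0 < R
  RZ : R + 1 ≤ Z
  cZ : ‖c‖ * Z ^ 2 ≤ 8
  tip : ∀ z ∈ Icc R Z, Y ≤ z ^ 2 * (rh c z).re
  dsc : ∀ z ∈ Icc R Z, ‖rh c z‖ ^ 2 ≤ 6 * (rh c z).re

/-- the mode operator on a cylindrical end -/
def LC (c : ℂ) (k : ℤ) (u u₁ u₂ : ℝ → ℂ) (z : ℝ) : ℂ :=
  u₂ z - (z : ℂ) / 2 * u₁ z + (1 - (k : ℂ) ^ 2 / rh c z) * u z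

/-- bounds of all jets of a mode `k ≠ 0` -/
structure BN (c : ℂ) (Z : ℝ) (k : ℤ) (u u₁ u₂ : ℝ → ℂ) (M z : ℝ) : Prop where
  b0 : ‖u z‖ ≤ M * wN c z
  bt : |(k : ℝ)| * ‖u z‖ ≤ M * √(wN c z * gN c Z z / sg c z)
  btt : (k : ℝ) ^ 2 * ‖u z‖ ≤ M * (gN c Z z / sg c z)
  bz : ‖u₁ z‖ ≤ M * (gN c Z z * ta c z / z)
  bzt : |(k : ℝ)| * ‖u₁ z‖ ≤ M * (gN c Z z * ta c z * √‖rh c z‖)
  bzz : ‖u₂ z‖ ≤ M * (gN c Z z * ta c z)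

/-- bounds of the jets of mode `0` -/
structure BO (c : ℂ) (Z : ℝ) (u u₁ u₂ : ℝ → ℂ) (M z : ℝ) : Prop where
  b0 : ‖u z‖ ≤ M * wO c z
  bz : ‖u₁ z‖ ≤ M * (gO c Z z / z)
  bzz : ‖u₂ z‖ ≤ M * gO c Z z

/-- modes `|k| ≥ 2`: two point problem -/
def MODE2 : Prop := ∃ Y C : ℝ, 0 < C ∧ ∀ R Z c, Cyl Y R Z c → ∀ k : ℤ, 2 ≤ |k| →
  ∀ (u u₁ u₂ : ℝ → ℂ) (M : ℝ), J2 (Icc R Z) u u₁ u₂ →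
    (∀ z ∈ Icc R Z, ‖LC c k u u₁ u₂ z‖ ≤ M * gN c Z z) → u R = 0 → u Z = 0 →
    ∀ z ∈ Icc R Z, BN c Z k u u₁ u₂ (C * M) z

/-- modes `± 1`: backward initial value problem -/
def MODE1 : Prop := ∃ Y C : ℝ, 0 < C ∧ ∀ R Z c, Cyl Y R Z c → ∀ k : ℤ, |k| = 1 →
  ∀ (u u₁ u₂ : ℝ → ℂ) (M : ℝ), J2 (Icc R Z) u u₁ u₂ →
    (∀ z ∈ Icc R Z, ‖LC c k u u₁ u₂ z‖ ≤ M * gN c Z z) → u Z = 0 →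
    ‖u₁ Z‖ ≤ M * (Z * wN c Z) → ∀ z ∈ Icc R Z, BN c Z k u u₁ u₂ (C * M) z

/-- mode `0`: backward initial value problem -/
def MODE0 : Prop := ∃ Y C : ℝ, 0 < C ∧ ∀ R Z c, Cyl Y R Z c →
  ∀ (u u₁ u₂ : ℝ → ℂ) (M : ℝ), J2 (Icc R Z) u u₁ u₂ →
    (∀ z ∈ Icc R Z, ‖LC c 0 u u₁ u₂ z‖ ≤ M * gO c Z z) → u Z = 0 →
    ‖u₁ Z‖ ≤ M * (Z * wO c Z) → ∀ z ∈ Icc R Z, BO c Z u u₁ u₂ (C * M) z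

/-- existence on a cylindrical end -/
def MODEX : Prop := ∃ Y : ℝ, ∀ R Z c, Cyl Y R Z c → ∀ (k : ℤ) (g : ℝ → ℂ) (b : ℂ),
  ContinuousOn g (Icc R Z) → ∃ u u₁ u₂, J2 (Icc R Z) u u₁ u₂ ∧
    (∀ z ∈ Icc R Z, LC c k u u₁ u₂ z = g z) ∧ u Z = 0 ∧ (|k| ≤ 1 → u₁ Z = b) ∧
    (2 ≤ |k| → u R = 0)

/-- elementary comparisons of the weights -/
structure WtC (C Y : ℝ) (c : ℂ) (Z z : ℝ) : Prop where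
  re0 : 0 < (rh c z).re
  re6 : ‖rh c z‖ ≤ 6
  sg6 : 1 / 6 ≤ sg c z
  sge : sg c z = (rh c z).re / ‖rh c z‖ ^ 2
  ta1 : 1 ≤ ta c z
  wN0 : 0 < wN c z
  wO0 : 0 < wO c z
  gN0 : 0 < gN c Z z
  gO0 : 0 < gO c Z z
  wNg : wN c z ≤ 6 * gN c Z z
  wOg : wO c z ≤ 6 * gO c Z z
  wNO : wN c z * ta c z ≤ C * wO c z
  gNO : gN c Z z * ta c z ≤ C * gO c Z z
  wOr : wO c z ≤ Y ^ (-3 / 4 : ℝ) * (rh c z).re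

def WTC : Prop := ∃ C : ℝ, 0 < C ∧ ∀ Y R Z c, 0 < Y → Cyl Y R Z c → (∀ z ∈ Icc R Z, WtC C Y c Z z) ∧
  ContinuousOn (rh c) (Icc R Z) ∧ ContinuousOn (sg c) (Icc R Z) ∧ ContinuousOn (ta c) (Icc R Z) ∧
  ContinuousOn (wN c) (Icc R Z) ∧ ContinuousOn (gN c Z) (Icc R Z) ∧
  ContinuousOn (wO c) (Icc R Z) ∧ ContinuousOn (gO c Z) (Icc R Z)

/-- the mode operator on a conical end (link of length `2π/√μ`) -/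
def LK (μ : ℝ) (k : ℤ) (u u₁ u₂ : ℝ → ℂ) (r : ℝ) : ℂ :=
  u₂ r + (1 / (r : ℂ) - r / 2) * u₁ r + (1 / 2 - μ * (k : ℂ) ^ 2 / (r : ℂ) ^ 2) * u r

/-- bounds of the jets on a conical end -/
structure BK (R : ℝ) (k : ℤ) (u u₁ u₂ : ℝ → ℂ) (M r : ℝ) : Prop where
  b0 : ‖u r‖ ≤ M * (r / R ^ 2)
  bt : |(k : ℝ)| * ‖u r‖ ≤ M * (r / R)
  btt : (k : ℝ) ^ 2 * ‖u r‖ ≤ M * r
  bz : ‖u₁ r‖ ≤ M * (1 / R ^ 2)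
  bzt : |(k : ℝ)| * ‖u₁ r‖ ≤ M
  bzz : ‖u₂ r‖ ≤ M * (1 / r)
  bv : ‖r * u₁ r - u r‖ ≤ M * (1 / r)

/-- a priori estimate on a conical end -/
def MODEK : Prop := ∀ μ : ℝ, 0 < μ → ∃ R₀ C : ℝ, 0 < C ∧ ∀ R, R₀ ≤ R → ∀ (k : ℤ)
  (u u₁ u₂ : ℝ → ℂ) (M K : ℝ), J2 (Ici R) u u₁ u₂ →
    (∀ r ∈ Ici R, ‖LK μ k u u₁ u₂ r‖ ≤ M * (1 / r)) → u R = 0 →
    (∀ r ∈ Ici R, ‖u r‖ ≤ K * r ∧ ‖u₁ r‖ ≤ K) → ∀ r ∈ Ici R, BK R k u u₁ u₂ (C * M) r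

/-- existence on a conical end -/
def MODEKX : Prop := ∀ μ : ℝ, 0 < μ → ∃ R₀ : ℝ, ∀ R, R₀ ≤ R → ∀ (k : ℤ) (g : ℝ → ℂ) (M : ℝ),
  ContinuousOn g (Ici R) → (∀ r ∈ Ici R, ‖g r‖ ≤ M * (1 / r)) →
    ∃ u u₁ u₂ K, J2 (Ici R) u u₁ u₂ ∧ (∀ r ∈ Ici R, LK μ k u u₁ u₂ r = g r) ∧ u R = 0 ∧
      ∀ r ∈ Ici R, ‖u r‖ ≤ K * r ∧ ‖u₁ r‖ ≤ K

end Vale.Agent.P218M
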