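import Vale.Agent.P218M.G3

/-!
# P218, block MODE: mode `0` in the heavy weights (helper80)
-/

set_option linter.all false

open Set Filter Topology
open scoped ComplexConjugate

namespace Vale.Agent.P218M

noncomputable section

/-- integration against a decreasing function -/
theorem back_int {A B : ℝ} {v v₁ : ℝ → ℂ} {P P₁ : ℝ → ℝ} (cv : ContinuousOn v (Icc A B))
    (cP : ContinuousOn P (Icc A B)) (dv : ∀ z ∈ Ioo A B, HasDerivAt v (v₁ z) z)
    (dP : ∀ z ∈ Ioo A B, HasDerivAt P (P₁ z) z) (h : ∀ z ∈ Ioo A B, ‖v₁ z‖ ≤ -P₁ z) :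
    ∀ z ∈ Icc A B, ‖v z - v B‖ ≤ P z - P B := by
  intro x hx
  have m : ∀ a : ℂ, ‖a‖ ≤ 1 → (a * v x).re - P x ≤ (a * v B).re - P B := fun a ha => by
    have d := fun z hz => (re_der ((dv z hz).const_mul a)).sub (dP z hz)
    refine monotoneOn_of_deriv_nonneg (convex_Icc A B) (f := fun z => (a * v z).re - P z)
      ((Complex.continuous_re.comp_continuousOn (continuousOn_const.mul cv)).sub cP)
      (fun z hz => ?_) (fun z hz => ?_) hx ⟨hx.1.trans hx.2, le_rfl⟩ hx.2 <;>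
      rw [interior_Icc] at hz
    · exact (d z hz).differentiableAt.differentiableWithinAt
    · erw [(d z hz).deriv]
      have := (abs_le.1 (Complex.abs_re_le_norm (a * v₁ z))).1
      rw [norm_mul] at this
      linarith [h z hz, mul_le_of_le_one_left (norm_nonneg (v₁ z)) ha]
  rcases eq_or_ne (v x - v B) 0 with e | e
  · simpa [e] using m 0 (by simp)
  have n0 := norm_pos_iff.2 e
  have := m (conj (v x - v B) / ‖v x - v B‖) (by
    rw [norm_div, Complex.norm_conj, Complex.norm_real, norm_norm, div_self n0.ne'])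
  have e2 : (conj (v x - v B) / ‖v x - v B‖ * (v x - v B)).re = ‖v x - v B‖ := by
    rw [div_mul_eq_mul_div, re_cj_self, ← Complex.ofReal_div, Complex.ofReal_re,
      mul_div_cancel_right₀ _ n0.ne']
  rw [mul_sub, Complex.sub_re] at e2
  linarith

variable {c : ℂ} {R Z z M : ℝ} {u u₁ u₂ : ℝ → ℂ}

/-- `(z² Re ρ) ^ (-3/4)` -/
def ph (c : ℂ) (z : ℝ) : ℝ := (z ^ 2 * (rh c z).re) ^ (-3 / 4 : ℝ)

namespace End

theorem ph_eq (h : End c R Z) (hz : z ∈ Icc R Z) :
    ph c z = z ^ (-3 / 2 : ℝ) * (rh c z).re ^ (-3 / 4 : ℝ) := by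
  rw [ph, Real.mul_rpow (sq_nonneg z) (h.x0 hz).le, ← Real.rpow_natCast,
    ← Real.rpow_mul (h.z0 hz).le]
  norm_num

theorem wO_eq (h : End c R Z) (hz : z ∈ Icc R Z) : wO c z = ph c z * (rh c z).re := by
  rw [h.ph_eq hz, wO, mul_assoc, ← Real.rpow_add_one (h.x0 hz).ne']
  norm_num

theorem ph_pos (h : End c R Z) (hz : z ∈ Icc R Z) : 0 < ph c z :=
  Real.rpow_pos_of_pos (mul_pos (pow_pos (h.z0 hz) 2) (h.x0 hz)) _

theorem ph_le (h : End c R Z) (hz : z ∈ Icc R Z) :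
    ph c z ≤ 1 / 8000 ∧ z ^ (-3 / 2 : ℝ) ≤ 1 / 8000 ∧ 30 ≤ z ^ 2 * (rh c z).re * ph c z := by
  have a := (h.h z hz).2.2
  refine ⟨(Real.rpow_le_rpow_of_nonpos (x := (20 : ℝ) ^ (4 : ℝ)) (by norm_num) (by linarith)
    (by norm_num)).trans (le_of_eq ?_), (Real.rpow_le_rpow_of_nonpos (x := (20 : ℝ) ^ (2 : ℝ))
      (by norm_num) (by linarith [h.z4 hz]) (by norm_num)).trans (le_of_eq ?_), ?_⟩
  · rw [← Real.rpow_mul (by norm_num)]; norm_num
  · rw [← Real.rpow_mul (by norm_num)]; norm_num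
  · rw [ph, mul_comm, ← Real.rpow_add_one (by linarith)]
    refine le_trans (le_of_eq ?_) (Real.rpow_le_rpow (x := (30 : ℝ) ^ (4 : ℝ)) (by norm_num)
      (by linarith) (by norm_num))
    rw [← Real.rpow_mul (by norm_num)]; norm_num

theorem hv_gO (h : End c R Z) (hz : z ∈ Icc R Z) :
    hv c z * gO c Z z = z ^ 2 * ph c z * (((rh c z).re)⁻¹ + z ^ 2 * ly Z z) := by
  have := (h.x0 hz).ne'
  rw [hv, gO, h.wO_eq hz]
  field_simp

/-- the barrier of the heavy estimate -/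
theorem ph_bar (h : End c R Z) (hz : z ∈ Icc R Z) : ∃ q, HasDerivAt
    (fun z => 3 * z ^ (-3 / 2 : ℝ) - ph c z - 8 * (ph c z * ly Z z)) q z ∧
      hv c z * gO c Z z / z / z ^ 2 ≤ -q := by
  have z0 := h.z0 hz
  have x0 := h.x0 hz
  have p0 := h.ph_pos hz
  have l0 := ly_pos Z z
  have e : z * (2 * c * z).re = 2 * ((rh c z).re - 2 + 2 * c.re) := by
    simp [rh, sq]; ring
  have d : HasDerivAt (ph c) (-3 * (((rh c z).re - 1 + c.re) / (z * (rh c z).re)) * ph c z) z :=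
    (((hasDerivAt_pow 2 z).mul ((rh_d2 c univ).re z trivial).1).rpow_const (p := -3 / 4)
      (Or.inl (mul_pos (pow_pos z0 2) x0).ne')).congr_deriv (by
        simp only [Pi.mul_apply]
        rw [Real.rpow_sub_one (mul_pos (pow_pos z0 2) x0).ne', ← ph, sq z, mul_assoc z z, e]
        field_simp
        norm_num
        ring)
  refine ⟨_, ((((hasDerivAt_id z).rpow_const (p := -3 / 2) (Or.inl z0.ne')).const_mul 3).sub
    d).sub ((d.mul (ly_d2 Z univ z trivial).1).const_mul 8), ?_⟩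
  obtain ⟨b1, b2, b3⟩ := h.h z hz
  have zz := h.zz hz
  have c1 : |c.re| ≤ 1 / 1000 := by
    nlinarith only [Complex.abs_re_le_norm c, b1, zz, norm_nonneg c]
  have x6 := (Complex.re_le_norm _).trans b2
  simp only [id]
  rw [Real.rpow_sub_one z0.ne', h.hv_gO hz]
  refine le_of_mul_le_mul_left ?_ (mul_pos z0 x0)
  have e1 : z * (rh c z).re * (z ^ 2 * ph c z * (((rh c z).re)⁻¹ + z ^ 2 * ly Z z) / z / z ^ 2) =
      ph c z + z ^ 2 * (rh c z).re * (ph c z * ly Z z) := by field_simp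
  have e2 : z * (rh c z).re * -(3 * (1 * (-3 / 2) * (z ^ (-3 / 2 : ℝ) / z)) -
      -3 * (((rh c z).re - 1 + c.re) / (z * (rh c z).re)) * ph c z -
      8 * (-3 * (((rh c z).re - 1 + c.re) / (z * (rh c z).re)) * ph c z * ly Z z +
        ph c z * (z / 4 * ly Z z))) = 9 / 2 * (z ^ (-3 / 2 : ℝ) * (rh c z).re) -
      3 * (((rh c z).re - 1 + c.re) * ph c z) - 24 * (((rh c z).re - 1 + c.re) *
        (ph c z * ly Z z)) + 2 * (z ^ 2 * (rh c z).re * (ph c z * ly Z z)) := by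
    field_simp
    ring
  rw [e1, e2]
  have k1 : 24 * (((rh c z).re - 1 + c.re) * (ph c z * ly Z z)) ≤
      z ^ 2 * (rh c z).re * (ph c z * ly Z z) := by
    rw [← mul_assoc]
    exact mul_le_mul_of_nonneg_right (by linarith [(abs_le.1 c1).2]) (mul_pos p0 l0).le
  have k2 : (3 * (rh c z).re - 1) * ph c z ≤ 9 / 2 * (z ^ (-3 / 2 : ℝ) * (rh c z).re) := by
    rw [h.ph_eq hz, mul_left_comm, mul_left_comm (9 / 2)]
    refine mul_le_mul_of_nonneg_left ?_ (Real.rpow_pos_of_pos z0 _).le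
    have t0 := Real.rpow_pos_of_pos x0 (-3 / 4)
    rcases le_total 1 (rh c z).re with k | k
    · nlinarith only [Real.rpow_le_one_of_one_le_of_nonpos k (by norm_num : (-3 / 4 : ℝ) ≤ 0), k,
        t0]
    · have t1 : (rh c z).re ^ (-3 / 4 : ℝ) * (rh c z).re ≤ 1 := by
        rw [← Real.rpow_add_one x0.ne']
        exact Real.rpow_le_one x0.le k (by norm_num)
      have t2 : 3 * (rh c z).re - 1 ≤ 9 / 2 * (rh c z).re ^ 2 := by
        nlinarith only [sq_nonneg (3 * (rh c z).re - 1)]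
      nlinarith only [mul_le_mul_of_nonneg_right t2 t0.le, mul_le_mul_of_nonneg_right t1 x0.le]
  nlinarith only [k1, k2, p0, mul_le_mul_of_nonneg_right (abs_le.1 c1).2 p0.le]

end End

theorem mode0h : MODE0H := by
  refine ⟨10 ^ 6, 200, by norm_num, fun R Z c hc u u₁ u₂ M J hg h0 h1 => ?_⟩
  have h := hc.toEnd le_rfl
  have sG : Slow (Icc R Z) (fun z => z) (3 / 10) fun z => hv c z * gO c Z z :=
    (h.sl_hv.mul h.sl_gO).mono (by norm_num)
  have hZ := h.mZ
  have Z0 := h.z0 hZ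
  have M0 : 0 ≤ M := nonneg_of_mul_nonneg_left ((norm_nonneg _).trans (hg Z hZ)) (sG.pos hZ)
  have D := J.d
  rw [interior_Icc] at D
  have s := @Ioo_subset_Icc_self ℝ _ R Z
  rw [← ph]
  have B0 : ∀ z ∈ Icc R Z, 0 < z ^ 2 * (z ^ (-3 / 2 : ℝ) + ph c Z) := fun z hz =>
    mul_pos (pow_pos (h.z0 hz) 2) (add_pos (Real.rpow_pos_of_pos (h.z0 hz) _) (h.ph_pos hZ))
  have B1 : ∀ z ∈ Icc R Z, z ^ (-3 / 2 : ℝ) + ph c Z ≤ 1 / 4000 := fun z hz => by
    linarith [(h.ph_le hz).2.1, (h.ph_le hZ).1]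
  choose! q q1 q2 using fun z hz => h.ph_bar (z := z) hz
  have st : ∀ m, 0 ≤ m → (∀ z ∈ Icc R Z, ‖u z‖ ≤ m * (z ^ 2 * (z ^ (-3 / 2 : ℝ) + ph c Z))) →
      ∀ z ∈ Icc R Z, ‖u₁ z - ((2 / z : ℝ) : ℂ) * u z‖ ≤
        8 * (M + m / 144) * (hv c z * gO c Z z / z) ∧
        ‖u z‖ ≤ 72 * (M + m / 144) * (z ^ 2 * (z ^ (-3 / 2 : ℝ) + ph c Z)) := fun m m0 hm => by
    have b := h.pstep (M := M + m / 144) (a := fun z => (2 / z : ℝ)) sG (fun z hz => h.two_der hz)
      (fun z hz => le_of_eq (Complex.ofReal_re _)) J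
      (fun z hz => by
        have z0 := h.z0 hz
        have x0 := h.x0 hz
        have x6 := (Complex.re_le_norm _).trans (h.h z hz).2.1
        have a := mul_le_mul_of_nonneg_left (hm z hz) (show 0 ≤ 2 / z ^ 2 by positivity)
        have e : 2 / z ^ 2 * (m * (z ^ 2 * (z ^ (-3 / 2 : ℝ) + ph c Z))) =
          2 * (m * (z ^ (-3 / 2 : ℝ) + ph c Z)) := by field_simp
        have g : 1 / 2 ≤ hv c z * gO c Z z := by
          rw [h.hv_gO hz, mul_add]
          have g1 : 1 / 2 ≤ z ^ 2 * ph c z * ((rh c z).re)⁻¹ := by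
            rw [← div_eq_mul_inv, le_div_iff₀ x0]
            nlinarith only [(h.ph_le hz).2.2, mul_le_mul_of_nonneg_left x6
              (mul_pos (pow_pos z0 2) (h.ph_pos hz)).le, x6]
          linarith [mul_pos (mul_pos (pow_pos z0 2) (h.ph_pos hz))
            (mul_pos (pow_pos z0 2) (ly_pos Z z))]
        rw [h.lc0 hz, h.two_sq hz]
        linarith [hg z hz, mul_le_mul_of_nonneg_left (B1 z hz) m0, mul_le_mul_of_nonneg_left g m0])
      (by
        have e3 : hv c Z * (Z * wO c Z) ≤ hv c Z * gO c Z Z / Z := by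
          rw [mul_div_assoc]
          refine mul_le_mul_of_nonneg_left ?_ (h.sl_hv.pos hZ).le
          rw [le_div_iff₀ Z0, gO, ly_self]
          nlinarith only [mul_pos (h.sl_wO.pos hZ) (inv_pos.2 (h.x0 hZ))]
        rw [h0, mul_zero, sub_zero]
        exact h1.trans (mul_le_mul (by linarith) e3 (mul_pos (h.sl_hv.pos hZ)
          (mul_pos Z0 (h.sl_wO.pos hZ))).le (by positivity)))
    have n0 : ∀ z ∈ Icc R Z, ((z : ℂ) ^ 2) ≠ 0 := fun z hz =>
      pow_ne_zero 2 (Complex.ofReal_ne_zero.2 (h.z0 hz).ne')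
    have b' := back_int (v := fun z => u z / z ^ 2)
      (v₁ := fun z => (u₁ z - ((2 / z : ℝ) : ℂ) * u z) / z ^ 2)
      (J.c0.div (by fun_prop) n0)
      (fun z hz => ((q1 z hz).const_mul (8 * (M + m / 144))).continuousAt.continuousWithinAt)
      (fun z hz => ((D z hz).1.div ((hasDerivAt_id z).ofReal_comp.pow 2) (n0 z (s hz))).congr_deriv
        (by
          have := Complex.ofReal_ne_zero.2 (h.z0 (s hz)).ne'
          simp
          field_simp))
      (fun z hz => (q1 z (s hz)).const_mul _)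
      (fun z hz => by
        rw [norm_div, norm_pow, Complex.norm_real, Real.norm_eq_abs, sq_abs, ← mul_neg]
        refine le_trans ?_ (mul_le_mul_of_nonneg_left (q2 z (s hz)) (by positivity))
        rw [← mul_div_assoc]
        exact div_le_div_of_nonneg_right (b z (s hz)) (sq_nonneg z))
    refine fun z hz => ⟨b z hz, ?_⟩
    have := b' z hz
    have z0 := h.z0 hz
    rw [h0, zero_div, sub_zero, norm_div, norm_pow, Complex.norm_real, Real.norm_eq_abs, sq_abs,
      div_le_iff₀ (pow_pos z0 2), ly_self, ← mul_sub] at this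
    refine this.trans ?_
    rw [show 72 * (M + m / 144) * (z ^ 2 * (z ^ (-3 / 2 : ℝ) + ph c Z)) =
      8 * (M + m / 144) * (9 * (z ^ (-3 / 2 : ℝ) + ph c Z)) * z ^ 2 by ring]
    gcongr
    linarith [Real.rpow_pos_of_pos z0 (-3 / 2), Real.rpow_pos_of_pos Z0 (-3 / 2), h.ph_pos hz,
      mul_pos (h.ph_pos hz) (ly_pos Z z)]
  have b : ∀ z ∈ Icc R Z, ‖u z‖ ≤ 144 * M * (z ^ 2 * (z ^ (-3 / 2 : ℝ) + ph c Z)) :=
    fun x hx => not_lt.1 fun hc => by
      obtain ⟨y, hy, m, m1, m2, m3⟩ := ex_max J.c0 ((continuousOn_id.pow 2).mul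
        ((continuousOn_id.rpow_const fun z hz => Or.inl (h.z0 hz).ne').add continuousOn_const))
        B0 hx hc
      have := (st m (by linarith) m3 y hy).2
      rw [m2] at this
      linarith [le_of_mul_le_mul_right this (B0 y hy)]
  intro z hz
  have p := (st _ (by positivity) b z hz).1
  rw [← mul_div_assoc] at p
  have z0 := h.z0 hz
  obtain ⟨e1, e2⟩ := h.der_le hz (hg z hz) p ((b z hz).trans (mul_le_mul_of_nonneg_left
    (mul_le_mul_of_nonneg_left (B1 z hz) (sq_nonneg z)) (by positivity)))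
  have e : hv c z * (gO c Z z + (rh c z).re) = hv c z * gO c Z z + z ^ 2 := by
    rw [mul_add, hv, div_mul_cancel₀ _ (h.x0 hz).ne']
  have g0 := mul_nonneg M0 (sG.pos hz).le
  have g1 := mul_nonneg M0 (sq_nonneg z)
  rw [e]
  refine ⟨(b z hz).trans (mul_le_mul_of_nonneg_right (by linarith) (B0 z hz).le), e1.trans ?_,
    by linarith⟩
  rw [← mul_div_assoc (200 * M)]
  exact div_le_div_of_nonneg_right (by linarith) z0.le

end

end Vale.Agent.P218M
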