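import Vale.Agent.P218M.Spec

/-! Per-mode estimates, second series: general exponent, heavy mode `0`, half lines. -/

open Set

noncomputable section

namespace Vale.Agent.P218M

/-- weight of the modes `k ≠ 0` with exponent `κ` -/
def wK (κ : ℝ) (c : ℂ) (z : ℝ) : ℝ := z ^ (2 - 2 * κ) * ‖rh c z‖ ^ κ
/-- the data weight which belongs to the weight `w` -/
def gW (w : ℝ → ℝ) (c : ℂ) (Z z : ℝ) : ℝ := w z * (sg c z + z ^ 2 * ly Z z)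
/-- the heavy factor `z² / Re ρ` -/
def hv (c : ℂ) (z : ℝ) : ℝ := z ^ 2 / (rh c z).re

/-- bounds of all jets of a mode `k ≠ 0` for the weight `w` -/
structure BW (w : ℝ → ℝ) (c : ℂ) (Z : ℝ) (k : ℤ) (u u₁ u₂ : ℝ → ℂ) (M z : ℝ) : Prop where
  b0 : ‖u z‖ ≤ M * w z
  bt : |(k : ℝ)| * ‖u z‖ ≤ M * √(w z * gW w c Z z / sg c z)
  btt : (k : ℝ) ^ 2 * ‖u z‖ ≤ M * (gW w c Z z / sg c z)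
  bz : ‖u₁ z‖ ≤ M * (gW w c Z z * ta c z / z)
  bzt : |(k : ℝ)| * ‖u₁ z‖ ≤ M * (gW w c Z z * ta c z * √‖rh c z‖)
  bzz : ‖u₂ z‖ ≤ M * (gW w c Z z * ta c z)

/-- all modes `k ≠ 0` -/
def MODEN : Prop := ∃ Y C : ℝ, 0 < C ∧ ∀ κ ∈ Icc (17 / 32 : ℝ) (63 / 32), ∀ R Z c, Cyl Y R Z c →
  ∀ k : ℤ, k ≠ 0 → ∀ (u u₁ u₂ : ℝ → ℂ) (M : ℝ), J2 (Icc R Z) u u₁ u₂ →
    (∀ z ∈ Icc R Z, ‖LC c k u u₁ u₂ z‖ ≤ M * gW (wK κ c) c Z z) → u Z = 0 →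
    (|k| = 1 → ‖u₁ Z‖ ≤ M * (Z * wK κ c Z)) → (2 ≤ |k| → u R = 0) →
    ∀ z ∈ Icc R Z, BW (wK κ c) c Z k u u₁ u₂ (C * M) z

/-- mode `0`, heavy weights, sharp form -/
def MODE0H : Prop := ∃ Y C : ℝ, 0 < C ∧ ∀ R Z c, Cyl Y R Z c →
  ∀ (u u₁ u₂ : ℝ → ℂ) (M : ℝ), J2 (Icc R Z) u u₁ u₂ →
    (∀ z ∈ Icc R Z, ‖LC c 0 u u₁ u₂ z‖ ≤ M * (hv c z * gO c Z z)) → u Z = 0 →
    ‖u₁ Z‖ ≤ M * (hv c Z * (Z * wO c Z)) → ∀ z ∈ Icc R Z,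
      ‖u z‖ ≤ C * M * (z ^ 2 * (z ^ (-3 / 2 : ℝ) + (Z ^ 2 * (rh c Z).re) ^ (-3 / 4 : ℝ))) ∧
      ‖u₁ z‖ ≤ C * M * (hv c z * (gO c Z z + (rh c z).re) / z) ∧
      ‖u₂ z‖ ≤ C * M * (hv c z * (gO c Z z + (rh c z).re))

/-- comparisons between the natural exponent `31/16`, the heavy exponent `19/32` and mode `0` -/
def WTK : Prop := ∃ C : ℝ, 0 < C ∧ ∀ Y R Z c, 1 ≤ Y → Cyl Y R Z c →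
  (∀ κ, ContinuousOn (wK κ c) (Icc R Z) ∧ ContinuousOn (gW (wK κ c) c Z) (Icc R Z)) ∧
  ContinuousOn (hv c) (Icc R Z) ∧ ∀ z ∈ Icc R Z, (∀ κ, 0 < wK κ c z) ∧ 0 < hv c z ∧
    hv c z * wK (31 / 16) c z ≤ C * wK (19 / 32) c z ∧
    (∀ κ ∈ Icc (7 / 4 : ℝ) 2, wK κ c z ≤ C * wN c z) ∧
    wK (19 / 32) c z / hv c z ≤ C * (z ^ (-19 / 16 : ℝ) * (rh c z).re * √‖rh c z‖)

/-- weight on a half line -/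
def wH (a ε z : ℝ) : ℝ := z ^ (-a) + ε

/-- bounds of the jets on a half line -/
structure BH (w : ℝ → ℝ) (k : ℤ) (u u₁ u₂ : ℝ → ℂ) (M z : ℝ) : Prop where
  b0 : (1 + (k : ℝ) ^ 2) * ‖u z‖ ≤ M * w z
  bz : ‖u₁ z‖ ≤ M * (w z / z)
  bzt : |(k : ℝ)| * ‖u₁ z‖ ≤ M * w z
  bzz : ‖u₂ z‖ ≤ M * w z

/-- a priori estimate on a half line, `ρ = 2` -/
def MODEH : Prop := ∃ R₀ C : ℝ, 0 < C ∧ ∀ R, R₀ ≤ R → ∀ a ∈ Icc (-1 / 2 : ℝ) (31 / 16),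
  ∀ ε, 0 ≤ ε → ∀ (k : ℤ) (u u₁ u₂ : ℝ → ℂ) (M K : ℝ), J2 (Ici R) u u₁ u₂ →
    (∀ z ∈ Ici R, ‖LC 0 k u u₁ u₂ z‖ ≤ M * wH a ε z) → (2 ≤ |k| → u R = 0) →
    (∀ z ∈ Ici R, ‖u z‖ ≤ K * √z ∧ ‖u₁ z‖ ≤ K * z) → ∀ z ∈ Ici R, BH (wH a ε) k u u₁ u₂ (C * M) z

/-- existence on a half line, `ρ = 2` -/
def MODEHX : Prop := ∃ R₀ : ℝ, ∀ R, R₀ ≤ R → ∀ (k : ℤ) (g : ℝ → ℂ) (M : ℝ),
  ContinuousOn g (Ici R) → (∀ z ∈ Ici R, ‖g z‖ ≤ M * √z) →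
    ∃ u u₁ u₂ K, J2 (Ici R) u u₁ u₂ ∧ (∀ z ∈ Ici R, LC 0 k u u₁ u₂ z = g z) ∧
      (2 ≤ |k| → u R = 0) ∧ ∀ z ∈ Ici R, ‖u z‖ ≤ K * √z ∧ ‖u₁ z‖ ≤ K * z

end Vale.Agent.P218M
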