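import Vale.Agent.P218M.Wt
import Vale.Agent.P218M.Spec2

/-! P218, block MODE: comparisons of the weights with general exponent -/

set_option linter.all false

open Set

noncomputable section

namespace Vale.Agent.P218M

theorem wtk_key {z a n : ℝ} (z0 : 0 < z) (a0 : 0 < a) (an : a ≤ n) (h : n ^ 2 ≤ 6 * a)
    (hz : 1 ≤ z ^ 2 * a) :
    z ^ 2 / a * (z ^ (2 - 2 * (31 / 16) : ℝ) * n ^ (31 / 16 : ℝ)) ≤
      6 * (z ^ (2 - 2 * (19 / 32) : ℝ) * n ^ (19 / 32 : ℝ)) ∧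
    (∀ κ ∈ Icc (7 / 4 : ℝ) 2, z ^ (2 - 2 * κ) * n ^ κ ≤
      6 * (z ^ (-3 / 2 : ℝ) * n ^ (7 / 4 : ℝ))) ∧
    z ^ (2 - 2 * (19 / 32) : ℝ) * n ^ (19 / 32 : ℝ) / (z ^ 2 / a) ≤
      6 * (z ^ (-19 / 16 : ℝ) * a * √n) := by
  have n0 : 0 < n := a0.trans_le an
  have n6 : n ≤ 6 := by nlinarith
  obtain ⟨x, rfl⟩ : ∃ x, z = Real.exp x := ⟨_, (Real.exp_log z0).symm⟩
  obtain ⟨s, rfl⟩ : ∃ x, a = Real.exp x := ⟨_, (Real.exp_log a0).symm⟩
  obtain ⟨t, rfl⟩ : ∃ x, n = Real.exp x := ⟨_, (Real.exp_log n0).symm⟩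
  obtain ⟨L, e⟩ : ∃ x, (6 : ℝ) = Real.exp x := ⟨_, (Real.exp_log (by norm_num)).symm⟩
  have L0 : 0 ≤ L := Real.one_le_exp_iff.1 (e ▸ by norm_num)
  rw [e] at h n6 ⊢
  rw [← Real.exp_zero] at hz
  simp only [Real.sqrt_eq_rpow, ← Real.exp_nat_mul, ← Real.exp_mul, ← Real.exp_add,
    ← Real.exp_sub, Real.exp_le_exp, Nat.cast_ofNat] at *
  refine ⟨by linarith, fun κ hκ => ?_, by linarith⟩
  nlinarith [mul_le_mul_of_nonneg_left (show t - 2 * x ≤ 2 * L by linarith) (sub_nonneg.2 hκ.1),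
    mul_le_mul_of_nonneg_right hκ.2 L0]

theorem wtk : WTK := by
  refine ⟨6, by norm_num, fun Y R Z c Y1 h => ?_⟩
  have Y0 : 0 < Y := one_pos.trans_le Y1
  have c0 : ContinuousOn (rh c) (Icc R Z) := (cont_rh c).continuousOn
  have cr : ContinuousOn (fun z => (rh c z).re) (Icc R Z) :=
    Complex.continuous_re.comp_continuousOn c0
  have a0 : ∀ z ∈ Icc R Z, (rh c z).re ≠ 0 := fun z hz => (h.re0 Y0 hz).ne'
  have r0 : ∀ z ∈ Icc R Z, rh c z ≠ 0 := fun z hz e => a0 z hz (by rw [e, Complex.zero_re])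
  have cs : ContinuousOn (sg c) (Icc R Z) :=
    Complex.continuous_re.comp_continuousOn (c0.inv₀ r0)
  have cl : ContinuousOn (fun z => z ^ 2 * ly Z z) (Icc R Z) :=
    ((continuous_pow 2).mul (cont_ly Z)).continuousOn
  have cK : ∀ κ, ContinuousOn (wK κ c) (Icc R Z) := fun κ =>
    (continuousOn_id.rpow_const fun z hz => .inl (h.z0 hz).ne').mul
      (c0.norm.rpow_const fun z hz => .inl (norm_ne_zero_iff.2 (r0 z hz)))
  refine ⟨fun κ => ⟨cK κ, (cK κ).mul (cs.add cl)⟩, (continuous_pow 2).continuousOn.div cr a0,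
    fun z hz => ?_⟩
  have z0 := h.z0 hz
  have p0 := h.re0 Y0 hz
  have n0 := norm_pos_iff.2 (r0 z hz)
  exact ⟨fun κ => by unfold wK; positivity, by unfold hv; positivity,
    wtk_key z0 p0 (Complex.re_le_norm _) (h.dsc z hz) (Y1.trans (h.tip z hz))⟩

end Vale.Agent.P218M
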