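import Vale.Agent.P218M.Log

/-!
# P218, block MODE: the mode `0` on a cylindrical end (helper80)
-/

set_option linter.all false

open Set Filter Topology

namespace Vale.Agent.P218M

noncomputable section

variable {c : ℂ} {R Z z : ℝ}

namespace End

theorem sl_wO (h : End c R Z) : Slow (Icc R Z) (fun z => z) (1 / 200) (wO c) :=
  ((h.sl_id.rpow (by norm_num) (by norm_num [abs_le])).mul
    (h.sl_re.rpow (by norm_num) (by norm_num [abs_le]))).mono (by norm_num)

theorem sl_gO (h : End c R Z) : Slow (Icc R Z) (fun z => z) (27 / 100) (gO c Z) :=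
  (h.sl_wO.mul (((h.sl_re.inv (by norm_num)).mono (e' := 26 / 100) (by norm_num)).add
    ((h.sl_sq.mul h.sl_ly).mono (by norm_num)))).mono (by norm_num)

theorem wO_le (h : End c R Z) (hz : z ∈ Icc R Z) : wO c z ≤ 6 * gO c Z z := by
  have w0 := h.sl_wO.pos hz
  have a : 6⁻¹ ≤ ((rh c z).re)⁻¹ :=
    inv_anti₀ (h.x0 hz) ((Complex.re_le_norm _).trans (h.h z hz).2.1)
  rw [gO]
  nlinarith only [mul_le_mul_of_nonneg_left a w0.le,
    mul_pos w0 (mul_pos (pow_pos (h.z0 hz) 2) (ly_pos Z z))]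

theorem wO_bar (h : End c R Z) (hz : z ∈ Icc R Z) : ∃ a,
    HasDerivAt (fun z => wO c z * (2 - ly Z z)) a z ∧
      a + -(2 / z) * (wO c z * (2 - ly Z z)) ≤ -(gO c Z z / z / 4) := by
  have z0 := h.z0 hz
  have x0 := h.x0 hz
  have w0 := h.sl_wO.pos hz
  have d : HasDerivAt (wO c) ((-3 / 2 / z + 1 / 4 * ((2 * c * z).re / (rh c z).re)) * wO c z) z :=
    (((hasDerivAt_id z).rpow_const (p := -3 / 2) (Or.inl z0.ne')).mul
      (((rh_d2 c univ).re z trivial).1.rpow_const (p := 1 / 4) (Or.inl x0.ne'))).congr_deriv (by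
        simp only [id, wO]
        rw [Real.rpow_sub_one z0.ne', Real.rpow_sub_one x0.ne']
        ring)
  refine ⟨_, d.mul ((ly_d2 Z univ z trivial).1.const_sub 2), le_of_mul_le_mul_left ?_ z0⟩
  have e : z * (2 * c * z).re = 2 * ((rh c z).re - 2 + 2 * c.re) := by
    simp [rh, sq]; ring
  have c1 : c.re ≤ 1 / 2 := by
    nlinarith only [Complex.re_le_norm c, (h.h z hz).1, h.zz hz, norm_nonneg c]
  have i0 := inv_pos.2 x0
  have e2 : z * (-3 / 2 / z + 1 / 4 * ((2 * c * z).re / (rh c z).re)) =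
      -1 - (1 - c.re) * ((rh c z).re)⁻¹ := by
    rw [mul_add, mul_left_comm, ← mul_div_assoc z (2 * c * z).re, e]
    field_simp
    ring
  have e3 : z * ((-3 / 2 / z + 1 / 4 * ((2 * c * z).re / (rh c z).re)) * wO c z * (2 - ly Z z) +
      wO c z * -(z / 4 * ly Z z) + -(2 / z) * (wO c z * (2 - ly Z z))) =
      wO c z * ((-3 - (1 - c.re) * ((rh c z).re)⁻¹) * (2 - ly Z z) - z ^ 2 * ly Z z / 4) := by
    rw [mul_add, mul_add, ← mul_assoc z, ← mul_assoc z, e2]
    field_simp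
    ring
  have e4 : z * -(gO c Z z / z / 4) =
      wO c z * (-(((rh c z).re)⁻¹ + z ^ 2 * ly Z z) / 4) := by rw [gO]; field_simp
  rw [e3, e4]
  gcongr
  have l1 := h.ly_le hz
  nlinarith only [l1, i0, mul_le_mul_of_nonneg_right c1 i0.le,
    mul_nonneg (sub_nonneg.2 l1) (mul_nonneg (by linarith : 0 ≤ 1 - c.re) i0.le)]

variable {u u₁ u₂ : ℝ → ℂ} {M m : ℝ}

theorem step0 (h : End c R Z) (J : J2 (Icc R Z) u u₁ u₂)
    (hg : ∀ z ∈ Icc R Z, ‖u₂ z - z / 2 * u₁ z + u z‖ ≤ M * gO c Z z) (h0 : u Z = 0)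
    (h1 : ‖u₁ Z‖ ≤ M * (Z * wO c Z)) (M0 : 0 ≤ M) (m0 : 0 ≤ m)
    (hm : ∀ z ∈ Icc R Z, ‖u z‖ ≤ m * wO c z) : ∀ z ∈ Icc R Z,
      ‖u₁ z + (-(2 / z) : ℝ) * u z‖ ≤ 8 * (M + m / 128) * (gO c Z z / z) ∧
        ‖u z‖ ≤ 64 * (M + m / 128) * wO c z := by
  have D := J.d
  rw [interior_Icc] at D
  have hZ : Z ∈ Icc R Z := ⟨by linarith [h.RZ], le_rfl⟩
  have s := @Ioo_subset_Icc_self ℝ _ R Z
  obtain ⟨P₁, P₂, dP, hP⟩ := (h.sl_gO.mul (h.sl_id.inv (by norm_num))).mono (e' := 3 / 10)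
    (by norm_num)
  have da : ∀ z ∈ Icc R Z, HasDerivAt (fun z : ℝ => ((-(2 / z) : ℝ) : ℂ)) (2 / z ^ 2 : ℝ) z :=
    fun z hz => ((((hasDerivAt_const z 2).div (hasDerivAt_id z) (h.z0 hz).ne').neg).congr_deriv
      (by simp [neg_div])).ofReal_comp
  have a := back_cmp (M := 8 * (M + m / 128)) (b := fun z => 2 / z - z / 2)
    (H := fun z => gO c Z z / 8)
    (J.c1.add (ContinuousOn.mul (fun z hz => (da z hz).continuousAt.continuousWithinAt) J.c0))
    dP.cont.1 (fun z hz => (D z hz).2.add ((da z (s hz)).mul (D z hz).1))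
    (fun z hz => (dP z (s hz)).1) (fun z hz => (hP z hz).2.1)
    (fun z hz => by
      have hz := s hz
      have g0 := h.sl_gO.pos hz
      have z0 := h.z0 hz
      have a := (le_abs_self _).trans (hP z hz).2.2.1
      have e : z * (gO c Z z * z⁻¹) = gO c Z z := by field_simp
      have b : 2 / z ≤ z / 100 := by rw [div_le_iff₀ z0]; linarith [h.zz hz]
      exact ⟨by positivity, by nlinarith only [a, e, g0,
        mul_le_mul_of_nonneg_right b (hP z hz).2.1.le]⟩)
    (fun z hz => by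
      have hz := s hz
      have z0 := h.z0 hz
      have z1 : (z : ℂ) ≠ 0 := Complex.ofReal_ne_zero.2 z0.ne'
      have e := norm_sub_le (u₂ z - z / 2 * u₁ z + u z) ((2 / z ^ 2 : ℝ) * u z)
      rw [norm_mul, Complex.norm_real, Real.norm_of_nonneg (by positivity)] at e
      have b : 2 / z ^ 2 ≤ 1 / 768 := by rw [div_le_iff₀ (by positivity)]; linarith [h.zz hz]
      have e2 := mul_le_mul b ((hm z hz).trans (mul_le_mul_of_nonneg_left (h.wO_le hz) m0))
        (norm_nonneg _) (by norm_num)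
      refine (le_of_eq_of_le (congrArg _ ?_) e).trans (by linarith [hg z hz])
      simp only [Pi.add_apply, Pi.mul_apply]
      push_cast
      field_simp
      ring)
    (by
      have Z0 := h.z0 hZ
      have : Z * wO c Z ≤ gO c Z Z * Z⁻¹ := by
        rw [← div_eq_mul_inv, le_div_iff₀ Z0, gO, ly_self]
        nlinarith only [mul_pos (h.sl_wO.pos hZ) (inv_pos.2 (h.x0 hZ))]
      simp only [Pi.add_apply, Pi.mul_apply, h0, mul_zero, add_zero]
      exact h1.trans (mul_le_mul (by linarith) this (mul_pos Z0 (h.sl_wO.pos hZ)).le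
        (by positivity)))
  choose! Q Q1 Q2 using fun z hz => h.wO_bar (z := z) hz
  have p : ∀ z ∈ Icc R Z, 0 < wO c z * (2 - ly Z z) := fun z hz =>
    mul_pos (h.sl_wO.pos hz) (by linarith [h.ly_le hz])
  have b := back_cmp (M := 32 * (M + m / 128)) (b := fun z => -(2 / z))
    (H := fun z => gO c Z z / z / 4) J.c0
    (fun z hz => (Q1 z hz).continuousAt.continuousWithinAt) (fun z hz => (D z hz).1)
    (fun z hz => Q1 z (s hz)) p
    (fun z hz => ⟨div_pos (div_pos (h.sl_gO.pos (s hz)) (h.z0 (s hz))) four_pos, Q2 z (s hz)⟩)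
    (fun z hz => (a z (s hz)).trans (le_of_eq (by ring)))
    (by rw [h0, norm_zero]; exact mul_nonneg (by positivity) (p Z hZ).le)
  refine fun z hz => ⟨a z hz, (b z hz).trans ?_⟩
  have := mul_nonneg (show 0 ≤ M + m / 128 by positivity)
    (mul_pos (h.sl_wO.pos hz) (ly_pos Z z)).le
  linarith

end End

theorem mode0 : MODE0 := by
  refine ⟨10 ^ 6, 2000, by norm_num, fun R Z c hc u u₁ u₂ M J hg h0 h1 z hz => ?_⟩
  have h := hc.toEnd le_rfl
  simp only [LC, Int.cast_zero, ne_eq, OfNat.ofNat_ne_zero, not_false_eq_true, zero_pow, zero_div,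
    sub_zero, one_mul] at hg
  have g0 := h.sl_gO.pos hz
  have w0 := h.sl_wO.pos hz
  have z0 := h.z0 hz
  have M0 : 0 ≤ M := nonneg_of_mul_nonneg_left ((norm_nonneg _).trans (hg z hz)) g0
  have a : ∀ z ∈ Icc R Z, ‖u z‖ ≤ 128 * M * wO c z := fun x hx => not_lt.1 fun hc => by
    obtain ⟨y, hy, m, m1, m2, m3⟩ := ex_max J.c0 h.sl_wO.cont (fun z hz => h.sl_wO.pos hz) hx hc
    have := (h.step0 J hg h0 h1 M0 (by linarith) m3 y hy).2
    rw [m2] at this
    linarith [le_of_mul_le_mul_right this (h.sl_wO.pos hy)]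
  have b := (h.step0 J hg h0 h1 M0 (by positivity) a z hz).1
  have a := a z hz
  have a' := a.trans (mul_le_mul_of_nonneg_left (h.wO_le hz) (by positivity))
  have bz : z * ‖u₁ z‖ ≤ 1552 * (M * gO c Z z) := by
    have e := norm_sub_le (u₁ z + (-(2 / z) : ℝ) * u z) ((-(2 / z) : ℝ) * u z)
    rw [add_sub_cancel_right, norm_mul, Complex.norm_real, norm_neg,
      Real.norm_of_nonneg (by positivity)] at e
    have e1 : z * (8 * (M + 128 * M / 128) * (gO c Z z / z) + 2 / z * ‖u z‖) =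
      16 * (M * gO c Z z) + 2 * ‖u z‖ := by field_simp; ring
    linarith [mul_le_mul_of_nonneg_left (e.trans (add_le_add_left b _)) z0.le]
  refine ⟨by linarith [mul_nonneg M0 w0.le], ?_, ?_⟩
  · rw [← mul_div_assoc, le_div_iff₀' z0]
    linarith [mul_nonneg M0 g0.le]
  · have e : u₂ z = u₂ z - z / 2 * u₁ z + u z + z / 2 * u₁ z - u z := by ring
    have e1 := (norm_sub_le _ _).trans (add_le_add_left (norm_add_le
      (u₂ z - z / 2 * u₁ z + u z) (z / 2 * u₁ z)) ‖u z‖)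
    rw [← e, norm_mul, norm_div, Complex.norm_real, Real.norm_of_nonneg z0.le,
      Complex.norm_ofNat] at e1
    linarith [hg z hz, mul_nonneg M0 g0.le]

end

end Vale.Agent.P218M
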