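import Vale.Agent.P218M.Spec

/-!
# P218, block MODE: the modes on a conical end (helper80)
-/

set_option linter.all false

open Set Filter Topology

namespace Vale.Agent.P218M

noncomputable section

/-- backward comparison from infinity -/
theorem back_half {A M : ℝ} {v v₁ : ℝ → ℂ} {b P P₁ p p₁ H : ℝ → ℝ}
    (cv : ContinuousOn v (Ici A)) (cP : ContinuousOn P (Ici A)) (cp : ContinuousOn p (Ici A))
    (dv : ∀ z ∈ Ioi A, HasDerivAt v (v₁ z) z) (dP : ∀ z ∈ Ioi A, HasDerivAt P (P₁ z) z)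
    (dp : ∀ z ∈ Ioi A, HasDerivAt p (p₁ z) z) (P0 : ∀ z ∈ Ici A, 0 < P z)
    (p0 : ∀ z ∈ Ici A, 0 ≤ p z) (hH : ∀ z ∈ Ioi A, 0 < H z ∧ P₁ z + b z * P z ≤ -H z)
    (hp : ∀ z ∈ Ioi A, p₁ z + b z * p z ≤ 0) (M0 : 0 ≤ M)
    (hv : ∀ z ∈ Ioi A, ‖v₁ z + b z * v z‖ ≤ M * H z)
    (hB : ∀ ε > 0, ∃ᶠ z in atTop, ‖v z‖ ≤ ε * p z) : ∀ z ∈ Ici A, ‖v z‖ ≤ M * P z := by
  intro x hx
  have key : ∀ ε > 0, ‖v x‖ ≤ (M + ε) * P x + ε * p x := fun ε ε0 => by
    obtain ⟨B, h1, h2⟩ := ((hB ε ε0).and_eventually (eventually_ge_atTop x)).exists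
    have s1 : Icc A B ⊆ Ici A := Icc_subset_Ici_self
    have Mp : 0 < M + ε := by positivity
    have := back_cmp (M := 1) (b := b) (P := fun z => (M + ε) * P z + ε * p z)
      (H := fun z => (M + ε) * H z) (cv.mono s1)
      (((cP.mono s1).const_smul (M + ε)).add ((cp.mono s1).const_smul ε)) (fun z hz => dv z hz.1)
      (fun z hz => ((dP z hz.1).const_mul (M + ε)).add ((dp z hz.1).const_mul ε))
      (fun z hz => add_pos_of_pos_of_nonneg (mul_pos Mp (P0 z hz.1))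
        (mul_nonneg ε0.le (p0 z hz.1)))
      (fun z hz => ⟨mul_pos Mp (hH z hz.1).1, by
        have := mul_le_mul_of_nonneg_left (hH z hz.1).2 Mp.le
        have := mul_le_mul_of_nonneg_left (hp z hz.1) ε0.le
        linarith⟩)
      (fun z hz => by nlinarith only [hv z hz.1, (hH z hz.1).1, ε0])
      (by nlinarith only [h1, mul_pos Mp (P0 B (hx.trans h2))]) x ⟨hx, h2⟩
    simpa using this
  have t : Tendsto (fun ε : ℝ => (M + ε) * P x + ε * p x) (𝓝[>] 0) (𝓝 ((M + 0) * P x + 0 * p x)) :=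
    (Continuous.tendsto (by fun_prop) 0).mono_left nhdsWithin_le_nhds
  simpa using ge_of_tendsto t (eventually_mem_nhdsWithin.mono key)

theorem fr_pow {f : ℝ → ℝ} {A K : ℝ} {n : ℕ} (h : ∀ z ∈ Ici A, f z ≤ K * z ^ n) :
    ∀ ε > 0, ∃ᶠ z in atTop, f z ≤ ε * z ^ (n + 1) := fun ε ε0 => by
  refine Eventually.frequently ?_
  filter_upwards [eventually_ge_atTop A, eventually_ge_atTop 0, eventually_ge_atTop (K / ε)]
    with z h1 h2 h3
  rw [div_le_iff₀' ε0] at h3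
  rw [pow_succ', ← mul_assoc]
  exact (h z h1).trans (mul_le_mul_of_nonneg_right h3 (pow_nonneg h2 n))

variable {R κ M K : ℝ} {u u₁ u₂ : ℝ → ℂ}

theorem wK_d2 (R0 : 0 < R) : D2 (Ici R) (fun r => 4 / R ^ 2 * r - 2 * r⁻¹)
    (fun r => 4 / R ^ 2 + 2 * (r ^ 2)⁻¹) (fun r => -4 * (r ^ 3)⁻¹) := fun r hr => by
  have r0 : r ≠ 0 := (R0.trans_le hr).ne'
  exact ⟨(((hasDerivAt_id r).const_mul _).sub ((hasDerivAt_inv r0).const_mul 2)).congr_deriv
    (by ring), ((((hasDerivAt_pow 2 r).inv (pow_ne_zero 2 r0)).const_mul 2).const_add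
      _).congr_deriv (by field_simp; norm_num; ring)⟩

theorem wK_bar (hR : 4 ≤ R) (κ0 : 0 ≤ κ) {r : ℝ} (hr : R ≤ r) : 0 < 4 / R ^ 2 * r - 2 * r⁻¹ ∧
    0 < 1 / r ∧ -4 * (r ^ 3)⁻¹ + (1 / r - r / 2) * (4 / R ^ 2 + 2 * (r ^ 2)⁻¹) +
      (((1 / 2 - κ / r ^ 2 : ℝ) : ℂ)).re * (4 / R ^ 2 * r - 2 * r⁻¹) ≤ -(1 / r) := by
  have R0 : 0 < R := by linarith
  have r0 : 0 < r := by linarith
  have a : (r ^ 2)⁻¹ ≤ (R ^ 2)⁻¹ := by gcongr
  have b : (R ^ 2)⁻¹ ≤ (4 ^ 2)⁻¹ := by gcongr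
  have c : 0 < (r ^ 2)⁻¹ := by positivity
  have e1 : 4 / R ^ 2 * r - 2 * r⁻¹ = r * (4 * (R ^ 2)⁻¹ - 2 * (r ^ 2)⁻¹) := by field_simp
  have e2 : -4 * (r ^ 3)⁻¹ + (1 / r - r / 2) * (4 / R ^ 2 + 2 * (r ^ 2)⁻¹) +
      (1 / 2 - κ / r ^ 2) * (4 / R ^ 2 * r - 2 * r⁻¹) =
      1 / r * (-2 + (1 - κ) * (4 * (R ^ 2)⁻¹ - 2 * (r ^ 2)⁻¹)) := by field_simp; ring
  refine ⟨e1 ▸ mul_pos r0 (by linarith), by positivity, ?_⟩
  rw [Complex.ofReal_re, e2, ← mul_neg_one (1 / r)]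
  gcongr
  nlinarith only [a, b, c, κ0]

/-- the estimates on a conical end -/
theorem cone_est (hR : 4 ≤ R) (κ0 : 0 ≤ κ) (hu : J2 (Ici R) u u₁ u₂)
    (hg : ∀ r ∈ Ici R, ‖u₂ r + (1 / r - r / 2 : ℝ) * u₁ r + (1 / 2 - κ / r ^ 2 : ℝ) * u r‖ ≤
      M * (1 / r)) (h0 : u R = 0) (hK : ∀ r ∈ Ici R, ‖u r‖ ≤ K * r) : ∀ r ∈ Ici R,
    ‖u r‖ ≤ 4 * M * (r / R ^ 2) ∧ κ * ‖u r‖ ≤ 2 * M * r ∧ ‖r * u₁ r - u r‖ ≤ 8 * M * (1 / r) ∧
      ‖u₂ r‖ ≤ 8 * M * (1 / r) ∧ ‖u₁ r‖ ≤ 12 * M * (1 / R ^ 2) := by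
  have R0 : 0 < R := by linarith
  have p0 : ∀ r ∈ Ici R, 0 < r := fun r hr => R0.trans_le hr
  have M0 : 0 ≤ M := nonneg_of_mul_nonneg_left ((norm_nonneg _).trans (hg R self_mem_Ici))
    (by positivity)
  have du := hu.d
  rw [interior_Ici] at du
  have mp : ∀ {w w₁ w₂ : ℝ → ℝ}, D2 (Ici R) w w₁ w₂ → (∀ r ∈ Ici R, 0 < w r ∧ 0 < 1 / r ∧
      w₂ r + (1 / r - r / 2) * w₁ r + (((1 / 2 - κ / r ^ 2 : ℝ) : ℂ)).re * w r ≤ -(1 / r)) →
      ∀ r ∈ Ici R, ‖u r‖ ≤ M * w r := fun dw hw =>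
    max_half (p := fun r => r ^ (1 + 1)) (p₁ := fun r => 2 * r) (p₂ := fun _ => 2) hu.c0 dw.cont.1
      (by fun_prop) du (dw.mono Ioi_subset_Ici_self)
      (fun r _ => ⟨by simpa using hasDerivAt_pow 2 r, by simpa using (hasDerivAt_id r).const_mul 2⟩)
      (fun r hr => (hw r hr).1) (fun r hr => pow_nonneg (p0 r hr).le _) (fun r hr => (hw r (Ioi_subset_Ici_self hr)).2)
      (fun r hr => by
        have r0 := p0 r (Ioi_subset_Ici_self hr)
        have e : 2 + (1 / r - r / 2) * (2 * r) + (1 / 2 - κ / r ^ 2) * r ^ (1 + 1) =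
          4 - κ - r ^ 2 / 2 := by field_simp; ring
        rw [Complex.ofReal_re, e]
        nlinarith only [κ0, hR.trans (Ioi_subset_Ici_self hr)])
      (fun r hr => hg r (Ioi_subset_Ici_self hr))
      (by rw [h0, norm_zero]; exact mul_nonneg M0 (hw R self_mem_Ici).1.le)
      (fr_pow (A := R) (K := K) fun r hr => by simpa using hK r hr)
  have a0 : ∀ r ∈ Ici R, ‖u r‖ ≤ 4 * M * (r / R ^ 2) := fun r hr => by
    have := mp (wK_d2 R0) (fun r hr => wK_bar hR κ0 hr) r hr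
    have e : 4 * M * (r / R ^ 2) = M * (4 / R ^ 2 * r) := by ring
    nlinarith only [this, e, mul_nonneg M0 (inv_pos.2 (p0 r hr)).le]
  have a1 : ∀ r ∈ Ici R, ‖u r‖ ≤ M * r / 4 := fun r hr => by
    have : r / R ^ 2 ≤ r / 4 ^ 2 := by gcongr; exact (p0 r hr).le
    nlinarith only [a0 r hr, mul_le_mul_of_nonneg_left this M0]
  have a2 : ∀ r ∈ Ici R, κ * ‖u r‖ ≤ 2 * M * r := fun r hr => by
    rcases le_total κ 2 with k | k
    · nlinarith only [mul_le_mul k (a1 r hr) (norm_nonneg _) zero_le_two,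
        mul_nonneg M0 (p0 r hr).le]
    have k0 : 0 < κ := by linarith
    have := mp (w := fun r => 2 / κ * r) (w₁ := fun _ => 2 / κ) (w₂ := fun _ => 0)
      (fun r _ => ⟨by simpa using (hasDerivAt_id r).const_mul (2 / κ), hasDerivAt_const _ _⟩)
      (fun r hr => by
        have r0 := p0 r hr
        have e : 0 + (1 / r - r / 2) * (2 / κ) + (1 / 2 - κ / r ^ 2) * (2 / κ * r) =
          1 / r * (2 / κ - 2) := by field_simp; ring
        refine ⟨by positivity, by positivity, ?_⟩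
        rw [Complex.ofReal_re, e, ← mul_neg_one (1 / r)]
        gcongr
        linarith [(div_le_one k0).2 k]) r hr
    refine (mul_le_mul_of_nonneg_left this κ0).trans (le_of_eq ?_)
    field_simp
  have a3 : ∀ r ∈ Ici R, ‖u₂ r + (1 / r - r / 2 : ℝ) * u₁ r‖ ≤ M * r := fun r hr => by
    have r0 := p0 r hr
    have r4 : 4 ≤ r := hR.trans hr
    have b := norm_sub_le (u₂ r + (1 / r - r / 2 : ℝ) * u₁ r + (1 / 2 - κ / r ^ 2 : ℝ) * u r)
      ((1 / 2 - κ / r ^ 2 : ℝ) * u r)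
    rw [add_sub_cancel_right, norm_mul, Complex.norm_real] at b
    have b1 : ‖1 / 2 - κ / r ^ 2‖ ≤ 1 / 2 + κ / r ^ 2 := (norm_sub_le _ _).trans (by
      rw [Real.norm_of_nonneg (by norm_num), Real.norm_of_nonneg (by positivity)])
    have b2 : κ / r ^ 2 * ‖u r‖ ≤ 2 * M * (1 / r) := by
      rw [div_mul_eq_mul_div, div_le_iff₀ (by positivity)]
      refine (a2 r hr).trans (le_of_eq ?_)
      field_simp
    have b3 : 1 / r ≤ r / 16 := by rw [div_le_iff₀ r0]; nlinarith only [r4]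
    nlinarith only [b, mul_le_mul_of_nonneg_right b1 (norm_nonneg (u r)), b2, hg r hr, a1 r hr,
      mul_le_mul_of_nonneg_left b3 M0, mul_nonneg M0 r0.le]
  have bb : ∀ r ∈ Ici R, 0 ≤ r / 2 - 1 / r := fun r hr => by
    have r4 : 4 ≤ r := hR.trans hr
    rw [sub_nonneg, div_le_iff₀ (p0 r hr)]
    nlinarith only [r4]
  have a4 : ∀ r ∈ Ici R, ‖r * u₁ r - u r‖ ≤ 18 * M * r ^ 3 := fun r hr => by
    have r0 := p0 r hr
    have r4 : 4 ≤ r := hR.trans hr
    have l0 : 0 < 1 / (2 * r) := by positivity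
    have l1 : 1 / (2 * r) ≤ r := by rw [div_le_iff₀ (by positivity)]; nlinarith only [r4]
    have s2 : Icc r (r + 1 / (2 * r)) ⊆ Ici R := fun y hy => hr.trans hy.1
    have s3 : Ioo r (r + 1 / (2 * r)) ⊆ Ioi R := fun y hy => lt_of_le_of_lt hr hy.1
    have := grad_le (b := fun r => 1 / r - r / 2) (U := M * (2 * r)) (H := M * (2 * r)) l0
      (hu.c0.mono s2) (hu.c1.mono s2) (du.mono s3)
      (fun y hy => by
        have y0 := Ioi_subset_Ici_self (s3 hy)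
        rw [abs_sub_comm, abs_of_nonneg (bb y y0), mul_one_div, div_le_iff₀ (by positivity)]
        linarith [hy.2, one_div_pos.2 (p0 y y0)])
      (fun y hy => by
        nlinarith only [a1 y (s2 hy), mul_le_mul_of_nonneg_left (hy.2.trans
          (add_le_add_right l1 r)) M0, mul_nonneg M0 r0.le])
      (fun y hy => by
        nlinarith only [a3 y (Ioi_subset_Ici_self (s3 hy)), mul_le_mul_of_nonneg_left (hy.2.le.trans
          (add_le_add_right l1 r)) M0]) r ⟨le_rfl, by linarith⟩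
    have e : 4 * (M * (2 * r)) / (1 / (2 * r)) + 2 * (1 / (2 * r)) * (M * (2 * r)) =
      16 * M * r ^ 2 + 2 * M := by field_simp; ring
    rw [e] at this
    refine (norm_sub_le _ _).trans ?_
    rw [norm_mul, Complex.norm_real, Real.norm_of_nonneg r0.le]
    have k : 16 * r ≤ r ^ 3 := by nlinarith only [r4, mul_le_mul r4 r4 (by norm_num) r0.le]
    nlinarith only [mul_le_mul_of_nonneg_left this r0.le, a1 r hr, mul_le_mul_of_nonneg_left k M0,
      mul_nonneg M0 r0.le]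
  have a5 : ∀ r ∈ Ici R, ‖r * u₂ r + (1 / r - r / 2 : ℝ) * (r * u₁ r - u r)‖ ≤ 4 * M :=
    fun r hr => by
      have r0 := p0 r hr
      have r1 : (r : ℂ) ≠ 0 := Complex.ofReal_ne_zero.2 r0.ne'
      have e : r * u₂ r + (1 / r - r / 2 : ℝ) * (r * u₁ r - u r) =
          r * (u₂ r + (1 / r - r / 2 : ℝ) * u₁ r + (1 / 2 - κ / r ^ 2 : ℝ) * u r) +
            (κ * u r - u r) / r := by
        push_cast; field_simp; ring
      rw [e]
      refine (norm_add_le _ _).trans ?_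
      rw [norm_mul, norm_div, Complex.norm_real, Real.norm_of_nonneg r0.le]
      have b1 : r * (M * (1 / r)) = M := by field_simp
      have b2 : ‖κ * u r - u r‖ / r ≤ 3 * M := by
        rw [div_le_iff₀ r0]
        refine (norm_sub_le _ _).trans ?_
        rw [norm_mul, Complex.norm_real, Real.norm_of_nonneg κ0]
        nlinarith only [a1 r hr, a2 r hr, mul_nonneg M0 r0.le]
      linarith [mul_le_mul_of_nonneg_left (hg r hr) r0.le]
  have a6 := back_half (M := 8 * M) (v := fun r => r * u₁ r - u r) (v₁ := fun r => r * u₂ r)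
    (b := fun r => 1 / r - r / 2) (P := fun r => r⁻¹) (P₁ := fun r => -(r ^ 2)⁻¹)
    (p := fun r => r ^ (3 + 1)) (p₁ := fun r => 4 * r ^ 3) (H := fun _ => 1 / 2)
    ((Complex.continuous_ofReal.continuousOn.mul hu.c1).sub hu.c0)
    (continuousOn_id.inv₀ fun r hr => (p0 r hr).ne') (by fun_prop)
    (fun r hr => ((Complex.ofRealCLM.hasDerivAt.mul (du r hr).2).sub (du r hr).1).congr_deriv
      (by simp))
    (fun r hr => hasDerivAt_inv (p0 r (Ioi_subset_Ici_self hr)).ne')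
    (fun r _ => by simpa using hasDerivAt_pow 4 r) (fun r hr => inv_pos.2 (p0 r hr))
    (fun r hr => pow_nonneg (p0 r hr).le _)
    (fun r hr => ⟨by norm_num, le_of_eq (by have := (p0 r (Ioi_subset_Ici_self hr)).ne'; field_simp; ring)⟩)
    (fun r hr => by
      have r0 := p0 r (Ioi_subset_Ici_self hr)
      have r4 : 4 ≤ r := hR.trans (Ioi_subset_Ici_self hr)
      have e : 4 * r ^ 3 + (1 / r - r / 2) * r ^ (3 + 1) = r ^ 3 * (5 - r ^ 2 / 2) := by
        field_simp; ring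
      rw [e]
      exact mul_nonpos_of_nonneg_of_nonpos (by positivity) (by nlinarith only [r4]))
    (by positivity) (fun r hr => (a5 r (Ioi_subset_Ici_self hr)).trans (by linarith)) (fr_pow a4)
  intro r hr
  have r0 := p0 r hr
  have b0 := a6 r hr
  refine ⟨a0 r hr, a2 r hr, by rwa [one_div], ?_, ?_⟩
  · have b := norm_sub_le (r * u₂ r + (1 / r - r / 2 : ℝ) * (r * u₁ r - u r))
      ((1 / r - r / 2 : ℝ) * (r * u₁ r - u r))
    rw [add_sub_cancel_right, norm_mul, norm_mul, Complex.norm_real, Complex.norm_real,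
      Real.norm_of_nonneg r0.le, norm_sub_rev, Real.norm_of_nonneg (bb r hr)] at b
    have b1 := mul_le_mul (sub_le_self (r / 2) (one_div_pos.2 r0).le) b0 (norm_nonneg _)
      (half_pos r0).le
    have e : r / 2 * (8 * M * r⁻¹) = 4 * M := by field_simp; ring
    rw [mul_one_div, le_div_iff₀ r0]
    linarith [a5 r hr]
  · have b := norm_add_le (r * u₁ r - u r) (u r)
    rw [sub_add_cancel, norm_mul, Complex.norm_real, Real.norm_of_nonneg r0.le] at b
    have b1 : r⁻¹ ≤ r / R ^ 2 := by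
      rw [le_div_iff₀ (by positivity), inv_mul_le_iff₀ r0]
      nlinarith only [mem_Ici.1 hr, R0]
    refine le_of_mul_le_mul_left ?_ r0
    have e : r * (12 * M * (1 / R ^ 2)) = 12 * M * (r / R ^ 2) := by ring
    nlinarith only [b, b0, a0 r hr, e, mul_le_mul_of_nonneg_left b1 M0]

theorem LK_eq (μ : ℝ) (k : ℤ) (u u₁ u₂ : ℝ → ℂ) (r : ℝ) : LK μ k u u₁ u₂ r =
    u₂ r + (1 / r - r / 2 : ℝ) * u₁ r + (1 / 2 - μ * (k : ℝ) ^ 2 / r ^ 2 : ℝ) * u r := by
  rw [LK]; push_cast; ring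

theorem modek : MODEK := by
  intro μ μ0
  have i0 := inv_pos.2 μ0
  refine ⟨4, 16 + 16 * μ⁻¹, by positivity, fun R hR k u u₁ u₂ M K hu hg h0 hK => ?_⟩
  simp only [LK_eq] at hg
  have R0 : 0 < R := by linarith
  have M0 : 0 ≤ M := nonneg_of_mul_nonneg_left ((norm_nonneg _).trans (hg R self_mem_Ici))
    (by positivity)
  have a := cone_est hR (by positivity) hu hg h0 fun r hr => (hK r hr).1
  have a1 : ∀ r ∈ Ici R, (k : ℝ) ^ 2 * ‖u r‖ ≤ 2 * μ⁻¹ * M * r := fun r hr => by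
    have := mul_le_mul_of_nonneg_left (a r hr).2.1 i0.le
    rw [mul_assoc, inv_mul_cancel_left₀ μ0.ne'] at this
    linarith
  have m0 := mul_nonneg i0.le M0
  intro r hr
  have r0 := R0.trans_le hr
  obtain ⟨b0, -, b2, b3, b4⟩ := a r hr
  refine ⟨b0.trans (mul_le_mul_of_nonneg_right (by linarith) (by positivity)), ?_,
    (a1 r hr).trans (mul_le_mul_of_nonneg_right (by linarith) (by positivity)),
    b4.trans (mul_le_mul_of_nonneg_right (by linarith) (by positivity)), ?_,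
    b3.trans (mul_le_mul_of_nonneg_right (by linarith) (by positivity)),
    b2.trans (mul_le_mul_of_nonneg_right (by linarith) (by positivity))⟩
  · refine (abs_le_of_sq_le_sq' ?_ (by positivity)).2
    have e : r * (r / R ^ 2) = (r / R) ^ 2 := by ring
    rw [mul_pow, mul_pow, sq_abs, ← e]
    have p : 0 ≤ M ^ 2 * (r * (r / R ^ 2)) := by positivity
    nlinarith only [mul_le_mul (a1 r hr) b0 (norm_nonneg _) (by positivity), p,
      mul_nonneg i0.le p, mul_nonneg (sq_nonneg μ⁻¹) p]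
  rcases eq_or_ne k 0 with rfl | k0
  · simpa using by positivity
  have k1 : 1 ≤ |(k : ℝ)| := by exact_mod_cast Int.one_le_abs k0
  have k2 : 0 < |(k : ℝ)| := by linarith
  have l0 : 0 < r / |(k : ℝ)| := by positivity
  have l1 : r / |(k : ℝ)| ≤ r := div_le_self r0.le k1
  have s2 : Icc r (r + r / |(k : ℝ)|) ⊆ Ici R := fun y hy => hr.trans hy.1
  have s3 : Ioo r (r + r / |(k : ℝ)|) ⊆ interior (Ici R) := fun y hy => by
    rw [interior_Ici]; exact lt_of_le_of_lt hr hy.1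
  have := landau (U := 4 * μ⁻¹ * M * r / |(k : ℝ)| ^ 2) (K := 8 * M * (1 / r)) l0 (hu.c0.mono s2)
    (hu.c1.mono s2) (hu.d.mono s3)
    (fun y hy => by
      rw [le_div_iff₀' (by positivity), sq_abs]
      nlinarith only [a1 y (s2 hy), mul_le_mul_of_nonneg_left (hy.2.trans (add_le_add_right l1 r))
        m0])
    (fun y hy => (a y (hr.trans hy.1.le)).2.2.2.1.trans (by gcongr; exact hy.1.le)) r
    ⟨le_rfl, by linarith⟩
  have e : |(k : ℝ)| * (2 * (4 * μ⁻¹ * M * r / |(k : ℝ)| ^ 2) / (r / |(k : ℝ)|) +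
    r / |(k : ℝ)| * (8 * M * (1 / r))) = 8 * (μ⁻¹ * M) + 8 * M := by
    field_simp; ring
  linarith [mul_le_mul_of_nonneg_left this k2.le]

theorem modekx : MODEKX := by
  refine fun μ μ0 => ⟨4, fun R hR k g M cg hg => ?_⟩
  have R0 : 0 < R := by linarith
  have κ0 : 0 ≤ μ * (k : ℝ) ^ 2 := by positivity
  have n0 : ∀ r ∈ Ici R, r ≠ 0 := fun r hr => (R0.trans_le hr).ne'
  have M0 : 0 ≤ M := nonneg_of_mul_nonneg_left ((norm_nonneg _).trans (hg R self_mem_Ici))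
    (by positivity)
  obtain ⟨u, u₁, u₂, s, h0, hu⟩ := ex_half (α := 0) (M := M) (b := fun r => 1 / r - r / 2)
    (q := fun r => (1 / 2 - μ * (k : ℝ) ^ 2 / r ^ 2 : ℝ)) (G := fun r => 1 / r)
    (fun B => ⟨(wK_d2 R0).cont.1.mono Icc_subset_Ici_self,
      (wK_d2 R0).mono fun r hr => hr.1.le, fun r hr => (wK_bar hR κ0 hr.1).1,
      fun r hr => (wK_bar hR κ0 hr.1.le).2⟩)
    ((continuousOn_const.div continuousOn_id n0).sub (by fun_prop))
    (Complex.continuous_ofReal.comp_continuousOn (continuousOn_const.sub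
      (continuousOn_const.div (by fun_prop) fun r hr => pow_ne_zero 2 (n0 r hr))))
    cg (fun r hr => hg r (Ioi_subset_Ici_self hr))
    (by rw [norm_zero]; exact mul_nonneg M0 (wK_bar hR κ0 le_rfl).1.le)
  have J : J2 (Ici R) u u₁ u₂ := ⟨s.cont.1.continuousOn, s.cont.2.continuousOn,
    s.2.1.continuousOn, s.1.mono (subset_univ _)⟩
  have a := cone_est (K := M * (4 / R ^ 2)) hR κ0 J (fun r hr => by rw [s.2.2 r hr]; exact hg r hr)
    h0 fun r hr => by
      nlinarith only [hu r hr, mul_nonneg M0 (inv_pos.2 (R0.trans_le hr)).le]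
  refine ⟨u, u₁, u₂, 12 * M * (1 / R ^ 2), J, fun r hr => by rw [LK_eq, s.2.2 r hr], h0,
    fun r hr => ⟨?_, (a r hr).2.2.2.2⟩⟩
  have e : 12 * M * (1 / R ^ 2) * r = 12 * M * (r / R ^ 2) := by ring
  nlinarith only [(a r hr).1, e, mul_nonneg M0 (div_pos (R0.trans_le hr) (pow_pos R0 2)).le]

end

end Vale.Agent.P218M
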