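import Vale.Agent.P218M.G3

/-!
# P218, block MODE: the half line, `ρ = 2` (helper80)
-/

set_option linter.all false

open Set Filter Topology

namespace Vale.Agent.P218M

noncomputable section

variable {R Z z M b : ℝ} {w : ℝ → ℝ} {u u₁ u₂ : ℝ → ℂ} {k : ℤ}

theorem rh_zero (z : ℝ) : rh 0 z = 2 := by simp [rh]

theorem tip0 (hR : 10 ^ 4 ≤ R) : ∀ z ∈ Icc R Z, 10 ^ 8 ≤ z ^ 2 * (rh 0 z).re := fun z hz => by
  rw [rh_zero, Complex.re_ofNat]
  nlinarith only [hR, hz.1]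

theorem end0 (hR : 10 ^ 4 ≤ R) (hZ : R + 1 ≤ Z) : End 0 R Z :=
  ⟨by linarith, hZ, fun z hz => ⟨by simp, by norm_num [rh_zero], by linarith [tip0 hR z hz]⟩⟩

theorem pk_pow (hR : 10 ^ 4 ≤ R) (hZ : R + 1 ≤ Z) (b0 : -31 / 16 ≤ b) (b1 : b ≤ 15 / 16) :
    PkN 0 R Z (fun z => z ^ b) ∧ PkO 0 R Z fun z => z ^ b := by
  have h := end0 hR hZ
  have p : PkN 0 R Z fun z => z ^ b := by
    have := (h.pk_wK (κ := 1 - b / 2) (tip0 hR) (by linarith) (by linarith)).cmul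
      (inv_pos.2 (Real.rpow_pos_of_pos two_pos (1 - b / 2)))
    convert this using 2 with z
    rw [wK, rh_zero, Complex.norm_ofNat, mul_comm (z ^ _), inv_mul_cancel_left₀ (by positivity)]
    congr 1
    ring
  refine ⟨p, p.sl, fun z hz => ⟨_, Real.hasDerivAt_rpow_const (Or.inl (h.z0 hz).ne'), ?_⟩⟩
  rw [Real.rpow_sub_one (h.z0 hz).ne', rh_zero, Complex.re_ofNat, mul_left_comm,
    mul_div_cancel₀ _ (h.z0 hz).ne']
  nlinarith only [p.sl.pos hz, b1]

/-- all modes on a finite interval for `ρ = 2`, away from the layer -/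
theorem modeC0 (h : End 0 R Z) (p : PkN 0 R Z w) (q : PkO 0 R Z w) (J : J2 (Icc R Z) u u₁ u₂)
    (hg : ∀ z ∈ Icc R Z, ‖LC 0 k u u₁ u₂ z‖ ≤ M / 2 * w z) (hR : 2 ≤ |k| → u R = 0)
    (h0 : (1 + (k : ℝ) ^ 2) * ‖u Z‖ ≤ M * w Z) (h1 : |k| ≤ 1 → ‖u₁ Z‖ ≤ M * (Z * w Z))
    (hz : z ∈ Icc R Z) (hl : z ^ 2 * ly Z z ≤ 1 / 2) : BH w k u u₁ u₂ (600000 * M) z := by
  have es : ∀ z, sg 0 z = 1 / 2 := fun z => by norm_num [sg, rh_zero]
  have eg : ∀ z, gW w 0 Z z = gz w 0 Z z := fun z => by norm_num [gW, gz, es, rh_zero]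
  have M0 : 0 ≤ M := nonneg_of_mul_nonneg_left (le_trans (by positivity) h0) (p.sl.pos h.mZ)
  have hg' : ∀ z ∈ Icc R Z, ‖LC 0 k u u₁ u₂ z‖ ≤ M * gW w 0 Z z := fun z hz => by
    rw [gW, es]
    nlinarith only [hg z hz, mul_nonneg M0 (mul_pos (p.sl.pos hz)
      (mul_pos (pow_pos (h.z0 hz) 2) (ly_pos Z z))).le]
  have w0 := p.sl.pos hz
  have z0 := h.z0 hz
  have g1 : gW w 0 Z z ≤ w z := by rw [gW, es]; nlinarith only [hl, w0]
  have g2 := mul_le_mul_of_nonneg_left g1 M0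
  have g3 := mul_le_mul_of_nonneg_left (div_le_div_of_nonneg_right g1 z0.le) M0
  have g4 := mul_nonneg M0 w0.le
  have g5 := mul_nonneg M0 (div_pos w0 z0).le
  have n0 : ‖u Z‖ ≤ M * w Z := by
    linarith [mul_nonneg (sq_nonneg (k : ℝ)) (norm_nonneg (u Z))]
  rcases eq_or_ne k 0 with rfl | k0
  · obtain ⟨a0, a1, a2⟩ := h.modeW0 q J (fun z hz => eg z ▸ hg' z hz) n0 (h1 (by simp)) z hz
    rw [← eg] at a1 a2
    exact ⟨by simp; linarith, by linarith, by simp; linarith, by linarith⟩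
  have B : BW w 0 Z k u u₁ u₂ (200000 * M) z := by
    rcases le_or_gt 2 |k| with hk | hk
    · exact h.modeW2 p hk J hg' (by simpa [hR hk] using mul_nonneg M0 (p.sl.pos h.mR).le)
        (by linarith [norm_nonneg (u Z)]) z hz
    · have hk : |k| = 1 := by have := Int.one_le_abs k0; omega
      exact h.modeW1 p hk J hg' n0 (h1 hk.le) z hz
  obtain ⟨a0, -, a1, a2, a3, a4⟩ := B
  have et : ta 0 z = 1 := by norm_num [ta, rh_zero]
  have s2 : √‖rh 0 z‖ ≤ 2 := by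
    rw [rh_zero, Complex.norm_ofNat, Real.sqrt_le_iff]; norm_num
  rw [et, mul_one] at a2 a3 a4
  rw [es] at a1
  have g6 := mul_le_mul_of_nonneg_left (mul_le_mul g1 s2 (Real.sqrt_nonneg _) w0.le) M0
  exact ⟨by linarith, by linarith, by linarith, by linarith⟩

theorem lim_le {q : ℝ} {f : ℝ → ℝ} (hf : Continuous f) (h : ∀ δ > 0, q ≤ f δ) : q ≤ f 0 :=
  ge_of_tendsto (x := 𝓝[>] 0) ((hf.tendsto 0).mono_left nhdsWithin_le_nhds)
    (eventually_mem_nhdsWithin.mono h)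

theorem ev_ly (z : ℝ) : ∀ᶠ Z in atTop, ∀ y ∈ Icc 0 z, y ^ 2 * ly Z y ≤ 1 / 2 := by
  have t : Tendsto (fun Z => z ^ 2 * ly Z z) atTop (𝓝 (z ^ 2 * 0)) :=
    (Real.tendsto_exp_atBot.comp ((tendsto_atBot_add_const_left _ (z ^ 2)
      (tendsto_neg_atTop_atBot.comp (tendsto_pow_atTop two_ne_zero))).atBot_div_const
        (by norm_num))).const_mul _
  filter_upwards [t.eventually (ge_mem_nhds (by norm_num : z ^ 2 * 0 < 1 / 2))] with Z hZ y hy
  have := pow_le_pow_left₀ hy.1 hy.2 2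
  exact (mul_le_mul this (Real.exp_le_exp.2 (by linarith)) (ly_pos _ _).le (sq_nonneg z)).trans hZ

theorem J2.icc (J : J2 (Ici R) u u₁ u₂) (Z : ℝ) : J2 (Icc R Z) u u₁ u₂ :=
  ⟨J.c0.mono Icc_subset_Ici_self, J.c1.mono Icc_subset_Ici_self, J.c2.mono Icc_subset_Ici_self,
    J.d.mono (interior_mono Icc_subset_Ici_self)⟩

theorem modeh : MODEH := by
  refine ⟨10 ^ 4, 1200000, by norm_num, fun R hR a ha ε ε0 k u u₁ u₂ M K J hg h0 hK z hz => ?_⟩
  have R0 : 0 < R := by linarith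
  have p0 : ∀ z ∈ Ici R, 0 < wH a ε z := fun z hz =>
    add_pos_of_pos_of_nonneg (Real.rpow_pos_of_pos (R0.trans_le hz) _) ε0
  have M0 : 0 ≤ M := nonneg_of_mul_nonneg_left ((norm_nonneg _).trans (hg z hz)) (p0 z hz)
  have key : ∀ δ > 0, BH (fun z => z ^ (-a) + (ε + δ) * z ^ (0 : ℝ) + δ * z ^ (3 / 4 : ℝ)) k u u₁ u₂
      (600000 * (2 * (M + δ))) z := fun δ δ0 => by
    obtain ⟨Z, ⟨⟨Z1, Z2⟩, Z3⟩, Z4⟩ := ((((eventually_ge_atTop (R + 1)).and
      (eventually_ge_atTop z)).and (ev_ly z)).and (((tendsto_rpow_atTop (by norm_num :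
        (0 : ℝ) < 1 / 4)).const_mul_atTop (mul_pos δ0 δ0)).eventually_ge_atTop
          ((1 + (k : ℝ) ^ 2) * |K|))).exists
    have a1 := pk_pow (b := -a) hR Z1 (by linarith [ha.2]) (by linarith [ha.1])
    have a2 := pk_pow (b := 0) hR Z1 (by norm_num) (by norm_num)
    have a3 := pk_pow (b := 3 / 4) hR Z1 (by norm_num) (by norm_num)
    have e0 : 0 < ε + δ := by positivity
    have Z0 : 0 < Z := by linarith
    have mZ : Z ∈ Ici R := mem_Ici.2 (by linarith)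
    have t1 := Real.rpow_pos_of_pos Z0 (1 / 4)
    have t2 := Real.rpow_pos_of_pos Z0 (3 / 4)
    have b : δ * (δ * Z ^ (3 / 4 : ℝ)) ≤ 2 * (M + δ) *
        (Z ^ (-a) + (ε + δ) * Z ^ (0 : ℝ) + δ * Z ^ (3 / 4 : ℝ)) :=
      mul_le_mul (by linarith) (le_add_of_nonneg_left (by positivity)) (by positivity)
        (by positivity)
    refine modeC0 (end0 hR Z1) ((a1.1.add (a2.1.cmul e0)).add (a3.1.cmul δ0))
      ((a1.2.add (a2.2.cmul e0)).add (a3.2.cmul δ0)) (J.icc Z) (fun y hy => ?_) h0 ?_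
      (fun _ => ?_) ⟨hz, Z2⟩ (Z3 z ⟨R0.le.trans hz, le_rfl⟩)
    · refine (hg y hy.1).trans (mul_le_mul (by linarith) ?_ (p0 y hy.1).le (by positivity))
      rw [wH, Real.rpow_zero]
      linarith [mul_pos δ0 (Real.rpow_pos_of_pos (R0.trans_le hy.1) (3 / 4))]
    · have e : Z ^ (3 / 4 : ℝ) = Z ^ (1 / 4 : ℝ) * √Z := by
        rw [Real.sqrt_eq_rpow, ← Real.rpow_add Z0]; norm_num
      refine le_trans ?_ b
      rw [e]
      nlinarith only [mul_le_mul_of_nonneg_right Z4 (Real.sqrt_nonneg Z), mul_le_mul_of_nonneg_left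
        ((hK Z mZ).1.trans (mul_le_mul_of_nonneg_right (le_abs_self K) (Real.sqrt_nonneg Z)))
        (by positivity : 0 ≤ 1 + (k : ℝ) ^ 2)]
    · have e : Z ^ (1 / 4 : ℝ) ≤ Z ^ (3 / 4 : ℝ) :=
        Real.rpow_le_rpow_of_exponent_le (by linarith) (by norm_num)
      have e1 : K ≤ δ * (δ * Z ^ (3 / 4 : ℝ)) := by
        nlinarith only [Z4, le_abs_self K, mul_nonneg (sq_nonneg (k : ℝ)) (abs_nonneg K),
          mul_le_mul_of_nonneg_left e (mul_pos δ0 δ0).le]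
      rw [mul_left_comm, mul_comm Z]
      exact (hK Z mZ).2.trans (mul_le_mul_of_nonneg_right (e1.trans b) Z0.le)
  have e : ∀ x : ℝ, 600000 * (2 * (M + 0)) * x = 1200000 * M * x := fun x => by ring
  have e' : z ^ (-a) + (ε + 0) * z ^ (0 : ℝ) + 0 * z ^ (3 / 4 : ℝ) = wH a ε z := by simp [wH]
  exact ⟨(lim_le (by fun_prop) fun δ h => (key δ h).b0).trans_eq (by rw [e, e']),
    (lim_le (by fun_prop) fun δ h => (key δ h).bz).trans_eq (by rw [e, e']),
    (lim_le (by fun_prop) fun δ h => (key δ h).bzt).trans_eq (by rw [e, e']),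
    (lim_le (by fun_prop) fun δ h => (key δ h).bzz).trans_eq (by rw [e, e'])⟩

theorem Sol.j2 {s t : Set ℝ} {b q g : ℝ → ℂ} (h : Sol s b q g u u₁ u₂) : J2 t u u₁ u₂ :=
  ⟨h.cont.1.continuousOn, h.cont.2.continuousOn, h.2.1.continuousOn, h.1.mono (subset_univ _)⟩

theorem modehx : MODEHX := by
  refine ⟨10 ^ 4, fun R hR k g M cg hg => ?_⟩
  have R0 : 0 < R := by linarith
  have M0 : 0 ≤ M := nonneg_of_mul_nonneg_left ((norm_nonneg _).trans (hg R self_mem_Ici))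
    (Real.sqrt_pos.2 R0)
  have cb : ContinuousOn (fun z : ℝ => ((-(z / 2) : ℝ) : ℂ)) (Ici R) := by fun_prop
  have cq : ContinuousOn (fun z => 1 - ((k : ℝ) ^ 2 : ℝ) / rh 0 z) (Ici R) := by
    simp only [rh_zero]; exact continuousOn_const
  obtain ⟨u, u₁, u₂, hu, u0, u1⟩ := ex_ivp isClosed_Ici cb cq cg R 0 0
  obtain ⟨f, f₁, f₂, hf, f0, f1⟩ := ex_ivp isClosed_Ici cb cq (g := 0) continuousOn_const R 1 0
  obtain ⟨v, v₁, v₂, hv, v0, v1⟩ := ex_ivp isClosed_Ici cb cq (g := 0) continuousOn_const R 0 1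
  have S := fun t : ℂ × ℂ => (hu.add_mul hf t.1).add_mul hv t.2
  have ex : ∀ Z, R + 1 ≤ Z → ∃ t : ℂ × ℂ, u Z + t.1 * f Z + t.2 * v Z = 0 ∧
      (|k| ≤ 1 → u₁ Z + t.1 * f₁ Z + t.2 * v₁ Z = 0) ∧ (2 ≤ |k| → t.1 = 0) := fun Z hZ => by
    rcases le_or_gt 2 |k| with hk | hk
    · obtain ⟨B₁, B₂, hB⟩ := (end0 hR hZ).bar (sq4 hk)
      have := hB.ne (by linarith) Icc_subset_Ici_self hv v0 v1
      exact ⟨(0, -u Z / v Z), by simp [div_mul_cancel₀ _ this], fun k => by omega, fun _ => rfl⟩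
    let L : ℂ × ℂ →ₗ[ℂ] ℂ × ℂ := (LinearMap.fst ℂ ℂ ℂ).smulRight (f Z, f₁ Z) +
      (LinearMap.snd ℂ ℂ ℂ).smulRight (v Z, v₁ Z)
    have i : Function.Injective L := (injective_iff_map_eq_zero L).2 fun t ht => by
      have z0 : Sol (Ici R) (fun z => (-(z / 2) : ℝ)) (fun z => 1 - ((k : ℝ) ^ 2 : ℝ) / rh 0 z) 0
          0 0 0 := ⟨fun z _ => ⟨hasDerivAt_const _ _, hasDerivAt_const _ _⟩, continuous_const,
        fun z _ => by simp⟩
      have s := (z0.add_mul hf t.1).add_mul hv t.2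
      simp only [L, Prod.ext_iff] at ht
      have := back_uniq (A := R) (B := Z) (K := Z + ‖1 - ((k : ℝ) ^ 2 : ℝ) / (2 : ℂ)‖)
        s.cont.1.continuousOn s.cont.2.continuousOn (s.1.mono (subset_univ _))
        (fun z hz => by
          have e := eq_neg_of_add_eq_zero_left ((add_assoc _ _ _).symm.trans (s.2.2 z hz.1.le))
          beta_reduce at e
          rw [e, norm_neg, rh_zero]
          refine (norm_add_le _ _).trans ?_
          rw [norm_mul, norm_mul, Complex.norm_real, norm_neg,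
            Real.norm_of_nonneg (by linarith [hz.1]), add_comm, mul_add]
          gcongr <;> linarith [hz.1, hz.2, norm_nonneg (1 - ((k : ℝ) ^ 2 : ℝ) / (2 : ℂ))])
        (by simpa using ht.1) (by simpa using ht.2) R ⟨le_rfl, by linarith⟩
      simpa [f0, f1, v0, v1, Prod.ext_iff] using this
    obtain ⟨t, ht⟩ := LinearMap.injective_iff_surjective.1 i (-u Z, -u₁ Z)
    simp only [L, Prod.ext_iff] at ht
    exact ⟨t, by simpa [add_assoc, add_eq_zero_iff_eq_neg'] using ht.1,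
      fun _ => by simpa [add_assoc, add_eq_zero_iff_eq_neg'] using ht.2, fun k => by omega⟩
  let K : ℕ → Set (ℂ × ℂ) := fun n => {t | 2 ≤ |k| → t.1 = 0} ∩ ⋂ z ∈ Icc R (R + n),
    {t | ‖u z + t.1 * f z + t.2 * v z‖ ≤ 1200000 * M * √z ∧
      ‖u₁ z + t.1 * f₁ z + t.2 * v₁ z‖ ≤ 1200000 * M * z}
  have cl : ∀ n, IsClosed (K n) := fun n => IsClosed.inter
    (isClosed_imp isOpen_const (isClosed_eq continuous_fst continuous_const))
    (isClosed_biInter fun z _ => IsClosed.and (isClosed_le (by fun_prop) continuous_const)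
      (isClosed_le (by fun_prop) continuous_const))
  obtain ⟨t, ht⟩ := IsCompact.nonempty_iInter_of_sequence_nonempty_isCompact_isClosed K
    (fun n => inter_subset_inter_right _
      (biInter_subset_biInter_left (Icc_subset_Icc_right (by push_cast; linarith))))
    (fun n => by
      obtain ⟨Z, ⟨Z1, Z2⟩, Z3⟩ := (((eventually_ge_atTop (R + 1)).and
        (eventually_ge_atTop (R + n))).and (ev_ly (R + n))).exists
      obtain ⟨t, t0, t1, t2⟩ := ex Z Z1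
      have p := pk_pow (b := 1 / 2) hR Z1 (by norm_num) (by norm_num)
      simp only [← Real.sqrt_eq_rpow] at p
      refine ⟨t, t2, mem_iInter₂.2 fun z hz => ?_⟩
      have z1 : 1 ≤ z := by linarith [hz.1]
      have B := modeC0 (k := k) (M := 2 * M) (end0 hR Z1) p.1 p.2 (S t).j2
        (fun y hy => by rw [LC_eq, (S t).2.2 y hy.1]; linarith [hg y hy.1])
        (fun hk => by simp [u0, v0, t2 hk]) (by simp only [t0, norm_zero, mul_zero]; positivity)
        (fun hk => by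
          simp only [t1 hk, norm_zero]
          have : 0 < Z := by linarith
          positivity) ⟨hz.1, hz.2.trans Z2⟩ (Z3 z ⟨by linarith, hz.2⟩)
      have s1 : √z / z ≤ z := (div_le_self (Real.sqrt_nonneg z) z1).trans
        (Real.sqrt_le_iff.2 ⟨by linarith, by nlinarith only [z1]⟩)
      have s2 := mul_nonneg (sq_nonneg (k : ℝ)) (norm_nonneg (u z + t.1 * f z + t.2 * v z))
      exact ⟨by linarith [B.b0], by linarith [B.bz, mul_le_mul_of_nonneg_left s1 M0]⟩)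
    (by
      refine Metric.isCompact_of_isClosed_isBounded (cl 0) (isBounded_iff_forall_norm_le.2
        ⟨max (1200000 * M * √R) (1200000 * M * R), fun t ht => ?_⟩)
      have a := mem_iInter₂.1 ht.2 R ⟨le_rfl, by simp⟩
      simp only [mem_setOf_eq, u0, u1, f0, f1, v0, v1, mul_one, mul_zero, add_zero, zero_add] at a
      exact max_le_max a.1 a.2) cl
  refine ⟨_, _, _, 1200000 * M, (S t).j2, fun z hz => by rw [LC_eq, (S t).2.2 z hz],
    fun hk => by simp [u0, v0, (mem_iInter.1 ht 0).1 hk], fun z hz => ?_⟩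
  obtain ⟨n, hn⟩ := exists_nat_ge (z - R)
  exact mem_iInter₂.1 (mem_iInter.1 ht n).2 z ⟨hz, by linarith⟩

end

end Vale.Agent.P218M
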