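import Vale.Agent.P218M.Max
import Vale.Agent.P253.H51.Frame

/-!
# P218, block MODE: existence for scalar complex equations (helper80)
-/

set_option linter.all false

open Set Filter Topology MeasureTheory

namespace Vale.Agent.P218M

noncomputable section

/-- `u` is `C²` on the line and solves `u'' + b u' + q u = g` on `s` -/
def Sol (s : Set ℝ) (b q g u u₁ u₂ : ℝ → ℂ) : Prop :=
  D2 univ u u₁ u₂ ∧ Continuous u₂ ∧ ∀ z ∈ s, u₂ z + b z * u₁ z + q z * u z = g z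

theorem Sol.cont {s : Set ℝ} {b q g u u₁ u₂ : ℝ → ℂ} (h : Sol s b q g u u₁ u₂) :
    Continuous u ∧ Continuous u₁ :=
  ⟨continuousOn_univ.1 h.1.cont.1, continuousOn_univ.1 h.1.cont.2⟩

theorem Sol.add_mul {s : Set ℝ} {b q g u u₁ u₂ v v₁ v₂ : ℝ → ℂ} (h : Sol s b q g u u₁ u₂)
    (k : Sol s b q 0 v v₁ v₂) (t : ℂ) : Sol s b q g (fun z => u z + t * v z)
      (fun z => u₁ z + t * v₁ z) (fun z => u₂ z + t * v₂ z) :=
  ⟨h.1.add (k.1.cmul t), h.2.1.add (continuous_const.mul k.2.1), fun z hz => by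
    have := k.2.2 z hz
    rw [Pi.zero_apply] at this
    linear_combination h.2.2 z hz + t * this⟩

theorem ex_ext {s : Set ℝ} (hs : IsClosed s) {f : ℝ → ℂ} (h : ContinuousOn f s) :
    ∃ F : ℝ → ℂ, Continuous F ∧ ∀ z ∈ s, F z = f z := by
  obtain ⟨F, hF⟩ := ContinuousMap.exists_restrict_eq hs ⟨s.restrict f, h.restrict⟩
  exact ⟨F, F.continuous, fun z hz => congrArg (fun k : C(s, ℂ) => k ⟨z, hz⟩) hF⟩

/-- the initial value problem -/
theorem ex_ivp {s : Set ℝ} (hs : IsClosed s) {b q g : ℝ → ℂ} (cb : ContinuousOn b s)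
    (cq : ContinuousOn q s) (cg : ContinuousOn g s) (x : ℝ) (α β : ℂ) :
    ∃ u u₁ u₂, Sol s b q g u u₁ u₂ ∧ u x = α ∧ u₁ x = β := by
  obtain ⟨b', cb', eb⟩ := ex_ext hs cb
  obtain ⟨q', cq', eq⟩ := ex_ext hs cq
  obtain ⟨g', cg', eg⟩ := ex_ext hs cg
  let p₁ := ContinuousLinearMap.fst ℝ ℂ (ℂ × ℂ)
  let p₂ := (ContinuousLinearMap.fst ℝ ℂ ℂ).comp (ContinuousLinearMap.snd ℝ ℂ (ℂ × ℂ))
  let p₃ := (ContinuousLinearMap.snd ℝ ℂ ℂ).comp (ContinuousLinearMap.snd ℝ ℂ (ℂ × ℂ))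
  let i₁ := ContinuousLinearMap.inl ℝ ℂ (ℂ × ℂ)
  let i₂ := (ContinuousLinearMap.inr ℝ ℂ (ℂ × ℂ)).comp (ContinuousLinearMap.inl ℝ ℂ ℂ)
  obtain ⟨y, y0, hy⟩ := P253.H51.exists_linear_ode (E := ℂ × ℂ × ℂ)
    (L := fun t => i₁.comp p₂ + (g' t • i₂.comp p₃ - b' t • i₂.comp p₂ - q' t • i₂.comp p₁))
    (continuous_const.add (((cg'.smul continuous_const).sub (cb'.smul continuous_const)).sub
      (cq'.smul continuous_const))) x (α, β, 1)
  have d₁ : ∀ t, HasDerivAt (fun t => (y t).1) (y t).2.1 t := fun t =>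
    (p₁.hasFDerivAt.comp_hasDerivAt t (hy t)).congr_deriv (by simp [p₁, p₂, p₃, i₁, i₂])
  have d₂ : ∀ t, HasDerivAt (fun t => (y t).2.1)
      (g' t * (y t).2.2 - b' t * (y t).2.1 - q' t * (y t).1) t := fun t =>
    (p₂.hasFDerivAt.comp_hasDerivAt t (hy t)).congr_deriv (by simp [p₁, p₂, p₃, i₁, i₂])
  have d₃ : ∀ t, HasDerivAt (fun t => (y t).2.2) 0 t := fun t =>
    (p₃.hasFDerivAt.comp_hasDerivAt t (hy t)).congr_deriv (by simp [p₁, p₂, p₃, i₁, i₂])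
  have e : ∀ t, (y t).2.2 = 1 := fun t => by
    rw [is_const_of_deriv_eq_zero (fun s => (d₃ s).differentiableAt) (fun s => (d₃ s).deriv) t x,
      y0]
  have c₁ : Continuous fun t => (y t).1 := continuous_iff_continuousAt.2 fun t =>
    (d₁ t).continuousAt
  have c₂ : Continuous fun t => (y t).2.1 := continuous_iff_continuousAt.2 fun t =>
    (d₂ t).continuousAt
  simp only [e, mul_one] at d₂
  refine ⟨_, _, _, ⟨fun t _ => ⟨d₁ t, d₂ t⟩, (cg'.sub (cb'.mul c₂)).sub (cq'.mul c₁),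
    fun z hz => ?_⟩, by rw [y0], by rw [y0]⟩
  rw [eb z hz, eq z hz, eg z hz]
  ring

variable {A B : ℝ} {q : ℝ → ℂ} {b w w₁ w₂ G : ℝ → ℝ}

/-- `w` is a positive barrier with margin `G` on `[A, B]` -/
structure Bar (A B : ℝ) (b : ℝ → ℝ) (q : ℝ → ℂ) (w w₁ w₂ G : ℝ → ℝ) : Prop where
  cw : ContinuousOn w (Icc A B)
  dw : D2 (Ioo A B) w w₁ w₂
  w0 : ∀ z ∈ Icc A B, 0 < w z
  hG : ∀ z ∈ Ioo A B, 0 < G z ∧ w₂ z + b z * w₁ z + (q z).re * w z ≤ -G z

theorem Bar.le (h : Bar A B b q w w₁ w₂ G) {M : ℝ} {u u₁ u₂ : ℝ → ℂ}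
    (cu : ContinuousOn u (Icc A B)) (du : D2 (Ioo A B) u u₁ u₂)
    (hu : ∀ z ∈ Ioo A B, ‖u₂ z + b z * u₁ z + q z * u z‖ ≤ M * G z)
    (hA : ‖u A‖ ≤ M * w A) (hB : ‖u B‖ ≤ M * w B) : ∀ z ∈ Icc A B, ‖u z‖ ≤ M * w z :=
  max_pr cu h.cw du h.dw h.w0 h.hG hu hA hB

theorem Bar.ne (h : Bar A B b q w w₁ w₂ G) (hAB : A < B) {s : Set ℝ} (hs : Icc A B ⊆ s)
    {v v₁ v₂ : ℝ → ℂ} (k : Sol s (fun z => b z) q 0 v v₁ v₂) (v0 : v A = 0) (v1 : v₁ A = 1) :
    v B ≠ 0 := fun e => by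
  have := h.le (M := 0) k.cont.1.continuousOn (k.1.mono (subset_univ _))
    (fun z hz => by rw [k.2.2 z (hs (Ioo_subset_Icc_self hz))]; simp) (by simp [v0]) (by simp [e])
  have d : HasDerivWithinAt v 0 (Icc A B) A := (hasDerivWithinAt_const A _ (0 : ℂ)).congr
    (fun z hz => by simpa using this z hz) v0
  have := (uniqueDiffOn_Icc hAB A ⟨le_rfl, hAB.le⟩).eq_deriv _ d (k.1 A trivial).1.hasDerivWithinAt
  rw [v1] at this
  exact zero_ne_one this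

/-- the two point problem -/
theorem Bar.ex (h : Bar A B b q w w₁ w₂ G) (hAB : A < B) (cb : ContinuousOn b (Icc A B))
    (cq : ContinuousOn q (Icc A B)) {g : ℝ → ℂ} (cg : ContinuousOn g (Icc A B)) (α β : ℂ) :
    ∃ u u₁ u₂, Sol (Icc A B) (fun z => b z) q g u u₁ u₂ ∧ u A = α ∧ u B = β := by
  have cb' : ContinuousOn (fun z => (b z : ℂ)) (Icc A B) :=
    Complex.continuous_ofReal.comp_continuousOn cb
  obtain ⟨u, u₁, u₂, hu, u0, -⟩ := ex_ivp isClosed_Icc cb' cq cg A α 0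
  obtain ⟨v, v₁, v₂, hv, v0, v1⟩ := ex_ivp isClosed_Icc cb' cq (g := 0) continuousOn_const A 0 1
  have := h.ne hAB subset_rfl hv v0 v1
  refine ⟨_, _, _, hu.add_mul hv ((β - u B) / v B), by simp [u0, v0], ?_⟩
  field_simp
  ring

/-- the problem on the half line -/
theorem ex_half (h : ∀ B, Bar A B b q w w₁ w₂ G) (cb : ContinuousOn b (Ici A))
    (cq : ContinuousOn q (Ici A)) {g : ℝ → ℂ} (cg : ContinuousOn g (Ici A)) {α : ℂ} {M : ℝ}
    (hg : ∀ z ∈ Ioi A, ‖g z‖ ≤ M * G z) (hα : ‖α‖ ≤ M * w A) :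
    ∃ u u₁ u₂, Sol (Ici A) (fun z => b z) q g u u₁ u₂ ∧ u A = α ∧
      ∀ z ∈ Ici A, ‖u z‖ ≤ M * w z := by
  have cb' : ContinuousOn (fun z => (b z : ℂ)) (Ici A) :=
    Complex.continuous_ofReal.comp_continuousOn cb
  obtain ⟨u, u₁, u₂, hu, u0, -⟩ := ex_ivp isClosed_Ici cb' cq cg A α 0
  obtain ⟨v, v₁, v₂, hv, v0, v1⟩ := ex_ivp isClosed_Ici cb' cq (g := 0) continuousOn_const A 0 1
  have M0 : 0 ≤ M := nonneg_of_mul_nonneg_left ((norm_nonneg _).trans hα)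
    ((h A).w0 A ⟨le_rfl, le_rfl⟩)
  have lt : ∀ n : ℕ, A < A + 1 + n := fun n => by linarith [n.cast_nonneg (α := ℝ)]
  have ne := fun n : ℕ => (h _).ne (lt n) Icc_subset_Ici_self hv v0 v1
  let K : ℕ → Set ℂ := fun n => ⋂ z ∈ Icc A (A + 1 + n), {t | ‖u z + t * v z‖ ≤ M * w z}
  have cl : ∀ n, IsClosed (K n) := fun n => isClosed_biInter fun z _ =>
    isClosed_le (by fun_prop) continuous_const
  obtain ⟨t, ht⟩ := IsCompact.nonempty_iInter_of_sequence_nonempty_isCompact_isClosed K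
    (fun n => biInter_subset_biInter_left (Icc_subset_Icc_right (by push_cast; linarith)))
    (fun n => by
      have k := hu.add_mul hv (-u (A + 1 + n) / v (A + 1 + n))
      refine ⟨_, mem_iInter₂.2 ((h _).le k.cont.1.continuousOn (k.1.mono (subset_univ _))
        (fun z hz => ?_) (by simpa [u0, v0] using hα) ?_)⟩
      · rw [k.2.2 z hz.1.le]; exact hg z hz.1
      · rw [div_mul_cancel₀ _ (ne n), add_neg_cancel, norm_zero]
        exact mul_nonneg M0 ((h _).w0 _ ⟨(lt n).le, le_rfl⟩).le)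
    (by
      refine Metric.isCompact_of_isClosed_isBounded (cl 0) (isBounded_iff_forall_norm_le.2
        ⟨(M * w (A + 1 + (0 : ℕ)) + ‖u (A + 1 + (0 : ℕ))‖) / ‖v (A + 1 + (0 : ℕ))‖,
          fun t ht => ?_⟩)
      have a := mem_iInter₂.1 ht _ ⟨(lt 0).le, le_rfl⟩
      have c := norm_sub_le (u (A + 1 + (0 : ℕ)) + t * v (A + 1 + (0 : ℕ))) (u (A + 1 + (0 : ℕ)))
      rw [add_sub_cancel_left, norm_mul] at c
      rw [le_div_iff₀ (norm_pos_iff.2 (ne 0))]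
      exact c.trans (add_le_add_left a _)) cl
  refine ⟨_, _, _, hu.add_mul hv t, by simp [u0, v0], fun z hz => ?_⟩
  obtain ⟨n, hn⟩ := exists_nat_ge (z - A)
  exact mem_iInter₂.1 (mem_iInter.1 ht n) z ⟨hz, by linarith⟩

/-- uniqueness for the backward initial value problem -/
theorem back_uniq {K : ℝ} {u u₁ u₂ : ℝ → ℂ} (cu : ContinuousOn u (Icc A B))
    (cu₁ : ContinuousOn u₁ (Icc A B)) (du : D2 (Ioo A B) u u₁ u₂)
    (h : ∀ z ∈ Ioo A B, ‖u₂ z‖ ≤ K * (‖u z‖ + ‖u₁ z‖)) (h0 : u B = 0) (h1 : u₁ B = 0) :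
    ∀ z ∈ Icc A B, u z = 0 ∧ u₁ z = 0 := by
  intro x hx
  let c := 2 * |K| + 2
  have c0 : 0 < c := by positivity
  have ce : Continuous fun z => Real.exp (c * (B - z)) := by fun_prop
  obtain ⟨y, hy, k⟩ := isCompact_Icc.exists_isMaxOn ⟨x, hx⟩
    ((cu.norm.add cu₁.norm).div ce.continuousOn fun z _ => (Real.exp_pos _).ne')
  set m := (‖u y‖ + ‖u₁ y‖) / Real.exp (c * (B - y)) with hm
  have m0 : 0 ≤ m := by positivity
  have k' : ∀ z ∈ Icc A B, ‖u z‖ + ‖u₁ z‖ ≤ m * Real.exp (c * (B - z)) := fun z hz =>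
    (div_le_iff₀ (Real.exp_pos _)).1 (k hz)
  have key : ∀ (f f₁ : ℝ → ℂ) (L : ℝ), ContinuousOn f (Icc A B) →
      (∀ z ∈ Ioo A B, HasDerivAt f (f₁ z) z) → f B = 0 → 0 ≤ L →
      (∀ z ∈ Ioo A B, ‖f₁ z‖ ≤ L * Real.exp (c * (B - z))) →
      ‖f y‖ ≤ L / c * Real.exp (c * (B - y)) := fun f f₁ L cf df f0 L0 hf =>
    back_cmp (b := 0) (P := fun z => Real.exp (c * (B - z)))
      (P₁ := fun z => -c * Real.exp (c * (B - z))) (H := fun z => c * Real.exp (c * (B - z)))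
      cf ce.continuousOn df
      (fun z _ => ((((hasDerivAt_id z).const_sub B).const_mul c).exp).congr_deriv (by simp; ring))
      (fun z _ => Real.exp_pos _) (fun z _ => ⟨by positivity, by simp⟩)
      (fun z hz => by
        rw [← mul_assoc, div_mul_cancel₀ _ c0.ne']
        simpa using hf z hz)
      (by rw [f0, norm_zero]; positivity) y hy
  have a := key u u₁ m cu (fun z hz => (du z hz).1) h0 m0 fun z hz => by
    linarith [k' z (Ioo_subset_Icc_self hz), norm_nonneg (u z)]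
  have a' := key u₁ u₂ (|K| * m) cu₁ (fun z hz => (du z hz).2) h1 (by positivity) fun z hz => by
    rw [mul_assoc]
    exact (h z hz).trans (mul_le_mul (le_abs_self K) (k' z (Ioo_subset_Icc_self hz))
      (by positivity) (abs_nonneg K))
  have e : m / c + |K| * m / c = m / 2 := by simp only [c]; field_simp; ring
  have : m ≤ m / 2 := by
    rw [← e]
    conv_lhs => rw [hm]
    rw [div_le_iff₀ (Real.exp_pos _)]
    linarith
  have := k' x hx
  rw [show m = 0 by linarith, zero_mul] at this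
  exact ⟨norm_le_zero_iff.1 (by linarith [norm_nonneg (u₁ x)]),
    norm_le_zero_iff.1 (by linarith [norm_nonneg (u x)])⟩

end

end Vale.Agent.P218M
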