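import Vale.Agent.P218M.M2
import Vale.Agent.P218M.Zero
import Vale.Agent.P218M.Spec2

/-!
# P218, block MODE: admissible weights (helper80)

`PkN` (modes `≠ 0`) and `PkO` (mode `0`) are closed under sums and positive multiples.
-/

set_option linter.all false

open Set Filter Topology
open scoped ComplexConjugate

namespace Vale.Agent.P218M

noncomputable section

/-- data weight of `w` for mode `0` -/
def gz (w : ℝ → ℝ) (c : ℂ) (Z z : ℝ) : ℝ := w z * (((rh c z).re)⁻¹ + z ^ 2 * ly Z z)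
/-- admissible weights for the modes `≠ 0` -/
structure PkN (c : ℂ) (R Z : ℝ) (w : ℝ → ℝ) : Prop where
  sl : Slow (Icc R Z) (fun z => z) (1 / 100) w
  ex : ∃ w₁ w₂, D2 (Icc R Z) w w₁ w₂ ∧ ∀ z ∈ Icc R Z,
    w₂ z - z / 2 * w₁ z + w z ≤ 127 / 32 * (sg c z * w z) ∧
      z * w₁ z - 2 * w z ≤ -(33 / 16 * (sg c z * w z))

/-- admissible weights for mode `0` -/
structure PkO (c : ℂ) (R Z : ℝ) (w : ℝ → ℝ) : Prop where
  sl : Slow (Icc R Z) (fun z => z) (1 / 100) w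
  ex : ∀ z ∈ Icc R Z, ∃ a, HasDerivAt w a z ∧ z * a - 2 * w z ≤ -(((rh c z).re)⁻¹ * w z / 2)

variable {c : ℂ} {R Z z κ a : ℝ} {w v : ℝ → ℝ}

theorem PkN.add (h : PkN c R Z w) (k : PkN c R Z v) : PkN c R Z fun z => w z + v z := by
  obtain ⟨w₁, w₂, d, e⟩ := h.ex
  obtain ⟨v₁, v₂, d', e'⟩ := k.ex
  exact ⟨h.sl.add k.sl, _, _, d.add d', fun z hz =>
    ⟨by linarith [(e z hz).1, (e' z hz).1], by linarith [(e z hz).2, (e' z hz).2]⟩⟩

theorem PkN.cmul (h : PkN c R Z w) (a0 : 0 < a) : PkN c R Z fun z => a * w z := by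
  obtain ⟨w₁, w₂, d, e⟩ := h.ex
  exact ⟨h.sl.cmul a0, _, _, d.cmul a, fun z hz =>
    ⟨by linarith [mul_le_mul_of_nonneg_left (e z hz).1 a0.le],
      by linarith [mul_le_mul_of_nonneg_left (e z hz).2 a0.le]⟩⟩

theorem PkO.add (h : PkO c R Z w) (k : PkO c R Z v) : PkO c R Z fun z => w z + v z :=
  ⟨h.sl.add k.sl, fun z hz =>
    let ⟨_, d, e⟩ := h.ex z hz
    let ⟨_, d', e'⟩ := k.ex z hz
    ⟨_, d.add d', by linarith⟩⟩

theorem PkO.cmul (h : PkO c R Z w) (a0 : 0 < a) : PkO c R Z fun z => a * w z :=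
  ⟨h.sl.cmul a0, fun z hz =>
    let ⟨_, d, e⟩ := h.ex z hz
    ⟨_, d.const_mul a, by linarith [mul_le_mul_of_nonneg_left e a0.le]⟩⟩

theorem Slow.rpow1 {s : Set ℝ} {σ F : ℝ → ℝ} {e : ℝ} (h : Slow s σ e F) (e0 : 0 ≤ e)
    (ha : |a| ≤ 1) : Slow s σ (e + 2 * e ^ 2) fun z => F z ^ a := by
  obtain ⟨F₁, F₂, d, h⟩ := h
  have dd : ∀ z ∈ s, HasDerivAt (fun z => F z ^ a) (a * (F₁ z / F z) * F z ^ a) z := fun z hz =>
    ((d z hz).1.rpow_const (Or.inl (h z hz).2.1.ne')).congr_deriv (by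
      rw [Real.rpow_sub_one (h z hz).2.1.ne']; ring)
  refine ⟨fun z => a * (F₁ z / F z) * F z ^ a,
    fun z => (a * (F₂ z / F z) + a * (a - 1) * (F₁ z / F z) ^ 2) * F z ^ a, fun z hz => ⟨dd z hz,
      ((((d z hz).2.div (d z hz).1 (h z hz).2.1.ne').const_mul a).mul (dd z hz)).congr_deriv ?_⟩,
    fun z hz => ?_⟩
  · have := (h z hz).2.1.ne'
    simp only [Pi.div_apply]
    field_simp
    ring
  obtain ⟨h0, h1, h2, h3⟩ := h z hz
  have p := Real.rpow_pos_of_pos h1 a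
  have a1 : |F₁ z / F z| ≤ e * σ z := by rwa [abs_div, abs_of_pos h1, div_le_iff₀ h1]
  have a2 : |F₂ z / F z| ≤ e * σ z ^ 2 := by rwa [abs_div, abs_of_pos h1, div_le_iff₀ h1]
  have a3 : |a - 1| ≤ 2 := (abs_sub _ _).trans (by rw [abs_one]; linarith)
  refine ⟨h0, p, ?_, ?_⟩ <;> rw [abs_mul, abs_of_pos p] <;> gcongr
  · rw [abs_mul]
    calc _ ≤ 1 * (e * σ z) := by gcongr
      _ ≤ _ := by nlinarith only [mul_nonneg (sq_nonneg e) h0]
  · refine (abs_add_le _ _).trans ?_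
    rw [abs_mul, abs_mul, abs_mul, abs_pow]
    calc _ ≤ 1 * (e * σ z ^ 2) + 1 * 2 * (e * σ z) ^ 2 := by gcongr
      _ = _ := by ring

theorem wK_eq (κ : ℝ) (c : ℂ) : wK κ c = fun z => z ^ (2 - 2 * κ) * (‖rh c z‖ ^ 2) ^ (κ / 2) := by
  funext z
  rw [wK, ← Real.rpow_natCast, ← Real.rpow_mul (norm_nonneg _)]
  congr 2
  push_cast
  ring

theorem wN_wK : wN = wK (7 / 4) := by
  funext c z
  rw [wN, wK]
  norm_num

namespace End

theorem slow_wK (h : End c R Z) (k0 : 0 ≤ κ) (k2 : κ ≤ 2) :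
    Slow (Icc R Z) (fun z => √(sg c z)) (1 / 20) (wK κ c) := by
  rw [wK_eq]
  exact ((h.slow_id.rpow (by norm_num) (abs_le.2 ⟨by linarith, by linarith⟩)).mul
    (h.slow_nn.rpow1 (by norm_num) (abs_le.2 ⟨by linarith, by linarith⟩))).mono (by norm_num)

theorem slow_wK' (h : End c R Z) (h8 : ∀ z ∈ Icc R Z, 10 ^ 8 ≤ z ^ 2 * (rh c z).re) (k0 : 0 ≤ κ)
    (k2 : κ ≤ 2) : Slow (Icc R Z) (fun z => √(sg c z)) (1 / 100) (wK κ c) := by
  have q : ∀ z ∈ Icc R Z, 10000 ≤ √(sg c z) * (z * ‖rh c z‖) := fun z hz => by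
    have r0 := h.r0 hz
    have z0 := h.z0 hz
    have n0 := h.n0 hz
    refine (abs_le_of_sq_le_sq' ?_ (by positivity)).2
    rw [mul_pow, Real.sq_sqrt r0.le, mul_pow, mul_left_comm, h.rn hz]
    linarith [h8 z hz]
  have s1 : Slow (Icc R Z) (fun z => √(sg c z)) (6 / 10000) fun z => z :=
    ⟨fun _ => 1, fun _ => 0, fun z _ => ⟨hasDerivAt_id z, hasDerivAt_const _ _⟩, fun z hz => by
      have z0 := h.z0 hz
      refine ⟨Real.sqrt_nonneg _, z0, ?_, by rw [abs_zero]; positivity⟩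
      have := mul_le_mul_of_nonneg_left (h.h z hz).2.1
        (mul_nonneg (Real.sqrt_nonneg (sg c z)) z0.le)
      rw [abs_one]
      linarith [q z hz]⟩
  have s2 : Slow (Icc R Z) (fun z => √(sg c z)) (32 / 10000) fun z => ‖rh c z‖ ^ 2 :=
    ⟨_, _, nn_d2 c _, fun z hz => by
      have z0 := h.z0 hz
      have n0 := h.n0 hz
      obtain ⟨a, b, -⟩ := h.h z hz
      refine ⟨Real.sqrt_nonneg _, by positivity, (Complex.abs_re_le_norm _).trans
        ((norm_add_le _ _).trans ?_), (Complex.abs_re_le_norm _).trans ((norm_add₃_le).trans ?_)⟩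
      · simp only [rh_cj, norm_mul, Complex.norm_conj, Complex.norm_real,
          Real.norm_of_nonneg z0.le, Complex.norm_ofNat]
        refine le_of_mul_le_mul_right ?_ z0
        nlinarith only [mul_le_mul_of_nonneg_right a n0.le,
          mul_le_mul_of_nonneg_right (q z hz) n0.le, n0]
      · simp only [rh_cj, norm_mul, Complex.norm_conj, Complex.norm_real,
          Real.norm_of_nonneg z0.le, Complex.norm_ofNat]
        rw [Real.sq_sqrt (h.r0 hz).le, mul_assoc (32 / 10000), h.rn hz]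
        refine le_of_mul_le_mul_right ?_ (pow_pos z0 2)
        have c0 : 0 ≤ ‖c‖ * z ^ 2 := by positivity
        nlinarith only [mul_le_mul a b n0.le (by norm_num), mul_le_mul a a c0 (by norm_num),
          h8 z hz]⟩
  rw [wK_eq]
  exact ((s1.rpow (by norm_num) (abs_le.2 ⟨by linarith, by linarith⟩)).mul
    (s2.rpow1 (by norm_num) (abs_le.2 ⟨by linarith, by linarith⟩))).mono (by norm_num)

theorem sl_wK (h : End c R Z) (k0 : 0 ≤ κ) (k2 : κ ≤ 2) :
    Slow (Icc R Z) (fun z => z) (1 / 1000) (wK κ c) :=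
  h.up (h.slow_wK k0 k2) (by norm_num) (by norm_num)

/-- the exact first derivative of the natural weights -/
theorem wK_der (h : End c R Z) (k0 : 0 ≤ κ) (k2 : κ ≤ 2) (hz : z ∈ Icc R Z) :
    ∃ a, HasDerivAt (wK κ c) a z ∧ |z * a - (2 - 4 * κ * sg c z) * wK κ c z| ≤
      1 / 1000 * (sg c z * wK κ c z) := by
  have z0 := h.z0 hz
  have n0 := h.n0 hz
  have w0 := (h.sl_wK k0 k2).pos hz
  have d := ((hasDerivAt_id z).rpow_const (p := 2 - 2 * κ) (Or.inl z0.ne')).mul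
    ((nn_d2 c univ z trivial).1.rpow_const (p := κ / 2) (Or.inl (pow_pos n0 2).ne'))
  have e : z * (2 * c * z * rh (conj c) z + rh c z * (2 * conj c * z)).re =
      4 * (‖rh c z‖ ^ 2 - 2 * (rh c z).re + 2 * (c * conj (rh c z)).re) := by
    have e1 : 2 * c * z * z = 2 * (rh c z - 2 + 2 * c) := by rw [rh]; ring
    have e2 : (rh c z * (2 * conj c * z)).re = (2 * c * z * rh (conj c) z).re := by
      rw [← Complex.conj_re (rh c z * _), rh_cj]
      simp only [map_mul, map_ofNat, Complex.conj_conj, Complex.conj_ofReal]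
      rw [mul_comm]
    rw [Complex.add_re, e2, ← two_mul, mul_left_comm, ← Complex.re_ofReal_mul, ← mul_assoc,
      mul_comm (z : ℂ), e1, ← nn_eq, rh_cj]
    simp
    ring
  refine ⟨((2 - 2 * κ) / z + κ / 2 * ((2 * c * z * rh (conj c) z + rh c z * (2 * conj c * z)).re /
    ‖rh c z‖ ^ 2)) * wK κ c z, ?_, ?_⟩
  · rw [wK_eq]
    refine d.congr_deriv ?_
    simp only [id]
    rw [Real.rpow_sub_one z0.ne', Real.rpow_sub_one (pow_pos n0 2).ne']
    ring
  have e3 : z * (((2 - 2 * κ) / z + κ / 2 * ((2 * c * z * rh (conj c) z +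
      rh c z * (2 * conj c * z)).re / ‖rh c z‖ ^ 2)) * wK κ c z) - (2 - 4 * κ * sg c z) * wK κ c z =
      4 * κ * ((c * conj (rh c z)).re / ‖rh c z‖ ^ 2) * wK κ c z := by
    rw [← mul_assoc, mul_add, mul_left_comm z (κ / 2), ← mul_div_assoc z (Complex.re _), e, sg_eq]
    field_simp
    ring
  rw [e3, abs_mul, abs_of_pos w0, ← mul_assoc, abs_mul, abs_div, abs_of_nonneg (by positivity),
    abs_of_pos (pow_pos n0 2), sg_eq, ← mul_div_assoc, ← mul_div_assoc]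
  refine mul_le_mul_of_nonneg_right (div_le_div_of_nonneg_right ?_ (by positivity)) w0.le
  obtain ⟨a, b, k⟩ := h.h z hz
  have f := Complex.abs_re_le_norm (c * conj (rh c z))
  rw [norm_mul, Complex.norm_conj] at f
  have g : ‖c‖ * ‖rh c z‖ ≤ (rh c z).re / 10000 := by
    refine le_of_mul_le_mul_right ?_ (pow_pos z0 2)
    nlinarith only [mul_le_mul a b n0.le (by norm_num), k]
  nlinarith only [f, g, k2, h.x0 hz, abs_nonneg (c * conj (rh c z)).re]

theorem pk_wK (h : End c R Z) (h8 : ∀ z ∈ Icc R Z, 10 ^ 8 ≤ z ^ 2 * (rh c z).re)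
    (k0 : 17 / 32 ≤ κ) (k2 : κ ≤ 63 / 32) : PkN c R Z (wK κ c) := by
  have k0' : 0 ≤ κ := by linarith
  have k2' : κ ≤ 2 := by linarith
  obtain ⟨w₁, w₂, d, hw⟩ := h.slow_wK' h8 k0' k2'
  refine ⟨(h.sl_wK k0' k2').mono (by norm_num), w₁, w₂, d, fun z hz => ?_⟩
  obtain ⟨-, w0, -, a2⟩ := hw z hz
  obtain ⟨a, da, a1⟩ := h.wK_der k0' k2' hz
  rw [da.unique (d z hz).1, abs_le] at a1
  rw [Real.sq_sqrt (h.r0 hz).le] at a2
  have p := mul_pos (h.r0 hz) w0
  exact ⟨by nlinarith only [a1.1, le_abs_self (w₂ z), a2, p, k2],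
    by nlinarith only [a1.2, p, k0]⟩

theorem pk_wO (h : End c R Z) : PkO c R Z (wO c) := by
  refine ⟨h.sl_wO.mono (by norm_num), fun z hz => ?_⟩
  have z0 := h.z0 hz
  have x0 := h.x0 hz
  have w0 := h.sl_wO.pos hz
  refine ⟨(-3 / 2 / z + 1 / 4 * ((2 * c * z).re / (rh c z).re)) * wO c z,
    (((hasDerivAt_id z).rpow_const (p := -3 / 2) (Or.inl z0.ne')).mul
      (((rh_d2 c univ).re z trivial).1.rpow_const (p := 1 / 4) (Or.inl x0.ne'))).congr_deriv (by
        simp only [id, wO]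
        rw [Real.rpow_sub_one z0.ne', Real.rpow_sub_one x0.ne']
        ring), ?_⟩
  have e : z * (2 * c * z).re = 2 * ((rh c z).re - 2 + 2 * c.re) := by
    simp [rh, sq]; ring
  have c1 : c.re ≤ 1 / 2 := by
    nlinarith only [Complex.re_le_norm c, (h.h z hz).1, h.zz hz, norm_nonneg c]
  have e2 : z * (-3 / 2 / z + 1 / 4 * ((2 * c * z).re / (rh c z).re)) =
      -1 - (1 - c.re) * ((rh c z).re)⁻¹ := by
    rw [mul_add, mul_left_comm, ← mul_div_assoc z (2 * c * z).re, e]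
    field_simp
    ring
  rw [← mul_assoc, e2]
  nlinarith only [w0, mul_le_mul_of_nonneg_right c1 (mul_pos (inv_pos.2 x0) w0).le]

theorem sl_gW (h : End c R Z) (k : Slow (Icc R Z) (fun z => z) (1 / 100) w) :
    Slow (Icc R Z) (fun z => z) (28 / 100) (gW w c Z) :=
  (k.mul ((h.sl_sg.mono (e' := 26 / 100) (by norm_num)).add
    ((h.sl_sq.mul h.sl_ly).mono (by norm_num)))).mono (by norm_num)

theorem sl_gz (h : End c R Z) (k : Slow (Icc R Z) (fun z => z) (1 / 100) w) :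
    Slow (Icc R Z) (fun z => z) (28 / 100) (gz w c Z) :=
  (k.mul (((h.sl_re.inv (by norm_num)).mono (e' := 26 / 100) (by norm_num)).add
    ((h.sl_sq.mul h.sl_ly).mono (by norm_num)))).mono (by norm_num)

theorem sl_hv (h : End c R Z) : Slow (Icc R Z) (fun z => z) (1 / 150) (hv c) :=
  (h.sl_sq.mul (h.sl_re.inv (by norm_num))).mono (by norm_num)

end End

/-- the heavy factor is dominated by `(z² / |ρ|) ^ (4 / 3)` -/
theorem Cyl.hv_le {Y : ℝ} (h : Cyl Y R Z c) (hY : 10 ^ 6 ≤ Y) (hz : z ∈ Icc R Z) :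
    hv c z * wK κ c z ≤ wK (κ - 4 / 3) c z := by
  have e := h.toEnd hY
  have z0 := e.z0 hz
  have n0 := e.n0 hz
  have x0 := e.x0 hz
  have a : hv c z ≤ z ^ (8 / 3 : ℝ) * ‖rh c z‖ ^ (-(4 / 3) : ℝ) := by
    refine le_of_pow_le_pow_left₀ three_ne_zero (by positivity) ?_
    rw [mul_pow, ← Real.rpow_natCast (z ^ _), ← Real.rpow_mul z0.le,
      ← Real.rpow_natCast (‖rh c z‖ ^ _), ← Real.rpow_mul n0.le, hv]
    norm_num
    rw [div_pow, ← div_eq_mul_inv, div_le_div_iff₀ (by positivity) (by positivity)]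
    have b := pow_le_pow_left₀ (sq_nonneg _) (h.dsc z hz) 2
    have b2 := mul_le_mul_of_nonneg_right (e.h z hz).2.2 (sq_nonneg (rh c z).re)
    have b3 : ‖rh c z‖ ^ 4 ≤ z ^ 2 * (rh c z).re ^ 3 := by
      nlinarith only [b, mul_le_mul_of_nonneg_right b2 x0.le, sq_nonneg (rh c z).re, b2]
    nlinarith only [mul_le_mul_of_nonneg_left b3 (pow_pos z0 6).le]
  refine (mul_le_mul_of_nonneg_right a (by unfold wK; positivity)).trans (le_of_eq ?_)
  rw [wK, wK, mul_mul_mul_comm, ← Real.rpow_add z0, ← Real.rpow_add n0]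
  congr 2 <;> ring

end

end Vale.Agent.P218M
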