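import Vale.Agent.P218M.G1

/-!
# P218, block MODE: the modes `|k| ≥ 2` for admissible weights (helper80)
-/

set_option linter.all false

open Set Filter Topology

namespace Vale.Agent.P218M

noncomputable section

variable {c : ℂ} {R Z z κ A M : ℝ} {w E : ℝ → ℝ} {u u₁ u₂ : ℝ → ℂ} {k : ℤ}

/-- the barrier for the modes `|k| ≥ 2` -/
def bW (κ : ℝ) (w : ℝ → ℝ) (c : ℂ) (Z z : ℝ) : ℝ :=
  128 / κ * w z + 32 * (w z * z ^ 2 * (z ^ 2 + κ * sg c z)⁻¹ * ly Z z)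

namespace End

theorem mR (h : End c R Z) : R ∈ Icc R Z := ⟨le_rfl, by linarith [h.RZ]⟩

theorem mZ (h : End c R Z) : Z ∈ Icc R Z := ⟨by linarith [h.RZ], le_rfl⟩

theorem barW (h : End c R Z) (p : PkN c R Z w) (hκ : 4 ≤ κ) : ∃ B₁ B₂,
    Bar R Z (fun z => -(z / 2)) (fun z => 1 - κ / rh c z) (bW κ w c Z) B₁ B₂ (gW w c Z) := by
  have κ0 : 0 < κ := by linarith
  obtain ⟨w₁, w₂, dw, hw⟩ := p.ex
  obtain ⟨F₁, F₂, dF, hF⟩ := ((p.sl.mul h.sl_sq).mul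
    ((h.sl_sq.add (h.sl_sg.cmul κ0)).inv (by norm_num))).mono (e' := 1 / 40) (by norm_num)
  have d := (dw.cmul (128 / κ)).add ((dF.mul (ly_d2 Z _)).cmul 32)
  refine ⟨_, _, d.cont.1, d.mono Ioo_subset_Icc_self, fun z hz => ?_, fun z hz => ?_⟩
  · have := p.sl.pos hz
    have := (hF z hz).2.1
    have := ly_pos Z z
    unfold bW
    positivity
  have hz := Ioo_subset_Icc_self hz
  have w0 := p.sl.pos hz
  obtain ⟨-, F0, -, b2⟩ := hF z hz
  have l0 := ly_pos Z z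
  have r0 := h.r0 hz
  have z0 := h.z0 hz
  have zz := h.zz hz
  refine ⟨by unfold gW; positivity, ?_⟩
  rw [q_re, bW, gW]
  set F := w z * z ^ 2 * (z ^ 2 + κ * sg c z)⁻¹ with eF
  have e1 : F * (z ^ 2 + κ * sg c z) = w z * z ^ 2 := inv_mul_cancel_right₀ (by positivity) _
  have k1 : w₂ z + -(z / 2) * w₁ z + (1 - κ * sg c z) * w z ≤ -(κ / 128 * (sg c z * w z)) := by
    nlinarith only [(hw z hz).1, mul_nonneg (sub_nonneg.2 hκ) (mul_pos r0 w0).le]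
  have k2 := mul_le_mul_of_nonneg_left k1 (div_pos (by norm_num : (0 : ℝ) < 128) κ0).le
  have e2 : 128 / κ * -(κ / 128 * (sg c z * w z)) = -(sg c z * w z) := by field_simp
  have k3 : F₂ z + F * (5 / 4 - z ^ 2 / 16 - κ * sg c z) ≤ -(w z * z ^ 2 / 32) := by
    nlinarith only [le_abs_self (F₂ z), b2, e1, mul_nonneg (sub_nonneg.2 zz) F0.le,
      mul_pos F0 (mul_pos κ0 r0), F0]
  have k4 := mul_le_mul_of_nonneg_left k3 l0.le
  linarith

theorem bW_le (h : End c R Z) (w0 : 0 < w z) (hκ : 4 ≤ κ) (hz : z ∈ Icc R Z) :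
    bW κ w c Z z ≤ 64 * w z ∧ κ * sg c z * bW κ w c Z z ≤ 128 * gW w c Z z ∧
      w z ≤ κ * bW κ w c Z z := by
  have κ0 : 0 < κ := by linarith
  have l0 := ly_pos Z z
  have r0 := h.r0 hz
  have z0 := h.z0 hz
  rw [bW, gW]
  set F := w z * z ^ 2 * (z ^ 2 + κ * sg c z)⁻¹ with eF
  have F0 : 0 < F := by positivity
  have e1 : F * (z ^ 2 + κ * sg c z) = w z * z ^ 2 := inv_mul_cancel_right₀ (by positivity) _
  have a : F ≤ w z := le_of_mul_le_mul_right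
    (by nlinarith only [e1, mul_pos F0 (mul_pos κ0 r0)]) (pow_pos z0 2)
  have b : 128 / κ ≤ 32 := by rw [div_le_iff₀ κ0]; linarith
  have e2 : κ * (128 / κ * w z) = 128 * w z := by field_simp
  refine ⟨?_, ?_, ?_⟩
  · nlinarith only [a, b, w0, mul_le_mul a (h.ly_le hz) l0.le w0.le]
  · have : κ * sg c z * F ≤ w z * z ^ 2 := by nlinarith only [e1, mul_pos F0 (pow_pos z0 2)]
    nlinarith only [congrArg (sg c z * ·) e2, mul_le_mul_of_nonneg_right this l0.le,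
      mul_pos (mul_pos w0 (pow_pos z0 2)) l0]
  · nlinarith only [e2, w0, mul_pos κ0 (mul_pos F0 l0)]

/-- first derivative from the drift -/
theorem d1E (h : End c R Z) (sE : Slow (Icc R Z) (fun z => z) (3 / 10) E)
    (cu₁ : ContinuousOn u₁ (Icc R Z)) (du : D2 (Ioo R Z) u u₁ u₂)
    (hh : ∀ z ∈ Ioo R Z, ‖u₂ z + (-(z / 2) : ℝ) * u₁ z‖ ≤ A * (E z / 8))
    (hZ : ‖u₁ Z‖ ≤ A * (E Z / Z)) : ∀ z ∈ Icc R Z, ‖u₁ z‖ ≤ A * (E z / z) := by
  obtain ⟨P₁, P₂, dP, hP⟩ := (sE.mul (h.sl_id.inv (by norm_num))).mono (e' := 3 / 8) (by norm_num)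
  refine back_cmp cu₁ dP.cont.1 (fun z hz => (du z hz).2)
    (fun z hz => (dP z (Ioo_subset_Icc_self hz)).1) (fun z hz => (hP z hz).2.1)
    (fun z hz => ?_) hh hZ
  have hz := Ioo_subset_Icc_self hz
  have := sE.pos hz
  have a := (le_abs_self _).trans (hP z hz).2.2.1
  have e : z * (E z * z⁻¹) = E z := mul_div_cancel₀ _ (h.z0 hz).ne'
  exact ⟨by positivity, by rw [div_eq_mul_inv (E z) z]; linarith⟩

/-- the slope at the cut -/
theorem dZE (h : End c R Z) (sw : Slow (Icc R Z) (fun z => z) (1 / 2) w)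
    (sE : Slow (Icc R Z) (fun z => z) (1 / 2) E) (a : w Z * Z ^ 2 ≤ E Z)
    (cu : ContinuousOn u (Icc R Z)) (cu₁ : ContinuousOn u₁ (Icc R Z))
    (du : D2 (Ioo R Z) u u₁ u₂) (A0 : 0 ≤ A) (h0 : ∀ z ∈ Icc R Z, ‖u z‖ ≤ A * w z)
    (hh : ∀ z ∈ Ioo R Z, ‖u₂ z + (-(z / 2) : ℝ) * u₁ z‖ ≤ A * E z) :
    ‖u₁ Z‖ ≤ 18 * A * (E Z / Z) := by
  have hZ := h.mZ
  have Z0 := h.z0 hZ
  have l1 : Z⁻¹ ≤ 1 := inv_le_one_of_one_le₀ (by linarith [h.z4 hZ])
  have l0 := inv_pos.2 Z0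
  have e : Z - Z⁻¹ + Z⁻¹ = Z := sub_add_cancel _ _
  have s1 : R ≤ Z - Z⁻¹ := by linarith [h.RZ]
  have s2 : Icc (Z - Z⁻¹) (Z - Z⁻¹ + Z⁻¹) ⊆ Icc R Z := Icc_subset_Icc s1 e.le
  have s3 : Ioo (Z - Z⁻¹) (Z - Z⁻¹ + Z⁻¹) ⊆ Ioo R Z := Ioo_subset_Ioo s1 e.le
  have l2 : (Z - Z⁻¹ + Z⁻¹) * (Z - Z⁻¹ + Z⁻¹ - (Z - Z⁻¹)) ≤ 2 := by
    rw [add_sub_cancel_left, e, mul_inv_cancel₀ Z0.ne']; norm_num
  have m : Z ∈ Icc (Z - Z⁻¹) (Z - Z⁻¹ + Z⁻¹) := ⟨by linarith, e.ge⟩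
  have := grad_le (b := fun z => -(z / 2)) (U := A * (3 * w Z))
    (H := A * (3 * E Z)) l0 (cu.mono s2) (cu₁.mono s2) (du.mono s3)
    (fun z hz => by
      rw [abs_neg, abs_of_pos (half_pos (h.R0.trans (s3 hz).1)), ← div_eq_mul_inv,
        div_le_iff₀ Z0]
      linarith [(s3 hz).2])
    (fun z hz => (h0 z (s2 hz)).trans (mul_le_mul_of_nonneg_left
      (sw.cmp le_rfl s1 e.le l2 z hz Z m) A0))
    (fun z hz => (hh z (s3 hz)).trans (mul_le_mul_of_nonneg_left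
      (sE.cmp le_rfl s1 e.le l2 z (Ioo_subset_Icc_self hz) Z m) A0)) Z m
  refine this.trans ?_
  have b := mul_le_mul_of_nonneg_left a (mul_nonneg A0 l0.le)
  have e1 : A * Z⁻¹ * (w Z * Z ^ 2) = A * w Z / Z⁻¹ := by field_simp
  rw [e1] at b
  rw [div_eq_mul_inv _ Z]
  have e2 : 4 * (A * (3 * w Z)) / Z⁻¹ = 12 * (A * w Z / Z⁻¹) := by ring
  linarith

/-- the mixed derivative by interpolation -/
theorem dtE (h : End c R Z) (sE : Slow (Icc R Z) (fun z => z) (1 / 2) E) {k : ℝ} (k0 : 0 ≤ k)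
    (cu : ContinuousOn u (Icc R Z)) (cu₁ : ContinuousOn u₁ (Icc R Z))
    (du : D2 (Ioo R Z) u u₁ u₂) (A0 : 0 ≤ A)
    (h0 : ∀ z ∈ Icc R Z, k ^ 2 * ‖u z‖ ≤ A * (E z * ‖rh c z‖))
    (h1 : ∀ z ∈ Icc R Z, ‖u₁ z‖ ≤ A * (E z / z)) (h2 : ∀ z ∈ Ioo R Z, ‖u₂ z‖ ≤ A * E z)
    (hz : z ∈ Icc R Z) : k * ‖u₁ z‖ ≤ 21 * A * (E z * √‖rh c z‖) := by
  have z0 := h.z0 hz
  have z4 := h.z4 hz
  have n0 := h.n0 hz
  have E0 := mul_nonneg A0 (sE.pos hz).le
  have t0 := Real.sqrt_pos.2 n0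
  rcases le_total k (√‖rh c z‖ * z) with hk | hk
  · refine (mul_le_mul hk (h1 z hz) (norm_nonneg _) (by positivity)).trans ?_
    have e : √‖rh c z‖ * z * (A * (E z / z)) = A * E z * √‖rh c z‖ := by field_simp
    nlinarith only [e, mul_nonneg E0 t0.le]
  have k1 : 0 < k := (mul_pos t0 z0).trans_le hk
  set l := √‖rh c z‖ / k with hl
  have l0 : 0 < l := div_pos t0 k1
  have l1 : l * z ≤ 1 := by rwa [hl, div_mul_eq_mul_div, div_le_one k1]
  have l2 : l ≤ 1 / 4 := by nlinarith only [l0, l1, z4]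
  obtain ⟨x, x1, x2, m⟩ : ∃ x, R ≤ x ∧ x + l ≤ Z ∧ z ∈ Icc x (x + l) := by
    rcases le_total (z + l) Z with k | k
    · exact ⟨z, hz.1, k, le_rfl, by linarith⟩
    · exact ⟨z - l, by linarith [h.RZ], by linarith [hz.2], by linarith, by linarith⟩
  have s2 : Icc x (x + l) ⊆ Icc R Z := Icc_subset_Icc x1 x2
  have s3 : Ioo x (x + l) ⊆ Ioo R Z := Ioo_subset_Ioo x1 x2
  have l3 : (x + l) * (x + l - x) ≤ 2 := by nlinarith only [l0, l1, l2, m.1]
  have cE := sE.cmp le_rfl x1 x2 l3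
  have := landau (U := 9 * (A * E z) * l ^ 2) (K := A * (3 * E z)) l0 (cu.mono s2) (cu₁.mono s2)
    (du.mono s3)
    (fun y hy => by
      have b := mul_le_mul (cE y hy z m) (h.sl_n.cmp (by norm_num) x1 x2 l3 y hy z m)
        (norm_nonneg _) (mul_pos three_pos (sE.pos hz)).le
      rw [hl, div_pow, Real.sq_sqrt n0.le, ← mul_div_assoc, le_div_iff₀ (pow_pos k1 2)]
      nlinarith only [h0 y (s2 hy), mul_le_mul_of_nonneg_left b A0])
    (fun y hy => (h2 y (s3 hy)).trans (mul_le_mul_of_nonneg_left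
      (cE y (Ioo_subset_Icc_self hy) z m) A0)) z m
  have e : k * (2 * (9 * (A * E z) * l ^ 2) / l + l * (A * (3 * E z))) =
      21 * A * (E z * √‖rh c z‖) := by
    rw [hl]; field_simp; ring
  exact (mul_le_mul_of_nonneg_left this k0).trans e.le

theorem div_sg (h : End c R Z) (hz : z ∈ Icc R Z) (G : ℝ) :
    G / sg c z = G * ta c z * ‖rh c z‖ := by
  rw [div_eq_iff (h.r0 hz).ne']
  linear_combination (-G) * h.sg_ta hz

/-- the modes `|k| ≥ 2` with boundary data at both ends -/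
theorem modeW2 (h : End c R Z) (p : PkN c R Z w) (hk : 2 ≤ |k|) (hu : J2 (Icc R Z) u u₁ u₂)
    (hg : ∀ z ∈ Icc R Z, ‖LC c k u u₁ u₂ z‖ ≤ M * gW w c Z z)
    (hR : (k : ℝ) ^ 2 * ‖u R‖ ≤ M * w R) (hZ : (k : ℝ) ^ 2 * ‖u Z‖ ≤ M * w Z) :
    ∀ z ∈ Icc R Z, BW w c Z k u u₁ u₂ (200000 * M) z := by
  have hκ := sq4 hk
  have κ0 : (0 : ℝ) < (k : ℝ) ^ 2 := by linarith
  have du := hu.d
  rw [interior_Icc] at du
  have sG := h.sl_gW p.sl
  have sE : Slow (Icc R Z) (fun z => z) (3 / 10) fun z => gW w c Z z * ta c z :=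
    (sG.mul h.sl_ta).mono (by norm_num)
  have M0 : 0 ≤ M := nonneg_of_mul_nonneg_left ((norm_nonneg _).trans (hg R h.mR)) (sG.pos h.mR)
  obtain ⟨B₁, B₂, hB⟩ := h.barW p hκ
  have bl := fun z hz => h.bW_le (z := z) (p.sl.pos hz) hκ hz
  simp only [LC_eq] at hg
  have a := hB.le hu.c0 du (fun z hz => hg z (Ioo_subset_Icc_self hz))
    (le_of_mul_le_mul_left (by linarith [mul_le_mul_of_nonneg_left (bl R h.mR).2.2 M0]) κ0)
    (le_of_mul_le_mul_left (by linarith [mul_le_mul_of_nonneg_left (bl Z h.mZ).2.2 M0]) κ0)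
  have a0 : ∀ z ∈ Icc R Z, ‖u z‖ ≤ 321 * M * w z := fun z hz => by
    nlinarith only [a z hz, mul_le_mul_of_nonneg_left (bl z hz).1 M0,
      mul_nonneg M0 (p.sl.pos hz).le]
  have a1 : ∀ z ∈ Icc R Z, (k : ℝ) ^ 2 * sg c z * ‖u z‖ ≤ 128 * M * gW w c Z z := fun z hz => by
    nlinarith only [mul_le_mul_of_nonneg_left (a z hz) (mul_nonneg κ0.le (h.r0 hz).le),
      mul_le_mul_of_nonneg_left (bl z hz).2.1 M0]
  have a2 : ∀ z ∈ Icc R Z, ‖u₂ z + (-(z / 2) : ℝ) * u₁ z‖ ≤ 321 * M * (gW w c Z z * ta c z) :=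
    fun z hz => by
      have b := norm_sub_le (u₂ z + (-(z / 2) : ℝ) * u₁ z + (1 - ((k : ℝ) ^ 2 : ℝ) / rh c z) * u z)
        ((1 - ((k : ℝ) ^ 2 : ℝ) / rh c z) * u z)
      rw [add_sub_cancel_right, norm_mul] at b
      have n0 := h.n0 hz
      have e : (k : ℝ) ^ 2 / ‖rh c z‖ = (k : ℝ) ^ 2 * sg c z * ta c z := by
        rw [div_eq_iff n0.ne']
        linear_combination (-(k : ℝ) ^ 2) * h.sg_ta hz
      have b1 : ‖1 - ((k : ℝ) ^ 2 : ℝ) / rh c z‖ ≤ 5 / 2 * ((k : ℝ) ^ 2 * sg c z * ta c z) := by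
        refine (norm_sub_le _ _).trans ?_
        rw [norm_one, norm_div, Complex.norm_real, Real.norm_of_nonneg (sq_nonneg _), ← e]
        have : 2 / 3 ≤ (k : ℝ) ^ 2 / ‖rh c z‖ := by
          rw [le_div_iff₀ n0]; linarith [(h.h z hz).2.1]
        linarith
      have t1 := h.ta1 hz
      nlinarith only [b, hg z hz, mul_le_mul_of_nonneg_right b1 (norm_nonneg (u z)),
        mul_le_mul_of_nonneg_right (a1 z hz) (zero_le_one.trans t1),
        mul_le_mul_of_nonneg_left t1 (mul_nonneg M0 (sG.pos hz).le)]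
  have a3 := h.d1E (A := 18 * (321 * M)) sE hu.c1 du (fun z hz => by
      have hz := Ioo_subset_Icc_self hz
      nlinarith only [a2 z hz, mul_nonneg M0 (sE.pos hz).le])
    (h.dZE (p.sl.mono (by norm_num)) (sE.mono (by norm_num)) (by
      refine le_trans ?_ (le_mul_of_one_le_right (sG.pos h.mZ).le (h.ta1 h.mZ))
      rw [gW, ly_self, mul_one]
      nlinarith only [mul_pos (p.sl.pos h.mZ) (h.r0 h.mZ)])
      hu.c0 hu.c1 du (by positivity) a0 fun z hz => a2 z (Ioo_subset_Icc_self hz))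
  have a4 : ∀ z ∈ Icc R Z, ‖u₂ z‖ ≤ 18 * (321 * M) * (gW w c Z z * ta c z) := fun z hz => by
    have b := norm_sub_le (u₂ z + (-(z / 2) : ℝ) * u₁ z) ((-(z / 2) : ℝ) * u₁ z)
    have z0 := h.z0 hz
    rw [add_sub_cancel_right, norm_mul, Complex.norm_real, norm_neg,
      Real.norm_of_nonneg (half_pos z0).le] at b
    have e : z * (gW w c Z z * ta c z / z) = gW w c Z z * ta c z := mul_div_cancel₀ _ z0.ne'
    nlinarith only [b, a2 z hz, mul_le_mul_of_nonneg_left (a3 z hz) z0.le,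
      congrArg (M * ·) e, mul_nonneg M0 (sE.pos hz).le]
  have a5 : ∀ z ∈ Icc R Z, |(k : ℝ)| ^ 2 * ‖u z‖ ≤ 18 * (321 * M) * (gW w c Z z / sg c z) :=
    fun z hz => by
      rw [sq_abs, ← mul_div_assoc, le_div_iff₀ (h.r0 hz)]
      nlinarith only [a1 z hz, mul_nonneg M0 (sG.pos hz).le]
  intro z hz
  have w0 := p.sl.pos hz
  have g0 := sG.pos hz
  have r0 := h.r0 hz
  have t0 := h.sl_ta.pos hz
  have z0 := h.z0 hz
  refine ⟨(a0 z hz).trans (mul_le_mul_of_nonneg_right (by linarith) (by positivity)), ?_, ?_,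
    (a3 z hz).trans (mul_le_mul_of_nonneg_right (by linarith) (by positivity)),
    (h.dtE (sE.mono (by norm_num)) (abs_nonneg _) hu.c0 hu.c1 du (by positivity)
      (fun z hz => h.div_sg hz _ ▸ a5 z hz) a3
      (fun z hz => a4 z (Ioo_subset_Icc_self hz)) hz).trans
      (mul_le_mul_of_nonneg_right (by linarith) (by positivity)),
    (a4 z hz).trans (mul_le_mul_of_nonneg_right (by linarith) (by positivity))⟩
  · refine (abs_le_of_sq_le_sq' ?_ (by positivity)).2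
    rw [mul_pow (200000 * M), Real.sq_sqrt (by positivity), mul_div_assoc]
    nlinarith only [mul_le_mul (a5 z hz) (a0 z hz) (norm_nonneg _) (by positivity),
      mul_nonneg (sq_nonneg M) (mul_pos w0 (div_pos g0 r0)).le]
  · rw [← sq_abs]
    exact (a5 z hz).trans (mul_le_mul_of_nonneg_right (by linarith) (by positivity))

end End

end

end Vale.Agent.P218M
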