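import Vale.Agent.P218M.Spec

/-!
# P218, block MODE: the modes `± 1` (helper84)
-/

set_option linter.all false

open Set Filter Topology
open scoped ComplexConjugate

noncomputable section

namespace Vale.Agent.P218M

/-- backward comparison for the first order equation `v' + b v = h` with complex `b` -/
theorem back_cmpC {A B M : ℝ} {v v₁ b : ℝ → ℂ} {P P₁ H : ℝ → ℝ}
    (cv : ContinuousOn v (Icc A B)) (cP : ContinuousOn P (Icc A B))
    (dv : ∀ z ∈ Ioo A B, HasDerivAt v (v₁ z) z) (dP : ∀ z ∈ Ioo A B, HasDerivAt P (P₁ z) z)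
    (P0 : ∀ z ∈ Icc A B, 0 < P z) (hH : ∀ z ∈ Ioo A B, 0 < H z ∧ P₁ z + (b z).re * P z ≤ -H z)
    (hv : ∀ z ∈ Ioo A B, ‖v₁ z + b z * v z‖ ≤ M * H z) (hB : ‖v B‖ ≤ M * P B) :
    ∀ z ∈ Icc A B, ‖v z‖ ≤ M * P z := by
  intro x hx
  rcases (hx.1.trans hx.2).eq_or_lt with rfl | hAB
  · rw [le_antisymm hx.2 hx.1]; exact hB
  refine le_cl hAB cv.norm (cP.const_smul M) (fun x hx => ?_) x hx
  by_contra hc
  have s1 : Icc x B ⊆ Icc A B := Icc_subset_Icc_left hx.1.le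
  obtain ⟨y, hy, m, hm, e, k⟩ := ex_max (M := M) (cv.mono s1) (cP.mono s1)
    (fun z hz => P0 z (s1 hz)) ⟨le_rfl, hx.2.le⟩ (not_le.1 hc)
  have hy' : y ∈ Ioo A B := by
    refine ⟨hx.1.trans_le hy.1, lt_of_le_of_ne hy.2 ?_⟩
    rintro rfl
    exact (hB.trans_lt (mul_lt_mul_of_pos_right hm (P0 _ (s1 hy)))).ne e
  have M0 : 0 ≤ M := nonneg_of_mul_nonneg_left ((norm_nonneg _).trans hB) (P0 B ⟨hAB.le, le_rfl⟩)
  have m0 : 0 < m := M0.trans_lt hm
  have n0 : 0 < ‖v y‖ := e ▸ mul_pos m0 (P0 y (s1 hy))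
  have d := (re_der ((dv y hy').const_mul (conj (v y)))).sub ((dP y hy').const_mul (‖v y‖ * m))
  have h1 : (conj (v y) * v₁ y).re - ‖v y‖ * m * P₁ y ≤ 0 := by
    refine le_of_tendsto (hasDerivAt_iff_tendsto_slope_left_right.1 d).2 ?_
    filter_upwards [Ioo_mem_nhdsGT hy'.2] with z hz
    have := re_cj_le (v y) (v z)
    rw [slope_def_field]
    refine div_nonpos_of_nonpos_of_nonneg ?_ (sub_nonneg.2 hz.1.le)
    simp only [Pi.sub_apply]
    rw [re_cj_self, Complex.ofReal_re, mul_assoc, mul_assoc, ← e]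
    nlinarith only [this, k z ⟨hy.1.trans hz.1.le, hz.2.le⟩, n0]
  have h3 : (conj (v y) * (v₁ y + b y * v y)).re =
      (conj (v y) * v₁ y).re + (b y).re * (‖v y‖ * ‖v y‖) := by
    rw [mul_add, mul_left_comm, re_cj_self, Complex.add_re, Complex.re_mul_ofReal]
  have h4 := re_cj_le (v y) (-(v₁ y + b y * v y))
  rw [mul_neg, Complex.neg_re, norm_neg, h3] at h4
  obtain ⟨g0, g1⟩ := hH y hy'
  have h5 := mul_le_mul_of_nonneg_left (hv y hy') n0.le
  have h6 := mul_le_mul_of_nonneg_left g1 (mul_pos n0 m0).le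
  have h7 := mul_lt_mul_of_pos_left hm (mul_pos n0 g0)
  have h8 : (b y).re * (‖v y‖ * ‖v y‖) = ‖v y‖ * m * ((b y).re * P y) := by
    rw [e]; ring
  nlinarith only [h1, h4, h5, h6, h7, h8]

namespace One

variable {R Z z : ℝ} {c : ℂ}

/-- pointwise facts -/
structure Pt (c : ℂ) (Z z : ℝ) : Prop where
  z0 : 0 < z
  r0 : 0 < (rh c z).re
  cz : ‖c‖ * z ^ 2 ≤ 8
  i1 : 1 ≤ 6 * ‖(rh c z)⁻¹‖
  i2 : 40000 * ‖(rh c z)⁻¹‖ ≤ z ^ 2
  i3 : 40000 * ‖(rh c z)⁻¹‖ ^ 2 ≤ sg c z * z ^ 2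
  s1 : 1 ≤ 6 * sg c z
  ts : sg c z * ta c z = ‖(rh c z)⁻¹‖
  t1 : 1 ≤ ta c z
  l1 : ly Z z ≤ 1

theorem pt (h : Cyl 40000 R Z c) (hz : z ∈ Icc R Z) : Pt c Z z := by
  have z0 := h.R0.trans_le hz.1
  have a := h.tip z hz
  have b := h.dsc z hz
  have r0 : 0 < (rh c z).re := pos_of_mul_pos_left (by linarith) (sq_nonneg z)
  have rn := Complex.re_le_norm (rh c z)
  have n0 := r0.trans_le rn
  have zZ : z ^ 2 ≤ Z ^ 2 := pow_le_pow_left₀ z0.le hz.2 2
  have s : sg c z = (rh c z).re / ‖rh c z‖ ^ 2 := by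
    rw [sg, Complex.inv_re, Complex.normSq_eq_norm_sq]
  refine ⟨z0, r0, (mul_le_mul_of_nonneg_left zZ (norm_nonneg c)).trans h.cZ, ?_, ?_, ?_, ?_, ?_,
    (one_le_div r0).2 rn, Real.exp_le_one_iff.2 (by linarith)⟩
  · rw [norm_inv, ← div_eq_mul_inv, one_le_div n0]; nlinarith
  · rw [norm_inv, ← div_eq_mul_inv, div_le_iff₀ n0]; nlinarith
  · rw [norm_inv, inv_pow, ← div_eq_mul_inv, s, div_mul_eq_mul_div]; gcongr; linarith
  · rw [s, ← mul_div_assoc, one_le_div (by positivity)]; exact b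
  · rw [s, ta, norm_inv]; field_simp

theorem Pt.ne (h : Pt c Z z) : rh c z ≠ 0 := fun e => by simpa [e] using h.r0

theorem Pt.w0 (h : Pt c Z z) : 0 < wN c z :=
  mul_pos (Real.rpow_pos_of_pos h.z0 _) (Real.rpow_pos_of_pos (norm_pos_iff.2 h.ne) _)

theorem ly0 : 0 < ly Z z := Real.exp_pos _

theorem Pt.s0 (h : Pt c Z z) : 0 < sg c z := by linarith [h.s1]

theorem Pt.g0 (h : Pt c Z z) : 0 < gN c Z z :=
  mul_pos h.w0 (add_pos h.s0 (mul_pos (pow_pos h.z0 2) ly0))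

theorem Pt.wg (h : Pt c Z z) : wN c z * sg c z ≤ gN c Z z :=
  mul_le_mul_of_nonneg_left (le_add_of_nonneg_right (mul_pos (pow_pos h.z0 2) ly0).le) h.w0.le

theorem rh_der : HasDerivAt (rh c) (2 * c * z) z :=
  (((((hasDerivAt_id z).ofReal_comp.pow 2).sub_const 2).const_mul c).const_add 2).congr_deriv
    (by simp; ring)

theorem Pt.di (h : Pt c Z z) :
    HasDerivAt (fun z => (rh c z)⁻¹) (-(2 * c * z * (rh c z)⁻¹ ^ 2)) z :=
  (rh_der.inv h.ne).congr_deriv (by rw [inv_pow]; ring)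

theorem ly_der : HasDerivAt (ly Z) (ly Z z * (z / 4)) z :=
  ((((hasDerivAt_id z).pow 2).sub_const (Z ^ 2)).div_const 8).exp.congr_deriv
    (by simp [ly]; ring)

/-- `z` times the logarithmic derivative of `wN` -/
def lw (c : ℂ) (z : ℝ) : ℝ := -3 / 2 + 7 / 2 * z ^ 2 * (c * (rh c z)⁻¹).re

theorem Pt.dw (h : Pt c Z z) : HasDerivAt (wN c) (wN c z * (lw c z / z)) z := by
  have e : ∀ x, rh c x ≠ 0 → ‖rh c x‖ ^ (7 / 4 : ℝ) =
      Real.exp ((Complex.log (rh c x)).re * (7 / 4)) := fun x hx => by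
    rw [Complex.log_re, Real.rpow_def_of_pos (norm_pos_iff.2 hx)]
  have a := ((re_der (rh_der.clog_real (.inl h.r0))).mul_const (7 / 4 : ℝ)).exp.congr_of_eventuallyEq
    ((rh_der.continuousAt.eventually_ne h.ne).mono e)
  refine (((hasDerivAt_id z).rpow_const (p := -3 / 2) (.inl h.z0.ne')).mul a).congr_deriv ?_
  have z0 := h.z0.ne'
  rw [← e z h.ne, id, Real.rpow_sub_one z0, div_eq_mul_inv (2 * c * z), show 2 * c * z *
    (rh c z)⁻¹ = (2 * z : ℝ) * (c * (rh c z)⁻¹) by push_cast; ring, Complex.re_ofReal_mul, wN, lw]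
  field_simp
  ring

/-- the coefficient `a` -/
def aa (c : ℂ) (z : ℝ) : ℂ := 2 / z * (1 - (rh c z)⁻¹)

theorem Pt.ar (h : Pt c Z z) : (aa c z).re = 2 / z * (1 - sg c z) := by
  rw [aa, show (2 / z : ℂ) = (2 / z : ℝ) by push_cast; rfl, Complex.re_ofReal_mul]; rfl

theorem Pt.da (h : Pt c Z z) : HasDerivAt (aa c)
    (-2 / z ^ 2 * (1 - (rh c z)⁻¹) + 4 * c * (rh c z)⁻¹ ^ 2) z := by
  have z0 : (z : ℂ) ≠ 0 := by exact_mod_cast h.z0.ne'
  refine (((hasDerivAt_const z (2 : ℂ)).div (hasDerivAt_id z).ofReal_comp z0).mul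
    (h.di.const_sub 1)).congr_deriv ?_
  simp
  field_simp
  ring

theorem Pt.i7 (h : Pt c Z z) : ‖1 - (rh c z)⁻¹‖ ≤ 7 * ‖(rh c z)⁻¹‖ := by
  have := norm_sub_le 1 (rh c z)⁻¹
  rw [norm_one] at this
  linarith [h.i1]

theorem Pt.a2 (h : Pt c Z z) : ‖-2 / z ^ 2 * (1 - (rh c z)⁻¹) + 4 * c * (rh c z)⁻¹ ^ 2 +
    aa c z ^ 2‖ ≤ sg c z / 128 := by
  have z0 := h.z0
  have a := h.i7
  have a2 := pow_le_pow_left₀ (norm_nonneg _) a 2
  refine (norm_add₃_le.trans (le_of_mul_le_mul_right ?_ (pow_pos z0 2)))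
  simp only [aa, norm_mul, norm_div, norm_neg, norm_pow, Complex.norm_real, Real.norm_of_nonneg z0.le,
    Complex.norm_ofNat]
  have := mul_le_mul_of_nonneg_right h.cz (sq_nonneg ‖(rh c z)⁻¹‖)
  have := h.i1
  have := h.i3
  generalize (rh c z)⁻¹ = ι at *
  field_simp
  nlinarith

theorem Pt.ci (h : Pt c Z z) : (c * (rh c z)⁻¹).re ≤ 1 / 5000 := by
  refine (Complex.re_le_norm _).trans (le_of_mul_le_mul_right ?_ (pow_pos h.z0 2))
  rw [norm_mul]
  nlinarith [h.cz, h.i2, norm_nonneg (rh c z)⁻¹]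

theorem Pt.lw1 (h : Pt c Z z) : lw c z - 2 * (1 - sg c z) ≤ -sg c z := by
  have e : (rh c z * (rh c z)⁻¹).re = 1 := by rw [mul_inv_cancel₀ h.ne]; rfl
  rw [show rh c z * (rh c z)⁻¹ = (2 : ℝ) * (rh c z)⁻¹ + (z ^ 2 - 2 : ℝ) * (c * (rh c z)⁻¹) by
    nth_rw 1 [rh]; push_cast; ring, Complex.add_re, Complex.re_ofReal_mul,
    Complex.re_ofReal_mul] at e
  have := h.ci
  have := h.s1
  simp only [lw, sg] at *
  linarith

/-- barrier for `p = u' - a u` -/
theorem Pt.bp (h : Pt c Z z) : ∃ P, HasDerivAt (fun z => 8 * (gN c Z z / z)) P z ∧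
    P + (aa c z - z / 2).re * (8 * (gN c Z z / z)) ≤ -gN c Z z := by
  have z0 := h.z0
  refine ⟨_, ((h.dw.mul ((re_der h.di).add (((hasDerivAt_id z).pow 2).mul ly_der))).div
    (hasDerivAt_id z) z0.ne').const_mul 8, le_of_mul_le_mul_right ?_ (pow_pos z0 2)⟩
  have a : -(2 * c * z * (rh c z)⁻¹ ^ 2).re * z ≤ sg c z * z ^ 2 / 100 := by
    have := Complex.re_le_norm (-(2 * c * z * (rh c z)⁻¹ ^ 2))
    simp only [norm_neg, norm_mul, norm_pow, Complex.norm_real, Real.norm_of_nonneg z0.le,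
      Complex.norm_ofNat, Complex.neg_re] at this
    have := mul_le_mul_of_nonneg_right this z0.le
    have := mul_le_mul_of_nonneg_right h.cz (sq_nonneg ‖(rh c z)⁻¹‖)
    nlinarith [h.i3, sq_nonneg ‖(rh c z)⁻¹‖]
  have b : 6000 ≤ z ^ 2 := by linarith [h.i1, h.i2]
  have b2 : lw c z ≤ z ^ 2 / 100 := by linarith [h.lw1, h.s0]
  rw [Complex.sub_re, h.ar, show ((z : ℂ) / 2).re = z / 2 by simp]
  simp only [gN, Pi.add_apply, Pi.mul_apply, Pi.pow_apply, id, Complex.neg_re, ← sg.eq_1]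
  have w0 := h.w0
  have s0 := h.s0
  have l0 : 0 < z ^ 2 * ly Z z := mul_pos (pow_pos z0 2) ly0
  generalize (2 * c * z * (rh c z)⁻¹ ^ 2).re = t at *
  field_simp
  push_cast
  linarith [mul_le_mul_of_nonneg_right b2 (add_pos s0 l0).le, mul_le_mul_of_nonneg_right b l0.le,
    mul_le_mul_of_nonneg_right b s0.le, mul_pos (add_pos s0 l0) s0]

/-- barrier for `u` -/
theorem Pt.bu (h : Pt c Z z) : ∃ P, HasDerivAt (fun z => 4 * (wN c z * (2 - ly Z z))) P z ∧
    P + (-aa c z).re * (4 * (wN c z * (2 - ly Z z))) ≤ -(gN c Z z / z) := by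
  have z0 := h.z0
  refine ⟨_, (h.dw.mul (ly_der.const_sub 2)).const_mul 4, le_of_mul_le_mul_right ?_ z0⟩
  rw [Complex.neg_re, h.ar, gN]
  have w0 := h.w0
  field_simp
  linarith [mul_le_mul_of_nonneg_right h.lw1 (show 0 ≤ 2 - ly Z z by linarith [h.l1]),
    mul_le_mul_of_nonneg_left h.l1 h.s0.le, h.s0]

variable {u u₁ u₂ : ℝ → ℂ} {M : ℝ} {k : ℤ}

theorem lc (hk : |k| = 1) (z0 : 0 < z) :
    u₂ z = LC c k u u₁ u₂ z + z / 2 * (u₁ z - aa c z * u z) := by
  have : (z : ℂ) ≠ 0 := by exact_mod_cast z0.ne'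
  have : (k : ℂ) ^ 2 = 1 := by exact_mod_cast (by rw [← sq_abs, hk]; rfl : k ^ 2 = 1)
  rw [LC, aa, this]
  field_simp
  ring

theorem step (h : Cyl 40000 R Z c) (hk : |k| = 1) (J : J2 (Icc R Z) u u₁ u₂)
    (hg : ∀ z ∈ Icc R Z, ‖LC c k u u₁ u₂ z‖ ≤ M * gN c Z z) (h0 : u Z = 0)
    (h1 : ‖u₁ Z‖ ≤ M * (Z * wN c Z)) {m : ℝ} (M0 : 0 ≤ M) (m0 : 0 ≤ m)
    (hm : ∀ z ∈ Icc R Z, ‖u z‖ ≤ m * wN c z) : ∀ z ∈ Icc R Z,
      ‖u₁ z - aa c z * u z‖ ≤ (M + m / 128) * (8 * (gN c Z z / z)) ∧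
        ‖u z‖ ≤ (M + m / 128) * 64 * wN c z := by
  have D := J.d
  rw [interior_Icc] at D
  have o : ∀ z ∈ Ioo R Z, Pt c Z z := fun z hz => pt h (Ioo_subset_Icc_self hz)
  have hZ : Z ∈ Icc R Z := ⟨by linarith [h.RZ], le_rfl⟩
  choose! P P1 P2 using fun z hz => (pt (z := z) h hz).bp
  choose! Q Q1 Q2 using fun z hz => (pt (z := z) h hz).bu
  have s := @Ioo_subset_Icc_self ℝ _ R Z
  have a := back_cmpC (M := M + m / 128) (H := gN c Z) (J.c1.sub (ContinuousOn.mul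
      (fun z hz => (pt h hz).da.continuousAt.continuousWithinAt) J.c0))
    (fun z hz => (P1 z hz).continuousAt.continuousWithinAt)
    (fun z hz => (D z hz).2.sub ((o z hz).da.mul (D z hz).1)) (fun z hz => P1 z (s hz))
    (fun z hz => mul_pos (by norm_num) (div_pos (pt h hz).g0 (pt h hz).z0))
    (fun z hz => ⟨(o z hz).g0, P2 z (s hz)⟩) (fun z hz => by
      have e := norm_sub_le (LC c k u u₁ u₂ z) ((-2 / z ^ 2 * (1 - (rh c z)⁻¹) +
        4 * c * (rh c z)⁻¹ ^ 2 + aa c z ^ 2) * u z)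
      rw [norm_mul] at e
      have e2 := mul_le_mul (o z hz).a2 (hm z (s hz)) (norm_nonneg _) (by linarith [(o z hz).s0])
      have e3 := mul_le_mul_of_nonneg_left (o z hz).wg m0
      refine (le_of_eq_of_le (congrArg _ ?_) e).trans (by linarith [hg z (s hz)])
      simp only [Pi.sub_apply, Pi.mul_apply]
      linear_combination lc (c := c) (u := u) (u₁ := u₁) (u₂ := u₂) hk (o z hz).z0)
    (by
      have p := pt h hZ
      have : Z * wN c Z ≤ 8 * (gN c Z Z / Z) := by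
        rw [← mul_div_assoc, le_div_iff₀ p.z0, gN, ly, sub_self, zero_div, Real.exp_zero]
        nlinarith [mul_pos p.w0 p.s0, mul_pos p.w0 (pow_pos p.z0 2)]
      simp only [Pi.sub_apply, Pi.mul_apply, h0, mul_zero, sub_zero]
      exact h1.trans (mul_le_mul (by linarith) this (mul_pos p.z0 p.w0).le (by positivity)))
  have b := back_cmpC (M := (M + m / 128) * 8) (H := fun z => gN c Z z / z) J.c0
    (fun z hz => (Q1 z hz).continuousAt.continuousWithinAt) (fun z hz => (D z hz).1)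
    (fun z hz => Q1 z (s hz))
    (fun z hz => mul_pos four_pos (mul_pos (pt h hz).w0 (by linarith [(pt h hz).l1])))
    (fun z hz => ⟨div_pos (o z hz).g0 (o z hz).z0, Q2 z (s hz)⟩)
    (fun z hz => by rw [neg_mul, ← sub_eq_add_neg, mul_assoc]; exact a z (s hz))
    (by
      rw [h0, norm_zero]
      exact mul_nonneg (by positivity) (mul_pos four_pos (mul_pos (pt h hZ).w0
        (by linarith [(pt h hZ).l1]))).le)
  refine fun z hz => ⟨a z hz, (b z hz).trans ?_⟩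
  have := mul_nonneg (show 0 ≤ M + m / 128 by positivity) (mul_pos (pt h hz).w0 (@ly0 Z z)).le
  linarith

end One

open One in
theorem mode1 : MODE1 := by
  refine ⟨40000, 2000, by norm_num, fun R Z c h k hk u u₁ u₂ M J hg h0 h1 z hz => ?_⟩
  have p := pt h hz
  have g0 := p.g0
  have w0 := p.w0
  have s0 := p.s0
  have z0 := p.z0
  have M0 : 0 ≤ M := nonneg_of_mul_nonneg_left ((norm_nonneg _).trans (hg z hz)) g0
  have a : ∀ z ∈ Icc R Z, ‖u z‖ ≤ 128 * M * wN c z := fun x hx => not_lt.1 fun hc => by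
    obtain ⟨y, hy, m, m1, m2, m3⟩ := ex_max J.c0
      (fun z hz => (pt h hz).dw.continuousAt.continuousWithinAt) (fun z hz => (pt h hz).w0) hx hc
    have := (step h hk J hg h0 h1 M0 (by linarith) m3 y hy).2
    rw [m2] at this
    linarith [le_of_mul_le_mul_right this (pt h hy).w0]
  have b := (step h hk J hg h0 h1 M0 (by positivity) a z hz).1
  have a := a z hz
  have k1 : |(k : ℝ)| = 1 := by exact_mod_cast hk
  have ws : wN c z ≤ gN c Z z / sg c z := (le_div_iff₀ s0).2 p.wg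
  have gt : gN c Z z ≤ gN c Z z * ta c z := le_mul_of_one_le_right g0.le p.t1
  have b0 : ‖u z‖ ≤ 2000 * M * wN c z := by linarith [mul_nonneg M0 w0.le]
  have bz : ‖u₁ z‖ ≤ 2000 * M * (gN c Z z * ta c z / z) := by
    have e := norm_add_le (u₁ z - aa c z * u z) (aa c z * u z)
    have e1 : ‖aa c z‖ ≤ 2 / z * (7 * (sg c z * ta c z)) := by
      rw [aa, norm_mul, norm_div, Complex.norm_real, Real.norm_of_nonneg z0.le, Complex.norm_ofNat,
        p.ts]
      exact mul_le_mul_of_nonneg_left p.i7 (by positivity)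
    have t0 : 0 < ta c z := by linarith [p.t1]
    have e2 := mul_le_mul e1 a (norm_nonneg _) (by positivity)
    have e3 := mul_le_mul_of_nonneg_left p.wg (show 0 ≤ M * ta c z / z by positivity)
    have e4 := mul_le_mul_of_nonneg_left gt (show 0 ≤ M / z by positivity)
    have e5 : 0 ≤ M / z * (gN c Z z * ta c z) := by positivity
    rw [sub_add_cancel, norm_mul] at e
    simp only [div_eq_mul_inv] at *
    linarith
  refine ⟨b0, ?_, ?_, bz, ?_, ?_⟩
  · rw [k1, one_mul]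
    exact b0.trans (mul_le_mul_of_nonneg_left (Real.le_sqrt_of_sq_le (by
      rw [sq, mul_div_assoc]; exact mul_le_mul_of_nonneg_left ws w0.le)) (by positivity))
  · rw [← sq_abs, k1, one_pow, one_mul]
    exact b0.trans (mul_le_mul_of_nonneg_left ws (by positivity))
  · rw [k1, one_mul]
    refine bz.trans (mul_le_mul_of_nonneg_left ?_ (by positivity))
    refine mul_le_mul_of_nonneg_left (Real.le_sqrt_of_sq_le ?_) (g0.trans_le gt).le
    have := p.i2
    rw [norm_inv, ← div_eq_mul_inv, div_le_iff₀ (norm_pos_iff.2 p.ne)] at this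
    rw [inv_pow, inv_le_iff_one_le_mul₀ (by positivity)]
    linarith
  · have e := norm_add_le (LC c k u u₁ u₂ z) (z / 2 * (u₁ z - aa c z * u z))
    rw [← lc hk z0, norm_mul, norm_div, Complex.norm_real, Real.norm_of_nonneg z0.le,
      Complex.norm_ofNat] at e
    have e1 := mul_le_mul_of_nonneg_left b (show 0 ≤ z / 2 by positivity)
    rw [show z / 2 * ((M + 128 * M / 128) * (8 * (gN c Z z / z))) = 8 * (M * gN c Z z) by
      field_simp; ring] at e1
    linarith [hg z hz, mul_le_mul_of_nonneg_left gt M0, mul_nonneg M0 g0.le]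

end Vale.Agent.P218M
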