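import Vale.Agent.P218M.G2
import Vale.Agent.P218M.One

/-!
# P218, block MODE: the backward problems for admissible weights (helper80)
-/

set_option linter.all false

open Set Filter Topology

namespace Vale.Agent.P218M

noncomputable section

variable {c : ℂ} {R Z z M : ℝ} {w G μ : ℝ → ℝ} {u u₁ u₂ a a' : ℝ → ℂ} {k : ℤ}

namespace End

theorem pstep (h : End c R Z) (sG : Slow (Icc R Z) (fun z => z) (3 / 10) G)
    (da : ∀ z ∈ Icc R Z, HasDerivAt a (a' z) z) (ar : ∀ z ∈ Icc R Z, (a z).re ≤ 2 / z)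
    (J : J2 (Icc R Z) u u₁ u₂) (hg : ∀ z ∈ Icc R Z,
      ‖u₂ z - z / 2 * (u₁ z - a z * u z)‖ + ‖a' z + a z ^ 2‖ * ‖u z‖ ≤ M * G z)
    (hZ : ‖u₁ Z - a Z * u Z‖ ≤ 8 * M * (G Z / Z)) :
    ∀ z ∈ Icc R Z, ‖u₁ z - a z * u z‖ ≤ 8 * M * (G z / z) := by
  have D := J.d
  rw [interior_Icc] at D
  have s := @Ioo_subset_Icc_self ℝ _ R Z
  obtain ⟨P₁, P₂, dP, hP⟩ := (sG.mul (h.sl_id.inv (by norm_num))).mono (e' := 31 / 100)
    (by norm_num)
  refine back_cmpC (b := fun z => a z - z / 2) (H := fun z => G z / 8)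
    (J.c1.sub (ContinuousOn.mul (fun z hz => (da z hz).continuousAt.continuousWithinAt) J.c0))
    dP.cont.1 (fun z hz => (D z hz).2.sub ((da z (s hz)).mul (D z hz).1))
    (fun z hz => (dP z (s hz)).1) (fun z hz => (hP z hz).2.1) (fun z hz => ?_) (fun z hz => ?_) hZ
  · have hz := s hz
    have g0 := sG.pos hz
    have z0 := h.z0 hz
    have a1 := (le_abs_self _).trans (hP z hz).2.2.1
    have e : z * (G z * z⁻¹) = G z := by field_simp
    have b : 2 / z ≤ z / 100 := by rw [div_le_iff₀ z0]; linarith [h.zz hz]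
    rw [Complex.sub_re, show ((z : ℂ) / 2).re = z / 2 by simp, div_eq_mul_inv (G z) z]
    exact ⟨by positivity, by nlinarith only [a1, e, g0,
      mul_le_mul_of_nonneg_right ((ar z hz).trans b) (hP z hz).2.1.le]⟩
  · have e := norm_sub_le (u₂ z - z / 2 * (u₁ z - a z * u z)) ((a' z + a z ^ 2) * u z)
    rw [norm_mul] at e
    refine (le_of_eq_of_le (congrArg _ ?_) e).trans (by linarith [hg z (s hz)])
    ring

theorem back_gen (h : End c R Z) (sw : Slow (Icc R Z) (fun z => z) (1 / 100) w)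
    (sG : Slow (Icc R Z) (fun z => z) (3 / 10) fun z => w z * (μ z + z ^ 2 * ly Z z))
    (μ0 : ∀ z ∈ Icc R Z, 0 < μ z) (da : ∀ z ∈ Icc R Z, HasDerivAt a (a' z) z)
    (ar : ∀ z ∈ Icc R Z, (a z).re ≤ 2 / z) (an : ‖a Z‖ ≤ Z)
    (a2 : ∀ z ∈ Icc R Z, ‖a' z + a z ^ 2‖ ≤ μ z / 512)
    (hw : ∀ z ∈ Icc R Z, ∃ q, HasDerivAt w q z ∧ z * (q - (a z).re * w z) ≤ -(μ z * w z / 16))
    (J : J2 (Icc R Z) u u₁ u₂) (hg : ∀ z ∈ Icc R Z,
      ‖u₂ z - z / 2 * (u₁ z - a z * u z)‖ ≤ M * (w z * (μ z + z ^ 2 * ly Z z)))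
    (h0 : ‖u Z‖ ≤ M * w Z) (h1 : ‖u₁ Z‖ ≤ M * (Z * w Z)) : ∀ z ∈ Icc R Z,
      ‖u₁ z - a z * u z‖ ≤ 16 * M * (w z * (μ z + z ^ 2 * ly Z z) / z) ∧
        ‖u z‖ ≤ 512 * M * w z := by
  have D := J.d
  rw [interior_Icc] at D
  have s := @Ioo_subset_Icc_self ℝ _ R Z
  have hZ := h.mZ
  have Z0 := h.z0 hZ
  have wZ := sw.pos hZ
  have M0 : 0 ≤ M := nonneg_of_mul_nonneg_left ((norm_nonneg _).trans h0) wZ
  choose! q q1 q2 using hw
  have p : ∀ z ∈ Icc R Z, 0 < w z * (2 - ly Z z) := fun z hz =>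
    mul_pos (sw.pos hz) (by linarith [h.ly_le hz])
  have dQ := fun z (hz : z ∈ Icc R Z) => (q1 z hz).mul ((ly_d2 Z univ z trivial).1.const_sub 2)
  have st : ∀ m, 0 ≤ m → (∀ z ∈ Icc R Z, ‖u z‖ ≤ m * w z) → ∀ z ∈ Icc R Z,
      ‖u₁ z - a z * u z‖ ≤ 8 * (M + m / 512) * (w z * (μ z + z ^ 2 * ly Z z) / z) ∧
        ‖u z‖ ≤ 256 * (M + m / 512) * w z := fun m m0 hm => by
    have b := h.pstep (M := M + m / 512) sG da ar J (fun z hz => by
        have := mul_le_mul (a2 z hz) (hm z hz) (norm_nonneg _) (by linarith [μ0 z hz])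
        nlinarith only [hg z hz, this, mul_nonneg m0 (mul_pos (sw.pos hz)
          (mul_pos (pow_pos (h.z0 hz) 2) (ly_pos Z z))).le])
      (by
        have e1 := norm_sub_le (u₁ Z) (a Z * u Z)
        rw [norm_mul] at e1
        have e2 := mul_le_mul an h0 (norm_nonneg _) Z0.le
        have e3 : Z * w Z ≤ w Z * (μ Z + Z ^ 2 * ly Z Z) / Z := by
          rw [le_div_iff₀ Z0, ly_self]
          nlinarith only [mul_pos wZ (μ0 Z hZ)]
        nlinarith only [e1, e2, h1, mul_le_mul_of_nonneg_left e3 M0,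
          mul_nonneg m0 ((mul_pos Z0 wZ).le.trans e3), mul_nonneg M0 (mul_pos Z0 wZ).le])
    have b' := back_cmpC (M := 128 * (M + m / 512)) (b := fun z => -a z)
      (H := fun z => w z * (μ z + z ^ 2 * ly Z z) / z / 16) J.c0
      (fun z hz => (dQ z hz).continuousAt.continuousWithinAt) (fun z hz => (D z hz).1)
      (fun z hz => dQ z (s hz)) p
      (fun z hz => by
        have hz := s hz
        have z0 := h.z0 hz
        refine ⟨div_pos (div_pos (sG.pos hz) z0) (by norm_num), le_of_mul_le_mul_left ?_ z0⟩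
        have e : z * -(w z * (μ z + z ^ 2 * ly Z z) / z / 16) =
          -(w z * (μ z + z ^ 2 * ly Z z) / 16) := by field_simp
        rw [e, Complex.neg_re]
        simp only [Pi.mul_apply]
        nlinarith only [mul_le_mul_of_nonneg_right (q2 z hz)
          (by linarith [h.ly_le hz] : 0 ≤ 2 - ly Z z), mul_nonneg (sub_nonneg.2 (h.ly_le hz))
          (mul_pos (μ0 z hz) (sw.pos hz)).le, mul_pos (sw.pos hz)
          (mul_pos (pow_pos z0 2) (ly_pos Z z))])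
      (fun z hz => by
        rw [neg_mul, ← sub_eq_add_neg]
        exact (b z (s hz)).trans (le_of_eq (by ring)))
      (by
        simp only [Pi.mul_apply, ly_self]
        nlinarith only [h0, mul_nonneg M0 wZ.le, mul_nonneg m0 wZ.le])
    refine fun z hz => ⟨b z hz, (b' z hz).trans ?_⟩
    have := mul_nonneg (show 0 ≤ M + m / 512 by positivity) (mul_pos (sw.pos hz) (ly_pos Z z)).le
    simp only [Pi.mul_apply]
    linarith
  have b : ∀ z ∈ Icc R Z, ‖u z‖ ≤ 512 * M * w z := fun x hx => not_lt.1 fun hc => by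
    obtain ⟨y, hy, m, m1, m2, m3⟩ := ex_max J.c0 sw.cont (fun z hz => sw.pos hz) hx hc
    have := (st m (by linarith) m3 y hy).2
    rw [m2] at this
    linarith [le_of_mul_le_mul_right this (sw.pos hy)]
  exact fun z hz => ⟨(st _ (by positivity) b z hz).1.trans (le_of_eq (by ring)), b z hz⟩

theorem i7 (h : End c R Z) (hz : z ∈ Icc R Z) : ‖1 - (rh c z)⁻¹‖ ≤ 7 * ‖rh c z‖⁻¹ := by
  have := norm_sub_le 1 (rh c z)⁻¹
  rw [norm_one, norm_inv] at this
  linarith [inv_anti₀ (h.n0 hz) (h.h z hz).2.1]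

theorem aa_le (h : End c R Z) (hz : z ∈ Icc R Z) :
    ‖One.aa c z‖ ≤ 14 * (sg c z * ta c z / z) := by
  have z0 := h.z0 hz
  rw [One.aa, norm_mul, norm_div, Complex.norm_real, Real.norm_of_nonneg z0.le, Complex.norm_ofNat,
    eq_inv_of_mul_eq_one_left (h.sg_ta hz)]
  exact (mul_le_mul_of_nonneg_left (h.i7 hz) (by positivity)).trans (le_of_eq (by ring))

/-- the modes `± 1` with boundary data -/
theorem modeW1 (h : End c R Z) (p : PkN c R Z w) (hk : |k| = 1) (J : J2 (Icc R Z) u u₁ u₂)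
    (hg : ∀ z ∈ Icc R Z, ‖LC c k u u₁ u₂ z‖ ≤ M * gW w c Z z) (h0 : ‖u Z‖ ≤ M * w Z)
    (h1 : ‖u₁ Z‖ ≤ M * (Z * w Z)) : ∀ z ∈ Icc R Z, BW w c Z k u u₁ u₂ (200000 * M) z := by
  have sG := h.sl_gW p.sl
  have ar : ∀ z, (One.aa c z).re = 2 / z * (1 - sg c z) := fun z => by
    rw [One.aa, show (2 / z : ℂ) = (2 / z : ℝ) by push_cast; rfl, Complex.re_ofReal_mul]; rfl
  have lc : ∀ z ∈ Icc R Z, u₂ z - z / 2 * (u₁ z - One.aa c z * u z) = LC c k u u₁ u₂ z :=
    fun z hz => sub_eq_of_eq_add (One.lc hk (h.z0 hz))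
  obtain ⟨w₁, w₂, dw, hw⟩ := p.ex
  have key := h.back_gen (a := One.aa c)
    (a' := fun z => -2 / z ^ 2 * (1 - (rh c z)⁻¹) + 4 * c * (rh c z)⁻¹ ^ 2) p.sl
    (sG.mono (by norm_num)) (fun z hz => h.r0 hz)
    (fun z hz => by
      have z0 : (z : ℂ) ≠ 0 := by exact_mod_cast (h.z0 hz).ne'
      refine (((hasDerivAt_const z (2 : ℂ)).div (hasDerivAt_id z).ofReal_comp z0).mul
        (((rh_d2 c univ z trivial).1.inv (norm_pos_iff.1 (h.n0 hz))).const_sub 1)).congr_deriv ?_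
      simp
      field_simp
      ring)
    (fun z hz => by
      rw [ar]
      exact mul_le_of_le_one_right (div_pos two_pos (h.z0 hz)).le (by linarith [h.r0 hz]))
    (by
      have hZ := h.mZ
      have Z0 := h.z0 hZ
      refine (h.aa_le hZ).trans ?_
      rw [eq_inv_of_mul_eq_one_left (h.sg_ta hZ), ← mul_div_assoc, div_le_iff₀ Z0,
        ← div_eq_mul_inv, div_le_iff₀ (h.n0 hZ)]
      nlinarith only [(h.h Z hZ).2.2, mul_le_mul_of_nonneg_left (Complex.re_le_norm (rh c Z))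
        (sq_nonneg Z)])
    (fun z hz => by
      have z0 := h.z0 hz
      have n0 := h.n0 hz
      have a := h.i7 hz
      have a2 := pow_le_pow_left₀ (norm_nonneg _) a 2
      obtain ⟨b1, b2, b3⟩ := h.h z hz
      refine (norm_add₃_le.trans (le_of_mul_le_mul_right ?_ (pow_pos z0 2)))
      simp only [One.aa, norm_mul, norm_div, norm_neg, norm_pow, Complex.norm_real,
        Real.norm_of_nonneg z0.le, Complex.norm_ofNat, norm_inv]
      have i0 := inv_pos.2 n0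
      have i1 : 6⁻¹ ≤ ‖rh c z‖⁻¹ := inv_anti₀ n0 b2
      have i2 : 10 ^ 6 * ‖rh c z‖⁻¹ ^ 2 ≤ sg c z * z ^ 2 := by
        rw [sg_eq, inv_pow, ← div_eq_mul_inv, div_mul_eq_mul_div]
        gcongr
        linarith
      have e : (2 / z ^ 2 * ‖1 - (rh c z)⁻¹‖ + 4 * ‖c‖ * ‖rh c z‖⁻¹ ^ 2 +
          (2 / z * ‖1 - (rh c z)⁻¹‖) ^ 2) * z ^ 2 = 2 * ‖1 - (rh c z)⁻¹‖ +
          4 * (‖c‖ * z ^ 2 * ‖rh c z‖⁻¹ ^ 2) + 4 * ‖1 - (rh c z)⁻¹‖ ^ 2 := by
        field_simp; ring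
      rw [e]
      nlinarith only [a, a2, i2, mul_le_mul_of_nonneg_right b1 (sq_nonneg ‖rh c z‖⁻¹),
        mul_le_mul_of_nonneg_right i1 i0.le])
    (fun z hz => ⟨_, (dw z hz).1, by
      have e : z * (2 / z) = 2 := mul_div_cancel₀ _ (h.z0 hz).ne'
      rw [ar]
      linear_combination (hw z hz).2 - (1 - sg c z) * w z * e⟩) J
    (fun z hz => by rw [lc z hz]; exact hg z hz) h0 h1
  intro z hz
  obtain ⟨b, a⟩ := key z hz
  have g0 := sG.pos hz
  have w0 := p.sl.pos hz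
  have s0 := h.r0 hz
  have z0 := h.z0 hz
  have t1 := h.ta1 hz
  have M0 : 0 ≤ M := nonneg_of_mul_nonneg_left ((norm_nonneg _).trans (hg z hz)) g0
  have k1 : |(k : ℝ)| = 1 := by exact_mod_cast hk
  have wg : w z * sg c z ≤ gW w c Z z := mul_le_mul_of_nonneg_left
    (le_add_of_nonneg_right (mul_pos (pow_pos z0 2) (ly_pos Z z)).le) w0.le
  have ws : w z ≤ gW w c Z z / sg c z := (le_div_iff₀ s0).2 wg
  have gt : gW w c Z z ≤ gW w c Z z * ta c z := le_mul_of_one_le_right g0.le t1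
  have b0 : ‖u z‖ ≤ 200000 * M * w z := by linarith [mul_nonneg M0 w0.le]
  rw [← gW] at b
  have bz : ‖u₁ z‖ ≤ 200000 * M * (gW w c Z z * ta c z / z) := by
    have e := norm_add_le (u₁ z - One.aa c z * u z) (One.aa c z * u z)
    have e2 := mul_le_mul (h.aa_le hz) a (norm_nonneg _) (by positivity)
    have e3 := mul_le_mul_of_nonneg_left wg (show 0 ≤ M * ta c z / z by positivity)
    have e4 := mul_le_mul_of_nonneg_left gt (show 0 ≤ M / z by positivity)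
    have e5 : 0 ≤ M / z * (gW w c Z z * ta c z) := by positivity
    rw [sub_add_cancel, norm_mul] at e
    simp only [div_eq_mul_inv] at *
    linarith
  refine ⟨b0, ?_, ?_, bz, ?_, ?_⟩
  · rw [k1, one_mul]
    exact b0.trans (mul_le_mul_of_nonneg_left (Real.le_sqrt_of_sq_le (by
      rw [sq, mul_div_assoc]; exact mul_le_mul_of_nonneg_left ws w0.le)) (by positivity))
  · rw [← sq_abs, k1, one_pow, one_mul]
    exact b0.trans (mul_le_mul_of_nonneg_left ws (by positivity))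
  · rw [k1, one_mul]
    refine bz.trans (mul_le_mul_of_nonneg_left ?_ (by positivity))
    refine mul_le_mul_of_nonneg_left (Real.le_sqrt_of_sq_le ?_) (g0.trans_le gt).le
    rw [inv_pow, inv_le_iff_one_le_mul₀ (by positivity)]
    nlinarith only [(h.h z hz).2.2, mul_le_mul_of_nonneg_left (Complex.re_le_norm (rh c z))
      (sq_nonneg z)]
  · have e := norm_add_le (LC c k u u₁ u₂ z) (z / 2 * (u₁ z - One.aa c z * u z))
    rw [← One.lc hk z0, norm_mul, norm_div, Complex.norm_real, Real.norm_of_nonneg z0.le,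
      Complex.norm_ofNat] at e
    have e1 := mul_le_mul_of_nonneg_left b (show 0 ≤ z / 2 by positivity)
    rw [show z / 2 * (16 * M * (gW w c Z z / z)) = 8 * (M * gW w c Z z) by
      field_simp; ring] at e1
    linarith [hg z hz, mul_le_mul_of_nonneg_left gt M0, mul_nonneg M0 g0.le]

theorem two_der (h : End c R Z) (hz : z ∈ Icc R Z) :
    HasDerivAt (fun z : ℝ => ((2 / z : ℝ) : ℂ)) (-2 / z ^ 2 : ℝ) z :=
  (((hasDerivAt_const z 2).div (hasDerivAt_id z) (h.z0 hz).ne').congr_deriv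
    (by simp [neg_div])).ofReal_comp

theorem two_sq (h : End c R Z) (hz : z ∈ Icc R Z) :
    ‖((-2 / z ^ 2 : ℝ) : ℂ) + ((2 / z : ℝ) : ℂ) ^ 2‖ = 2 / z ^ 2 := by
  have z0 := h.z0 hz
  rw [← Complex.ofReal_pow, ← Complex.ofReal_add, Complex.norm_real,
    show -2 / z ^ 2 + (2 / z) ^ 2 = 2 / z ^ 2 by ring, Real.norm_of_nonneg (by positivity)]

theorem lc0 (h : End c R Z) (hz : z ∈ Icc R Z) :
    u₂ z - z / 2 * (u₁ z - ((2 / z : ℝ) : ℂ) * u z) = LC c 0 u u₁ u₂ z := by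
  have z0 : (z : ℂ) ≠ 0 := by exact_mod_cast (h.z0 hz).ne'
  rw [LC]
  push_cast
  field_simp
  ring

theorem der_le (h : End c R Z) (hz : z ∈ Icc R Z) {A B g : ℝ} (hg : ‖LC c 0 u u₁ u₂ z‖ ≤ g)
    (hp : ‖u₁ z - ((2 / z : ℝ) : ℂ) * u z‖ ≤ A / z) (hu : ‖u z‖ ≤ B) :
    ‖u₁ z‖ ≤ (A + 2 * B) / z ∧ ‖u₂ z‖ ≤ g + A / 2 := by
  have z0 := h.z0 hz
  have e := norm_add_le (u₁ z - ((2 / z : ℝ) : ℂ) * u z) (((2 / z : ℝ) : ℂ) * u z)
  rw [sub_add_cancel, norm_mul, Complex.norm_real, Real.norm_of_nonneg (by positivity)] at e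
  have e' := norm_add_le (LC c 0 u u₁ u₂ z) (z / 2 * (u₁ z - ((2 / z : ℝ) : ℂ) * u z))
  rw [← h.lc0 hz, sub_add_cancel, h.lc0 hz, norm_mul, norm_div, Complex.norm_real,
    Real.norm_of_nonneg z0.le, Complex.norm_ofNat] at e'
  have e1 := mul_le_mul_of_nonneg_left hp (show 0 ≤ z / 2 by positivity)
  rw [show z / 2 * (A / z) = A / 2 by field_simp] at e1
  refine ⟨e.trans ?_, by linarith⟩
  rw [add_div, mul_div_right_comm]
  gcongr

/-- mode `0` with boundary data -/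
theorem modeW0 (h : End c R Z) (p : PkO c R Z w) (J : J2 (Icc R Z) u u₁ u₂)
    (hg : ∀ z ∈ Icc R Z, ‖LC c 0 u u₁ u₂ z‖ ≤ M * gz w c Z z) (h0 : ‖u Z‖ ≤ M * w Z)
    (h1 : ‖u₁ Z‖ ≤ M * (Z * w Z)) : ∀ z ∈ Icc R Z, ‖u z‖ ≤ 200000 * M * w z ∧
      ‖u₁ z‖ ≤ 200000 * M * (gz w c Z z / z) ∧ ‖u₂ z‖ ≤ 200000 * M * gz w c Z z := by
  have sG := h.sl_gz p.sl
  have key := h.back_gen (a := fun z => (2 / z : ℝ)) (μ := fun z => ((rh c z).re)⁻¹) p.sl
    (sG.mono (by norm_num)) (fun z hz => inv_pos.2 (h.x0 hz)) (fun z hz => h.two_der hz)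
    (fun z hz => le_of_eq (Complex.ofReal_re _))
    (by
      have Z0 := h.z0 h.mZ
      rw [Complex.norm_real, Real.norm_of_nonneg (by positivity), div_le_iff₀ Z0]
      linarith [h.zz h.mZ])
    (fun z hz => by
      have i : 6⁻¹ ≤ ((rh c z).re)⁻¹ :=
        inv_anti₀ (h.x0 hz) ((Complex.re_le_norm _).trans (h.h z hz).2.1)
      have : 2 / z ^ 2 ≤ 2 / 400 ^ 2 := div_le_div_of_nonneg_left zero_le_two (by norm_num) (h.zz hz)
      rw [h.two_sq hz]
      linarith)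
    (fun z hz =>
      let ⟨q, q1, q2⟩ := p.ex z hz
      ⟨q, q1, by
        have e : z * (2 / z) = 2 := mul_div_cancel₀ _ (h.z0 hz).ne'
        rw [Complex.ofReal_re]
        nlinarith only [q2, congrArg (· * w z) e, mul_pos (inv_pos.2 (h.x0 hz)) (p.sl.pos hz)]⟩)
    J (fun z hz => by rw [h.lc0 hz]; exact hg z hz) h0 h1
  intro z hz
  obtain ⟨b, a⟩ := key z hz
  have g0 := sG.pos hz
  have w0 := p.sl.pos hz
  have z0 := h.z0 hz
  have M0 : 0 ≤ M := nonneg_of_mul_nonneg_left ((norm_nonneg _).trans (hg z hz)) g0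
  have wg : w z ≤ 6 * gz w c Z z := by
    have a : 6⁻¹ ≤ ((rh c z).re)⁻¹ :=
      inv_anti₀ (h.x0 hz) ((Complex.re_le_norm _).trans (h.h z hz).2.1)
    rw [gz]
    nlinarith only [mul_le_mul_of_nonneg_left a w0.le,
      mul_pos w0 (mul_pos (pow_pos z0 2) (ly_pos Z z))]
  rw [← gz, ← mul_div_assoc] at b
  obtain ⟨e1, e2⟩ := h.der_le hz (hg z hz) b a
  have := mul_nonneg M0 g0.le
  refine ⟨by linarith [mul_nonneg M0 w0.le], e1.trans ?_, by linarith⟩
  rw [← mul_div_assoc]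
  gcongr
  linarith [mul_le_mul_of_nonneg_left wg M0]

end End

theorem moden : MODEN := by
  refine ⟨10 ^ 8, 200000, by norm_num, fun κ hκ R Z c hc k k0 u u₁ u₂ M J hg h0 h1 h2 => ?_⟩
  have h := hc.toEnd (by norm_num)
  have p := h.pk_wK hc.tip hκ.1 hκ.2
  have M0 : 0 ≤ M := nonneg_of_mul_nonneg_left ((norm_nonneg _).trans (hg R h.mR))
    ((h.sl_gW p.sl).pos h.mR)
  have w0 := fun z hz => mul_nonneg M0 (p.sl.pos (z := z) hz).le
  rcases le_or_gt 2 |k| with hk | hk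
  · exact h.modeW2 p hk J hg (by simpa [h2 hk] using w0 R h.mR) (by simpa [h0] using w0 Z h.mZ)
  · have hk : |k| = 1 := by have := Int.one_le_abs k0; omega
    exact h.modeW1 p hk J hg (by simpa [h0] using w0 Z h.mZ) (h1 hk)

end

end Vale.Agent.P218M
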