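import Vale.Agent.P218M.Slow
import Vale.Agent.P218M.Spec

/-!
# P218, block MODE: the weights on a cylindrical end vary slowly (helper80)
-/

set_option linter.all false

open Set Filter Topology
open scoped ComplexConjugate

namespace Vale.Agent.P218M

noncomputable section

/-- the standing hypotheses -/
structure End (c : ℂ) (R Z : ℝ) : Prop where
  R0 : 0 < R
  RZ : R + 1 ≤ Z
  h : ∀ z ∈ Icc R Z, ‖c‖ * z ^ 2 ≤ 8 ∧ ‖rh c z‖ ≤ 6 ∧ 10 ^ 6 ≤ z ^ 2 * (rh c z).re

variable {c : ℂ} {R Z z : ℝ}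

theorem Cyl.toEnd {Y : ℝ} (h : Cyl Y R Z c) (hY : 10 ^ 6 ≤ Y) : End c R Z :=
  ⟨h.R0, h.RZ, fun z hz => ⟨le_trans (by gcongr; exacts [h.R0.le.trans hz.1, hz.2]) h.cZ, by
    nlinarith only [h.dsc z hz, Complex.re_le_norm (rh c z)], hY.trans (h.tip z hz)⟩⟩

theorem rh_d2 (c : ℂ) (s : Set ℝ) : D2 s (rh c) (fun z => 2 * c * z) (fun _ => 2 * c) := by
  intro z _
  have h := Complex.ofRealCLM.hasDerivAt (x := z)
  exact ⟨((((h.pow 2).sub_const 2).const_mul c).const_add 2).congr_deriv (by simp; ring),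
    (h.const_mul (2 * c)).congr_deriv (by simp)⟩

theorem rh_cj (c : ℂ) (z : ℝ) : rh (conj c) z = conj (rh c z) := by
  simp [rh, map_ofNat]

theorem nn_eq (c : ℂ) (z : ℝ) : (rh c z * rh (conj c) z).re = ‖rh c z‖ ^ 2 := by
  rw [rh_cj, Complex.mul_conj', ← Complex.ofReal_pow, Complex.ofReal_re]

theorem sg_eq (c : ℂ) (z : ℝ) : sg c z = (rh c z).re / ‖rh c z‖ ^ 2 := by
  rw [sg, Complex.inv_re, Complex.normSq_eq_norm_sq]

theorem nn_d2 (c : ℂ) (s : Set ℝ) : D2 s (fun z => ‖rh c z‖ ^ 2)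
    (fun z => (2 * c * z * rh (conj c) z + rh c z * (2 * conj c * z)).re)
    (fun z => (2 * c * rh (conj c) z + 2 * (2 * c * z * (2 * conj c * z)) +
      rh c z * (2 * conj c)).re) := by
  simpa only [nn_eq] using ((rh_d2 c s).mul (rh_d2 (conj c) s)).re

namespace End

theorem z0 (h : End c R Z) (hz : z ∈ Icc R Z) : 0 < z := h.R0.trans_le hz.1

theorem x0 (h : End c R Z) (hz : z ∈ Icc R Z) : 0 < (rh c z).re := by
  by_contra hb
  nlinarith only [(h.h z hz).2.2, sq_nonneg z, not_lt.1 hb]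

theorem n0 (h : End c R Z) (hz : z ∈ Icc R Z) : 0 < ‖rh c z‖ :=
  (h.x0 hz).trans_le (Complex.re_le_norm _)

theorem zz (h : End c R Z) (hz : z ∈ Icc R Z) : 400 ^ 2 ≤ z ^ 2 := by
  obtain ⟨-, a, b⟩ := h.h z hz
  nlinarith only [a, b, Complex.re_le_norm (rh c z), sq_nonneg z]

theorem z4 (h : End c R Z) (hz : z ∈ Icc R Z) : 400 ≤ z :=
  (abs_le_of_sq_le_sq' (h.zz hz) (h.z0 hz).le).2

theorem r0 (h : End c R Z) (hz : z ∈ Icc R Z) : 0 < sg c z := by
  rw [sg_eq]; exact div_pos (h.x0 hz) (pow_pos (h.n0 hz) 2)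

theorem rn (h : End c R Z) (hz : z ∈ Icc R Z) : sg c z * ‖rh c z‖ ^ 2 = (rh c z).re := by
  rw [sg_eq, div_mul_cancel₀ _ (pow_pos (h.n0 hz) 2).ne']

/-- `1 / (z |ρ|) ≤ √r / 1000` -/
theorem sq1 (h : End c R Z) (hz : z ∈ Icc R Z) : 1000 ≤ √(sg c z) * (z * ‖rh c z‖) := by
  have r0 := h.r0 hz
  have z0 := h.z0 hz
  have n0 := h.n0 hz
  refine (abs_le_of_sq_le_sq' ?_ (by positivity)).2
  rw [mul_pow, Real.sq_sqrt r0.le, mul_pow, mul_left_comm, h.rn hz]
  linarith [(h.h z hz).2.2]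

theorem sq2 (h : End c R Z) (hz : z ∈ Icc R Z) : √(sg c z) ≤ 1 / 1000 * z := by
  have r0 := h.r0 hz
  have z0 := h.z0 hz
  have n0 := h.n0 hz
  have x0 := h.x0 hz
  refine Real.sqrt_le_iff.2 ⟨by positivity, ?_⟩
  have a := h.rn hz
  have b := (h.h z hz).2.2
  have e := Complex.re_le_norm (rh c z)
  have f : sg c z * (rh c z).re ≤ 1 := by
    refine le_of_mul_le_mul_right ?_ x0
    nlinarith only [a, mul_le_mul e e x0.le n0.le, r0]
  nlinarith only [f, mul_le_mul_of_nonneg_left b r0.le, sq_nonneg z]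

theorem slow_id (h : End c R Z) : Slow (Icc R Z) (fun z => √(sg c z)) (6 / 1000) fun z => z :=
  ⟨fun _ => 1, fun _ => 0, fun z _ => ⟨hasDerivAt_id z, hasDerivAt_const _ _⟩, fun z hz => by
    have z0 := h.z0 hz
    refine ⟨Real.sqrt_nonneg _, z0, ?_, by rw [abs_zero]; positivity⟩
    have := mul_le_mul_of_nonneg_left (h.h z hz).2.1 (mul_nonneg (Real.sqrt_nonneg (sg c z)) z0.le)
    rw [abs_one]
    linarith [h.sq1 hz]⟩

theorem slow_nn (h : End c R Z) :
    Slow (Icc R Z) (fun z => √(sg c z)) (32 / 1000) fun z => ‖rh c z‖ ^ 2 :=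
  ⟨_, _, nn_d2 c _, fun z hz => by
    have z0 := h.z0 hz
    have n0 := h.n0 hz
    obtain ⟨a, b, d⟩ := h.h z hz
    refine ⟨Real.sqrt_nonneg _, by positivity, (Complex.abs_re_le_norm _).trans
      ((norm_add_le _ _).trans ?_), (Complex.abs_re_le_norm _).trans ((norm_add₃_le).trans ?_)⟩
    · simp only [rh_cj, norm_mul, Complex.norm_conj, Complex.norm_real, Real.norm_of_nonneg z0.le,
        Complex.norm_ofNat]
      refine le_of_mul_le_mul_right ?_ z0
      nlinarith only [mul_le_mul_of_nonneg_right a n0.le,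
        mul_le_mul_of_nonneg_right (h.sq1 hz) n0.le, n0]
    · simp only [rh_cj, norm_mul, Complex.norm_conj, Complex.norm_real, Real.norm_of_nonneg z0.le,
        Complex.norm_ofNat]
      rw [Real.sq_sqrt (h.r0 hz).le, mul_assoc (32 / 1000), h.rn hz]
      refine le_of_mul_le_mul_right ?_ (pow_pos z0 2)
      have c0 : 0 ≤ ‖c‖ * z ^ 2 := by positivity
      nlinarith only [mul_le_mul a b n0.le (by norm_num), mul_le_mul a a c0 (by norm_num), d]⟩

theorem up {e : ℝ} {F : ℝ → ℝ} (h : End c R Z) (k : Slow (Icc R Z) (fun z => √(sg c z)) e F)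
    (e0 : 0 ≤ e) (e1 : e ≤ 1) : Slow (Icc R Z) (fun z => z) (1 / 1000) F :=
  (k.scale e0 (by norm_num) (by norm_num) fun z hz => ⟨h.sq2 hz, (h.z0 hz).le⟩).mono (by linarith)

theorem sl_id (h : End c R Z) : Slow (Icc R Z) (fun z => z) (1 / 1000) fun z => z :=
  h.up h.slow_id (by norm_num) (by norm_num)

theorem sl_nn (h : End c R Z) : Slow (Icc R Z) (fun z => z) (1 / 1000) fun z => ‖rh c z‖ ^ 2 :=
  h.up h.slow_nn (by norm_num) (by norm_num)

theorem sl_re (h : End c R Z) : Slow (Icc R Z) (fun z => z) (1 / 1000) fun z => (rh c z).re :=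
  ⟨_, _, (rh_d2 c _).re, fun z hz => by
    have z0 := h.z0 hz
    obtain ⟨a, b, d⟩ := h.h z hz
    have zz := h.zz hz
    refine ⟨z0.le, h.x0 hz, (Complex.abs_re_le_norm _).trans ?_,
      (Complex.abs_re_le_norm _).trans ?_⟩
    · simp only [norm_mul, Complex.norm_real, Real.norm_of_nonneg z0.le, Complex.norm_ofNat]
      refine le_of_mul_le_mul_right ?_ z0
      nlinarith only [a, d]
    · simp only [norm_mul, Complex.norm_ofNat]
      nlinarith only [a, d, zz, norm_nonneg c]⟩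

theorem wN_eq (c : ℂ) :
    wN c = fun z => z ^ (-3 / 2 : ℝ) * (‖rh c z‖ ^ 2) ^ (7 / 8 : ℝ) := by
  funext z
  rw [wN, ← Real.rpow_natCast, ← Real.rpow_mul (norm_nonneg _)]
  norm_num

theorem slow_wN (h : End c R Z) : Slow (Icc R Z) (fun z => √(sg c z)) (1 / 10) (wN c) := by
  rw [wN_eq]
  exact ((h.slow_id.rpow (by norm_num) (by norm_num [abs_le])).mul
    (h.slow_nn.rpow (by norm_num) (by norm_num [abs_le]))).mono (by norm_num)

theorem sl_wN (h : End c R Z) : Slow (Icc R Z) (fun z => z) (1 / 1000) (wN c) :=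
  h.up h.slow_wN (by norm_num) (by norm_num)

theorem sl_sg (h : End c R Z) : Slow (Icc R Z) (fun z => z) (1 / 300) (sg c) := by
  have := (h.sl_re.mul (h.sl_nn.inv (by norm_num))).mono (e' := 1 / 300) (by norm_num)
  simpa only [← div_eq_mul_inv, ← sg_eq] using this

theorem sl_n (h : End c R Z) : Slow (Icc R Z) (fun z => z) (1 / 300) fun z => ‖rh c z‖ := by
  have := (h.sl_nn.rpow (by norm_num) (a := 1 / 2) (by norm_num [abs_le])).mono (e' := 1 / 300)
    (by norm_num)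
  simpa only [← Real.sqrt_eq_rpow, Real.sqrt_sq (norm_nonneg _)] using this

theorem sl_sq (h : End c R Z) : Slow (Icc R Z) (fun z => z) (1 / 300) fun z => z ^ 2 := by
  simpa only [← sq] using (h.sl_id.mul h.sl_id).mono (e' := 1 / 300) (by norm_num)

end End

theorem ly_d2 (Z : ℝ) (s : Set ℝ) : D2 s (ly Z) (fun z => z / 4 * ly Z z)
    (fun z => (1 / 4 + z ^ 2 / 16) * ly Z z) := by
  have d : ∀ z, HasDerivAt (ly Z) (z / 4 * ly Z z) z := fun z =>
    ((((hasDerivAt_pow 2 z).sub_const (Z ^ 2)).div_const 8).exp).congr_deriv (by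
      simp [ly]; ring)
  exact fun z _ => ⟨d z, (((hasDerivAt_id z).div_const 4).mul (d z)).congr_deriv (by simp; ring)⟩

theorem ly_pos (Z z : ℝ) : 0 < ly Z z := Real.exp_pos _

theorem ly_self (Z : ℝ) : ly Z Z = 1 := by simp [ly]

theorem End.ly_le (h : End c R Z) (hz : z ∈ Icc R Z) : ly Z z ≤ 1 :=
  Real.exp_le_one_iff.2 (by nlinarith only [h.z0 hz, hz.2])

theorem End.sl_ly (h : End c R Z) : Slow (Icc R Z) (fun z => z) (1 / 4) (ly Z) :=
  ⟨_, _, ly_d2 Z _, fun z hz => by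
    have z0 := h.z0 hz
    have l0 := ly_pos Z z
    refine ⟨z0.le, l0, by rw [abs_of_pos (by positivity)]; linarith, ?_⟩
    rw [abs_of_pos (by positivity)]
    gcongr
    linarith [h.zz hz]⟩

/-- the exact first derivative of the bulk weight -/
theorem End.wN_der (h : End c R Z) (hz : z ∈ Icc R Z) : ∃ a, HasDerivAt (wN c) a z ∧
    -(z / 2) * a ≤ (-1 + (7 / 2 + 1 / 1000) * sg c z) * wN c z := by
  have z0 := h.z0 hz
  have n0 := h.n0 hz
  have w0 := h.sl_wN.pos hz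
  have d := ((hasDerivAt_id z).rpow_const (p := -3 / 2) (Or.inl z0.ne')).mul
    ((nn_d2 c univ z trivial).1.rpow_const (p := 7 / 8) (Or.inl (pow_pos n0 2).ne'))
  have e : z * (2 * c * z * rh (conj c) z + rh c z * (2 * conj c * z)).re =
      4 * (‖rh c z‖ ^ 2 - 2 * (rh c z).re + 2 * (c * conj (rh c z)).re) := by
    have e1 : 2 * c * z * z = 2 * (rh c z - 2 + 2 * c) := by rw [rh]; ring
    have e2 : (rh c z * (2 * conj c * z)).re = (2 * c * z * rh (conj c) z).re := by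
      rw [← Complex.conj_re (rh c z * _), rh_cj]
      simp only [map_mul, map_ofNat, Complex.conj_conj, Complex.conj_ofReal]
      rw [mul_comm]
    rw [Complex.add_re, e2, ← two_mul, mul_left_comm, ← Complex.re_ofReal_mul, ← mul_assoc,
      mul_comm (z : ℂ), e1, ← nn_eq, rh_cj]
    simp
    ring
  refine ⟨(-3 / 2 / z + 7 / 8 * ((2 * c * z * rh (conj c) z + rh c z * (2 * conj c * z)).re /
    ‖rh c z‖ ^ 2)) * wN c z, ?_, ?_⟩
  · rw [wN_eq]
    refine d.congr_deriv ?_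
    simp only [id]
    rw [Real.rpow_sub_one z0.ne', Real.rpow_sub_one (pow_pos n0 2).ne']
    ring
  rw [← mul_assoc]
  refine mul_le_mul_of_nonneg_right (le_of_mul_le_mul_right ?_ (pow_pos n0 2)) w0.le
  have e3 : -(z / 2) * (-3 / 2 / z + 7 / 8 * ((2 * c * z * rh (conj c) z +
      rh c z * (2 * conj c * z)).re / ‖rh c z‖ ^ 2)) * ‖rh c z‖ ^ 2 = 3 / 4 * ‖rh c z‖ ^ 2 -
      7 / 16 * (z * (2 * c * z * rh (conj c) z + rh c z * (2 * conj c * z)).re) := by
    field_simp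
    ring
  rw [e3, e, add_mul, mul_assoc _ (sg c z), h.rn hz]
  obtain ⟨a, b, k⟩ := h.h z hz
  have f := (abs_le.1 (Complex.abs_re_le_norm (c * conj (rh c z)))).1
  rw [norm_mul, Complex.norm_conj] at f
  have g : ‖c‖ * ‖rh c z‖ ≤ (rh c z).re / 10000 := by
    refine le_of_mul_le_mul_right ?_ (pow_pos z0 2)
    nlinarith only [mul_le_mul a b n0.le (by norm_num), k]
  linarith [h.x0 hz]

end

end Vale.Agent.P218M
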