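import Vale.Agent.P218M.Log

/-!
# P218, block MODE: the modes `|k| ≥ 2` on a cylindrical end (helper80)
-/

set_option linter.all false

open Set Filter Topology

namespace Vale.Agent.P218M

noncomputable section

variable {c : ℂ} {R Z z κ : ℝ}

/-- the barrier for the modes `|k| ≥ 2` -/
def bN (κ : ℝ) (c : ℂ) (Z z : ℝ) : ℝ :=
  16 / κ * wN c z + 32 * (wN c z * z ^ 2 * (z ^ 2 + κ * sg c z)⁻¹ * ly Z z)

theorem q_re (κ : ℝ) (c : ℂ) (z : ℝ) : (1 - κ / rh c z).re = 1 - κ * sg c z := by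
  rw [Complex.sub_re, div_eq_mul_inv, Complex.re_ofReal_mul, Complex.one_re, sg]

namespace End

theorem bar (h : End c R Z) (hκ : 4 ≤ κ) : ∃ B₁ B₂, Bar R Z (fun z => -(z / 2))
    (fun z => 1 - κ / rh c z) (bN κ c Z) B₁ B₂ (gN c Z) := by
  have κ0 : 0 < κ := by linarith
  obtain ⟨w₁, w₂, dw, hw⟩ := h.slow_wN
  obtain ⟨F₁, F₂, dF, hF⟩ := ((h.sl_wN.mul h.sl_sq).mul
    ((h.sl_sq.add (h.sl_sg.cmul κ0)).inv (by norm_num))).mono (e' := 1 / 50) (by norm_num)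
  have d := (dw.cmul (16 / κ)).add ((dF.mul (ly_d2 Z _)).cmul 32)
  refine ⟨_, _, d.cont.1, d.mono Ioo_subset_Icc_self, fun z hz => ?_, fun z hz => ?_⟩
  · have := (hw z hz).2.1
    have := (hF z hz).2.1
    have := ly_pos Z z
    unfold bN
    positivity
  have hz := Ioo_subset_Icc_self hz
  obtain ⟨-, w0, -, a2⟩ := hw z hz
  obtain ⟨-, F0, -, b2⟩ := hF z hz
  obtain ⟨a, da, a1⟩ := h.wN_der hz
  rw [da.unique (dw z hz).1] at a1
  have l0 := ly_pos Z z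
  have r0 := h.r0 hz
  have z0 := h.z0 hz
  have zz := h.zz hz
  rw [Real.sq_sqrt r0.le] at a2
  refine ⟨by unfold gN; positivity, ?_⟩
  rw [q_re, bN, gN]
  set F := wN c z * z ^ 2 * (z ^ 2 + κ * sg c z)⁻¹ with eF
  have e1 : F * (z ^ 2 + κ * sg c z) = wN c z * z ^ 2 := inv_mul_cancel_right₀ (by positivity) _
  have k1 : w₂ z + -(z / 2) * w₁ z + (1 - κ * sg c z) * wN c z ≤ -(κ / 16 * (sg c z * wN c z)) := by
    nlinarith only [le_abs_self (w₂ z), a2, a1, mul_nonneg (sub_nonneg.2 hκ) (mul_pos r0 w0).le,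
      mul_pos r0 w0]
  have k2 := mul_le_mul_of_nonneg_left k1 (div_pos (by norm_num : (0 : ℝ) < 16) κ0).le
  have e2 : 16 / κ * -(κ / 16 * (sg c z * wN c z)) = -(sg c z * wN c z) := by field_simp
  have k3 : F₂ z + F * (5 / 4 - z ^ 2 / 16 - κ * sg c z) ≤ -(wN c z * z ^ 2 / 32) := by
    nlinarith only [le_abs_self (F₂ z), b2, e1, mul_nonneg (sub_nonneg.2 zz) F0.le,
      mul_pos F0 (mul_pos κ0 r0), F0]
  have k4 := mul_le_mul_of_nonneg_left k3 l0.le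
  linarith

theorem bN_le (h : End c R Z) (hκ : 4 ≤ κ) (hz : z ∈ Icc R Z) :
    bN κ c Z z ≤ 36 * wN c z ∧ κ * sg c z * bN κ c Z z ≤ 32 * gN c Z z := by
  have κ0 : 0 < κ := by linarith
  have w0 := h.sl_wN.pos hz
  have l0 := ly_pos Z z
  have r0 := h.r0 hz
  have z0 := h.z0 hz
  rw [bN, gN]
  set F := wN c z * z ^ 2 * (z ^ 2 + κ * sg c z)⁻¹ with eF
  have F0 : 0 < F := by positivity
  have e1 : F * (z ^ 2 + κ * sg c z) = wN c z * z ^ 2 := inv_mul_cancel_right₀ (by positivity) _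
  have a : F ≤ wN c z := le_of_mul_le_mul_right
    (by nlinarith only [e1, mul_pos F0 (mul_pos κ0 r0)]) (pow_pos z0 2)
  have b : 16 / κ ≤ 4 := by rw [div_le_iff₀ κ0]; linarith
  have e2 : κ * sg c z * (16 / κ * wN c z) = 16 * (sg c z * wN c z) := by field_simp
  constructor
  · nlinarith only [a, b, w0, mul_le_mul a (h.ly_le hz) l0.le w0.le]
  · have : κ * sg c z * F ≤ wN c z * z ^ 2 := by nlinarith only [e1, mul_pos F0 (pow_pos z0 2)]
    nlinarith only [e2, mul_le_mul_of_nonneg_right this l0.le, mul_pos r0 w0]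

theorem sl_gN (h : End c R Z) : Slow (Icc R Z) (fun z => z) (27 / 100) (gN c Z) :=
  (h.sl_wN.mul ((h.sl_sg.mono (e' := 26 / 100) (by norm_num)).add
    ((h.sl_sq.mul h.sl_ly).mono (by norm_num)))).mono (by norm_num)

theorem sl_ta (h : End c R Z) : Slow (Icc R Z) (fun z => z) (1 / 100) (ta c) :=
  (h.sl_n.mul (h.sl_re.inv (by norm_num))).mono (by norm_num)

theorem sl_E (h : End c R Z) :
    Slow (Icc R Z) (fun z => z) (3 / 10) fun z => gN c Z z * ta c z :=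
  (h.sl_gN.mul h.sl_ta).mono (by norm_num)

theorem sl_P (h : End c R Z) :
    Slow (Icc R Z) (fun z => z) (3 / 8) fun z => gN c Z z * ta c z / z :=
  (h.sl_E.mul (h.sl_id.inv (by norm_num))).mono (by norm_num)

theorem ta1 (h : End c R Z) (hz : z ∈ Icc R Z) : 1 ≤ ta c z :=
  (one_le_div (h.x0 hz)).2 (Complex.re_le_norm _)

theorem sg_ta (h : End c R Z) (hz : z ∈ Icc R Z) : sg c z * ta c z * ‖rh c z‖ = 1 := by
  have := (h.x0 hz).ne'
  have := (h.n0 hz).ne'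
  rw [sg_eq, ta]
  field_simp

variable {u u₁ u₂ : ℝ → ℂ} {A : ℝ}

/-- first derivative from the drift -/
theorem d1_le (h : End c R Z) (cu₁ : ContinuousOn u₁ (Icc R Z)) (du : D2 (Ioo R Z) u u₁ u₂)
    (hh : ∀ z ∈ Ioo R Z, ‖u₂ z + (-(z / 2) : ℝ) * u₁ z‖ ≤ A * (gN c Z z * ta c z / 8))
    (hZ : ‖u₁ Z‖ ≤ A * (gN c Z Z * ta c Z / Z)) :
    ∀ z ∈ Icc R Z, ‖u₁ z‖ ≤ A * (gN c Z z * ta c z / z) := by
  obtain ⟨P₁, P₂, dP, hP⟩ := h.sl_P
  refine back_cmp cu₁ dP.cont.1 (fun z hz => (du z hz).2)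
    (fun z hz => (dP z (Ioo_subset_Icc_self hz)).1) (fun z hz => (hP z hz).2.1)
    (fun z hz => ?_) hh hZ
  have hz := Ioo_subset_Icc_self hz
  have := h.sl_E.pos hz
  have a := (le_abs_self _).trans (hP z hz).2.2.1
  have e : z * (gN c Z z * ta c z / z) = gN c Z z * ta c z := mul_div_cancel₀ _ (h.z0 hz).ne'
  exact ⟨by positivity, by linarith⟩

/-- the slope at the cut -/
theorem dZ_le (h : End c R Z) (cu : ContinuousOn u (Icc R Z)) (cu₁ : ContinuousOn u₁ (Icc R Z))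
    (du : D2 (Ioo R Z) u u₁ u₂) (A0 : 0 ≤ A) (h0 : ∀ z ∈ Icc R Z, ‖u z‖ ≤ A * wN c z)
    (hh : ∀ z ∈ Ioo R Z, ‖u₂ z + (-(z / 2) : ℝ) * u₁ z‖ ≤ A * (gN c Z z * ta c z)) :
    ‖u₁ Z‖ ≤ 18 * A * (gN c Z Z * ta c Z / Z) := by
  have hZ : Z ∈ Icc R Z := ⟨by linarith [h.RZ], le_rfl⟩
  have Z0 := h.z0 hZ
  have l1 : Z⁻¹ ≤ 1 := inv_le_one_of_one_le₀ (by linarith [h.z4 hZ])
  have l0 := inv_pos.2 Z0
  have e : Z - Z⁻¹ + Z⁻¹ = Z := sub_add_cancel _ _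
  have s1 : R ≤ Z - Z⁻¹ := by linarith [h.RZ]
  have s2 : Icc (Z - Z⁻¹) (Z - Z⁻¹ + Z⁻¹) ⊆ Icc R Z := Icc_subset_Icc s1 e.le
  have s3 : Ioo (Z - Z⁻¹) (Z - Z⁻¹ + Z⁻¹) ⊆ Ioo R Z := Ioo_subset_Ioo s1 e.le
  have l2 : (Z - Z⁻¹ + Z⁻¹) * (Z - Z⁻¹ + Z⁻¹ - (Z - Z⁻¹)) ≤ 2 := by
    rw [add_sub_cancel_left, e, mul_inv_cancel₀ Z0.ne']; norm_num
  have m : Z ∈ Icc (Z - Z⁻¹) (Z - Z⁻¹ + Z⁻¹) := ⟨by linarith, e.ge⟩
  have := grad_le (b := fun z => -(z / 2)) (U := A * (3 * wN c Z))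
    (H := A * (3 * (gN c Z Z * ta c Z))) l0 (cu.mono s2) (cu₁.mono s2) (du.mono s3)
    (fun z hz => by
      rw [abs_neg, abs_of_pos (half_pos (h.R0.trans (s3 hz).1)), ← div_eq_mul_inv,
        div_le_iff₀ Z0]
      linarith [(s3 hz).2])
    (fun z hz => (h0 z (s2 hz)).trans (mul_le_mul_of_nonneg_left
      (h.sl_wN.cmp (by norm_num) s1 e.le l2 z hz Z m) A0))
    (fun z hz => (hh z (s3 hz)).trans (mul_le_mul_of_nonneg_left
      (h.sl_E.cmp (by norm_num) s1 e.le l2 z (Ioo_subset_Icc_self hz) Z m) A0)) Z m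
  refine this.trans ?_
  have w0 := h.sl_wN.pos hZ
  have a : wN c Z * Z ^ 2 ≤ gN c Z Z * ta c Z := by
    refine le_trans ?_ (le_mul_of_one_le_right (h.sl_gN.pos hZ).le (h.ta1 hZ))
    rw [gN, ly_self, mul_one]
    nlinarith only [mul_pos w0 (h.r0 hZ)]
  have b := mul_le_mul_of_nonneg_left a (mul_nonneg A0 l0.le)
  have e1 : A * Z⁻¹ * (wN c Z * Z ^ 2) = A * wN c Z / Z⁻¹ := by field_simp
  rw [e1] at b
  rw [div_eq_mul_inv _ Z]
  have e2 : 4 * (A * (3 * wN c Z)) / Z⁻¹ = 12 * (A * wN c Z / Z⁻¹) := by ring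
  linarith

/-- the mixed derivative by interpolation -/
theorem dt_le (h : End c R Z) {k : ℝ} (k0 : 0 ≤ k) (cu : ContinuousOn u (Icc R Z))
    (cu₁ : ContinuousOn u₁ (Icc R Z)) (du : D2 (Ioo R Z) u u₁ u₂) (A0 : 0 ≤ A)
    (h0 : ∀ z ∈ Icc R Z, k ^ 2 * ‖u z‖ ≤ A * (gN c Z z / sg c z))
    (h1 : ∀ z ∈ Icc R Z, ‖u₁ z‖ ≤ A * (gN c Z z * ta c z / z))
    (h2 : ∀ z ∈ Ioo R Z, ‖u₂ z‖ ≤ A * (gN c Z z * ta c z)) (hz : z ∈ Icc R Z) :
    k * ‖u₁ z‖ ≤ 21 * A * (gN c Z z * ta c z * √‖rh c z‖) := by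
  have z0 := h.z0 hz
  have z4 := h.z4 hz
  have n0 := h.n0 hz
  have E0 := mul_nonneg A0 (h.sl_E.pos hz).le
  have t0 := Real.sqrt_pos.2 n0
  rcases le_total k (√‖rh c z‖ * z) with hk | hk
  · refine (mul_le_mul hk (h1 z hz) (norm_nonneg _) (by positivity)).trans ?_
    have e : √‖rh c z‖ * z * (A * (gN c Z z * ta c z / z)) =
      A * (gN c Z z * ta c z) * √‖rh c z‖ := by field_simp
    nlinarith only [e, mul_nonneg E0 t0.le]
  have k1 : 0 < k := (mul_pos t0 z0).trans_le hk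
  set l := √‖rh c z‖ / k with hl
  have l0 : 0 < l := div_pos t0 k1
  have l1 : l * z ≤ 1 := by rwa [hl, div_mul_eq_mul_div, div_le_one k1]
  have l2 : l ≤ 1 / 4 := by nlinarith only [l0, l1, z4]
  obtain ⟨x, x1, x2, m⟩ : ∃ x, R ≤ x ∧ x + l ≤ Z ∧ z ∈ Icc x (x + l) := by
    rcases le_total (z + l) Z with k | k
    · exact ⟨z, hz.1, k, le_rfl, by linarith⟩
    · exact ⟨z - l, by linarith [h.RZ], by linarith [hz.2], by linarith, by linarith⟩
  have s2 : Icc x (x + l) ⊆ Icc R Z := Icc_subset_Icc x1 x2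
  have s3 : Ioo x (x + l) ⊆ Ioo R Z := Ioo_subset_Ioo x1 x2
  have l3 : (x + l) * (x + l - x) ≤ 2 := by nlinarith only [l0, l1, l2, m.1]
  have cE := h.sl_E.cmp (by norm_num) x1 x2 l3
  have := landau (U := 9 * (A * (gN c Z z * ta c z)) * l ^ 2)
    (K := A * (3 * (gN c Z z * ta c z))) l0 (cu.mono s2) (cu₁.mono s2) (du.mono s3)
    (fun y hy => by
      have a := h0 y (s2 hy)
      have e : gN c Z y / sg c y = gN c Z y * ta c y * ‖rh c y‖ := by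
        rw [div_eq_iff (h.r0 (s2 hy)).ne']
        linear_combination (-gN c Z y) * h.sg_ta (s2 hy)
      have b := mul_le_mul (cE y hy z m) (h.sl_n.cmp (by norm_num) x1 x2 l3 y hy z m)
        (norm_nonneg _) (mul_pos three_pos (h.sl_E.pos hz)).le
      rw [hl, div_pow, Real.sq_sqrt n0.le, ← mul_div_assoc, le_div_iff₀ (pow_pos k1 2)]
      rw [e] at a
      nlinarith only [a, mul_le_mul_of_nonneg_left b A0])
    (fun y hy => (h2 y (s3 hy)).trans (mul_le_mul_of_nonneg_left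
      (cE y (Ioo_subset_Icc_self hy) z m) A0)) z m
  have e : k * (2 * (9 * (A * (gN c Z z * ta c z)) * l ^ 2) / l +
      l * (A * (3 * (gN c Z z * ta c z)))) = 21 * A * (gN c Z z * ta c z * √‖rh c z‖) := by
    rw [hl]; field_simp; ring
  exact (mul_le_mul_of_nonneg_left this k0).trans e.le

end End

theorem LC_eq (c : ℂ) (k : ℤ) (u u₁ u₂ : ℝ → ℂ) (z : ℝ) : LC c k u u₁ u₂ z =
    u₂ z + (-(z / 2) : ℝ) * u₁ z + (1 - ((k : ℝ) ^ 2 : ℝ) / rh c z) * u z := by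
  rw [LC]; push_cast; ring

theorem sq4 {k : ℤ} (hk : 2 ≤ |k|) : (4 : ℝ) ≤ (k : ℝ) ^ 2 := by
  have : (2 : ℝ) ≤ |(k : ℝ)| := by exact_mod_cast hk
  nlinarith only [this, sq_abs (k : ℝ)]

theorem mode2 : MODE2 := by
  refine ⟨10 ^ 6, 40000, by norm_num, fun R Z c hc k hk u u₁ u₂ M hu hg hR hZ => ?_⟩
  have h := hc.toEnd le_rfl
  have hκ := sq4 hk
  have du := hu.d
  rw [interior_Icc] at du
  have mR : R ∈ Icc R Z := ⟨le_rfl, by linarith [h.RZ]⟩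
  have mZ : Z ∈ Icc R Z := ⟨by linarith [h.RZ], le_rfl⟩
  have M0 : 0 ≤ M := nonneg_of_mul_nonneg_left ((norm_nonneg _).trans (hg R mR)) (h.sl_gN.pos mR)
  obtain ⟨B₁, B₂, hB⟩ := h.bar hκ
  simp only [LC_eq] at hg
  have a := hB.le hu.c0 du (fun z hz => hg z (Ioo_subset_Icc_self hz))
    (by rw [hR, norm_zero]; exact mul_nonneg M0 (hB.w0 R mR).le)
    (by rw [hZ, norm_zero]; exact mul_nonneg M0 (hB.w0 Z mZ).le)
  have a0 : ∀ z ∈ Icc R Z, ‖u z‖ ≤ 81 * M * wN c z := fun z hz => by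
    nlinarith only [a z hz, mul_le_mul_of_nonneg_left (h.bN_le hκ hz).1 M0,
      mul_nonneg M0 (h.sl_wN.pos hz).le]
  have a1 : ∀ z ∈ Icc R Z, (k : ℝ) ^ 2 * sg c z * ‖u z‖ ≤ 32 * M * gN c Z z := fun z hz => by
    nlinarith only [mul_le_mul_of_nonneg_left (a z hz) (mul_nonneg (sq_nonneg (k : ℝ)) (h.r0 hz).le),
      mul_le_mul_of_nonneg_left (h.bN_le hκ hz).2 M0]
  have a2 : ∀ z ∈ Icc R Z, ‖u₂ z + (-(z / 2) : ℝ) * u₁ z‖ ≤ 81 * M * (gN c Z z * ta c z) :=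
    fun z hz => by
      have b := norm_sub_le (u₂ z + (-(z / 2) : ℝ) * u₁ z + (1 - ((k : ℝ) ^ 2 : ℝ) / rh c z) * u z)
        ((1 - ((k : ℝ) ^ 2 : ℝ) / rh c z) * u z)
      rw [add_sub_cancel_right, norm_mul] at b
      have n0 := h.n0 hz
      have e : (k : ℝ) ^ 2 / ‖rh c z‖ = (k : ℝ) ^ 2 * sg c z * ta c z := by
        rw [div_eq_iff n0.ne']
        linear_combination (-(k : ℝ) ^ 2) * h.sg_ta hz
      have b1 : ‖1 - ((k : ℝ) ^ 2 : ℝ) / rh c z‖ ≤ 5 / 2 * ((k : ℝ) ^ 2 * sg c z * ta c z) := by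
        refine (norm_sub_le _ _).trans ?_
        rw [norm_one, norm_div, Complex.norm_real, Real.norm_of_nonneg (sq_nonneg _), ← e]
        have : 2 / 3 ≤ (k : ℝ) ^ 2 / ‖rh c z‖ := by
          rw [le_div_iff₀ n0]; linarith [(h.h z hz).2.1]
        linarith
      have t1 := h.ta1 hz
      nlinarith only [b, hg z hz, mul_le_mul_of_nonneg_right b1 (norm_nonneg (u z)),
        mul_le_mul_of_nonneg_right (a1 z hz) (zero_le_one.trans t1),
        mul_le_mul_of_nonneg_left t1 (mul_nonneg M0 (h.sl_gN.pos hz).le)]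
  have a3 := h.d1_le (A := 18 * (81 * M)) hu.c1 du (fun z hz => by
      have hz := Ioo_subset_Icc_self hz
      nlinarith only [a2 z hz, mul_nonneg M0 (h.sl_E.pos hz).le])
    (h.dZ_le hu.c0 hu.c1 du (by positivity) a0 fun z hz => a2 z (Ioo_subset_Icc_self hz))
  have a4 : ∀ z ∈ Icc R Z, ‖u₂ z‖ ≤ 18 * (81 * M) * (gN c Z z * ta c z) := fun z hz => by
    have b := norm_sub_le (u₂ z + (-(z / 2) : ℝ) * u₁ z) ((-(z / 2) : ℝ) * u₁ z)
    have z0 := h.z0 hz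
    rw [add_sub_cancel_right, norm_mul, Complex.norm_real, norm_neg,
      Real.norm_of_nonneg (half_pos z0).le] at b
    have e : z * (gN c Z z * ta c z / z) = gN c Z z * ta c z := mul_div_cancel₀ _ z0.ne'
    nlinarith only [b, a2 z hz, mul_le_mul_of_nonneg_left (a3 z hz) z0.le,
      congrArg (M * ·) e, mul_nonneg M0 (h.sl_E.pos hz).le]
  have a5 : ∀ z ∈ Icc R Z, |(k : ℝ)| ^ 2 * ‖u z‖ ≤ 18 * (81 * M) * (gN c Z z / sg c z) :=
    fun z hz => by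
      rw [sq_abs, ← mul_div_assoc, le_div_iff₀ (h.r0 hz)]
      nlinarith only [a1 z hz, mul_nonneg M0 (h.sl_gN.pos hz).le]
  intro z hz
  have w0 := h.sl_wN.pos hz
  have g0 := h.sl_gN.pos hz
  have r0 := h.r0 hz
  have t0 := h.sl_ta.pos hz
  have z0 := h.z0 hz
  refine ⟨(a0 z hz).trans (mul_le_mul_of_nonneg_right (by linarith) (by positivity)), ?_, ?_,
    (a3 z hz).trans (mul_le_mul_of_nonneg_right (by linarith) (by positivity)),
    (h.dt_le (abs_nonneg _) hu.c0 hu.c1 du (by positivity) a5 a3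
      (fun z hz => a4 z (Ioo_subset_Icc_self hz)) hz).trans
      (mul_le_mul_of_nonneg_right (by linarith) (by positivity)),
    (a4 z hz).trans (mul_le_mul_of_nonneg_right (by linarith) (by positivity))⟩
  · refine (abs_le_of_sq_le_sq' ?_ (by positivity)).2
    rw [mul_pow (40000 * M), Real.sq_sqrt (by positivity), mul_div_assoc]
    nlinarith only [mul_le_mul (a5 z hz) (a0 z hz) (norm_nonneg _) (by positivity),
      mul_nonneg (sq_nonneg M) (mul_pos w0 (div_pos g0 r0)).le]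
  · rw [← sq_abs]
    exact (a5 z hz).trans (mul_le_mul_of_nonneg_right (by linarith) (by positivity))

theorem modex : MODEX := by
  refine ⟨10 ^ 6, fun R Z c hc k g b hg => ?_⟩
  have h := hc.toEnd le_rfl
  have cb : ContinuousOn (fun z : ℝ => -(z / 2)) (Icc R Z) := by fun_prop
  have cq : ContinuousOn (fun z => 1 - ((k : ℝ) ^ 2 : ℝ) / rh c z) (Icc R Z) :=
    continuousOn_const.sub (continuousOn_const.div (rh_d2 c _).cont.1
      fun z hz => norm_pos_iff.1 (h.n0 hz))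
  have J : ∀ {u u₁ u₂}, Sol (Icc R Z) (fun z => (-(z / 2) : ℝ))
      (fun z => 1 - ((k : ℝ) ^ 2 : ℝ) / rh c z) g u u₁ u₂ → J2 (Icc R Z) u u₁ u₂ ∧
        ∀ z ∈ Icc R Z, LC c k u u₁ u₂ z = g z := fun s =>
    ⟨⟨s.cont.1.continuousOn, s.cont.2.continuousOn, s.2.1.continuousOn,
      s.1.mono (subset_univ _)⟩, fun z hz => by rw [LC_eq, s.2.2 z hz]⟩
  rcases le_or_gt 2 |k| with hk | hk
  · obtain ⟨B₁, B₂, hB⟩ := h.bar (sq4 hk)
    obtain ⟨u, u₁, u₂, s, e1, e2⟩ := hB.ex (by linarith [h.RZ]) cb cq hg 0 0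
    exact ⟨u, u₁, u₂, (J s).1, (J s).2, e2, fun k => by omega, fun _ => e1⟩
  · obtain ⟨u, u₁, u₂, s, e1, e2⟩ := ex_ivp isClosed_Icc
      (Complex.continuous_ofReal.comp_continuousOn cb) cq hg Z 0 b
    exact ⟨u, u₁, u₂, (J s).1, (J s).2, e1, fun _ => e2, fun k => by omega⟩

end

end Vale.Agent.P218M
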