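import Mathlib

/-!
# P218, block MODE: maximum principles for scalar complex equations (helper80)

The principal part `u'' + b u'` is real, the potential `q` is complex.
-/

set_option linter.all false

open Set Filter Topology MeasureTheory
open scoped ComplexConjugate

namespace Vale.Agent.P218M

noncomputable section

/-- `u` is twice differentiable at the points of `s`, with derivatives `u₁` and `u₂` -/
def D2 {E : Type*} [NormedAddCommGroup E] [NormedSpace ℝ E] (s : Set ℝ) (u u₁ u₂ : ℝ → E) : Prop :=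
  ∀ z ∈ s, HasDerivAt u (u₁ z) z ∧ HasDerivAt u₁ (u₂ z) z

theorem D2.mono {E : Type*} [NormedAddCommGroup E] [NormedSpace ℝ E] {s t : Set ℝ}
    {u u₁ u₂ : ℝ → E} (h : D2 t u u₁ u₂) (k : s ⊆ t) : D2 s u u₁ u₂ := fun z hz => h z (k hz)

theorem D2.add {E : Type*} [NormedAddCommGroup E] [NormedSpace ℝ E] {s : Set ℝ}
    {u u₁ u₂ v v₁ v₂ : ℝ → E} (h : D2 s u u₁ u₂) (k : D2 s v v₁ v₂) :
    D2 s (fun z => u z + v z) (fun z => u₁ z + v₁ z) (fun z => u₂ z + v₂ z) :=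
  fun z hz => ⟨(h z hz).1.add (k z hz).1, (h z hz).2.add (k z hz).2⟩

theorem D2.sub {E : Type*} [NormedAddCommGroup E] [NormedSpace ℝ E] {s : Set ℝ}
    {u u₁ u₂ v v₁ v₂ : ℝ → E} (h : D2 s u u₁ u₂) (k : D2 s v v₁ v₂) :
    D2 s (fun z => u z - v z) (fun z => u₁ z - v₁ z) (fun z => u₂ z - v₂ z) :=
  fun z hz => ⟨(h z hz).1.sub (k z hz).1, (h z hz).2.sub (k z hz).2⟩

theorem D2.cmul {𝕜 : Type*} [RCLike 𝕜] {s : Set ℝ} {u u₁ u₂ : ℝ → 𝕜} (h : D2 s u u₁ u₂) (a : 𝕜) :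
    D2 s (fun z => a * u z) (fun z => a * u₁ z) (fun z => a * u₂ z) :=
  fun z hz => ⟨(h z hz).1.const_mul a, (h z hz).2.const_mul a⟩

theorem D2.mul {𝕜 : Type*} [RCLike 𝕜] {s : Set ℝ} {u u₁ u₂ v v₁ v₂ : ℝ → 𝕜} (h : D2 s u u₁ u₂)
    (k : D2 s v v₁ v₂) : D2 s (fun z => u z * v z) (fun z => u₁ z * v z + u z * v₁ z)
      (fun z => u₂ z * v z + 2 * (u₁ z * v₁ z) + u z * v₂ z) :=
  fun z hz => ⟨(h z hz).1.mul (k z hz).1, (((h z hz).2.mul (k z hz).1).add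
    ((h z hz).1.mul (k z hz).2)).congr_deriv (by ring)⟩

theorem D2.cont {E : Type*} [NormedAddCommGroup E] [NormedSpace ℝ E] {s : Set ℝ}
    {u u₁ u₂ : ℝ → E} (h : D2 s u u₁ u₂) : ContinuousOn u s ∧ ContinuousOn u₁ s :=
  ⟨fun z hz => (h z hz).1.continuousAt.continuousWithinAt,
    fun z hz => (h z hz).2.continuousAt.continuousWithinAt⟩

theorem re_der {u : ℝ → ℂ} {a : ℂ} {z : ℝ} (h : HasDerivAt u a z) :
    HasDerivAt (fun z => (u z).re) a.re z :=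
  Complex.reCLM.hasFDerivAt.comp_hasDerivAt z h

theorem D2.re {s : Set ℝ} {u u₁ u₂ : ℝ → ℂ} (h : D2 s u u₁ u₂) :
    D2 s (fun z => (u z).re) (fun z => (u₁ z).re) (fun z => (u₂ z).re) :=
  fun z hz => ⟨re_der (h z hz).1, re_der (h z hz).2⟩

/-- first and second order conditions at a local maximum -/
theorem at_max {s : Set ℝ} (hs : IsOpen s) {f f₁ f₂ : ℝ → ℝ} (h : D2 s f f₁ f₂) {z : ℝ}
    (hz : z ∈ s) (hm : IsLocalMax f z) : f₁ z = 0 ∧ f₂ z ≤ 0 := by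
  have e : deriv f =ᶠ[𝓝 z] f₁ := by
    filter_upwards [hs.mem_nhds hz] with y hy using (h y hy).1.deriv
  have e2 : deriv (deriv f) z = f₂ z := by rw [e.deriv_eq, (h z hz).2.deriv]
  refine ⟨hm.hasDerivAt_eq_zero (h z hz).1, not_lt.1 fun k => ?_⟩
  have hmin : IsLocalMin f z :=
    isLocalMin_of_deriv_deriv_pos (e2 ▸ k) hm.deriv_eq_zero (h z hz).1.continuousAt
  have hc : f =ᶠ[𝓝 z] fun _ => f z := by
    filter_upwards [hm, hmin] with y h1 h2 using le_antisymm h1 h2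
  have h2 : deriv f =ᶠ[𝓝 z] fun _ => 0 := by simpa using hc.deriv
  rw [h2.deriv_eq, deriv_const] at e2
  exact k.ne e2

/-- the largest quotient -/
theorem ex_max {A B M : ℝ} {u : ℝ → ℂ} {w : ℝ → ℝ} (cu : ContinuousOn u (Icc A B))
    (cw : ContinuousOn w (Icc A B)) (w0 : ∀ z ∈ Icc A B, 0 < w z) {x : ℝ} (hx : x ∈ Icc A B)
    (h : M * w x < ‖u x‖) : ∃ y ∈ Icc A B, ∃ m, M < m ∧ ‖u y‖ = m * w y ∧
      ∀ z ∈ Icc A B, ‖u z‖ ≤ m * w z := by
  obtain ⟨y, hy, k⟩ := isCompact_Icc.exists_isMaxOn ⟨x, hx⟩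
    (cu.norm.div cw fun z hz => (w0 z hz).ne')
  refine ⟨y, hy, ‖u y‖ / w y, ((lt_div_iff₀ (w0 x hx)).2 h).trans_le (k hx),
    (div_mul_cancel₀ _ (w0 y hy).ne').symm, fun z hz => (div_le_iff₀ (w0 z hz)).1 (k hz)⟩

theorem re_cj_le (a b : ℂ) : (conj a * b).re ≤ ‖a‖ * ‖b‖ :=
  (Complex.re_le_norm _).trans (by rw [norm_mul, Complex.norm_conj])

theorem re_cj_self (a : ℂ) : conj a * a = ((‖a‖ * ‖a‖ : ℝ) : ℂ) := by
  rw [Complex.conj_mul']; push_cast; ring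

/-- **maximum principle** on a compact interval: barrier `w`, weight `G` of the data -/
theorem max_pr {A B M : ℝ} {u u₁ u₂ q : ℝ → ℂ} {b w w₁ w₂ G : ℝ → ℝ}
    (cu : ContinuousOn u (Icc A B)) (cw : ContinuousOn w (Icc A B))
    (du : D2 (Ioo A B) u u₁ u₂) (dw : D2 (Ioo A B) w w₁ w₂) (w0 : ∀ z ∈ Icc A B, 0 < w z)
    (hG : ∀ z ∈ Ioo A B, 0 < G z ∧ w₂ z + b z * w₁ z + (q z).re * w z ≤ -G z)
    (hu : ∀ z ∈ Ioo A B, ‖u₂ z + b z * u₁ z + q z * u z‖ ≤ M * G z)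
    (hA : ‖u A‖ ≤ M * w A) (hB : ‖u B‖ ≤ M * w B) : ∀ z ∈ Icc A B, ‖u z‖ ≤ M * w z := by
  intro x hx
  by_contra hc
  obtain ⟨y, hy, m, hm, e, k⟩ := ex_max cu cw w0 hx (not_le.1 hc)
  have hy' : y ∈ Ioo A B := by
    refine ⟨lt_of_le_of_ne hy.1 ?_, lt_of_le_of_ne hy.2 ?_⟩ <;> rintro rfl
    · exact (hA.trans_lt (mul_lt_mul_of_pos_right hm (w0 _ hy))).ne e
    · exact (hB.trans_lt (mul_lt_mul_of_pos_right hm (w0 _ hy))).ne e
  have M0 : 0 ≤ M := nonneg_of_mul_nonneg_left ((norm_nonneg _).trans hA)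
    (w0 A ⟨le_rfl, hx.1.trans hx.2⟩)
  have m0 : 0 < m := M0.trans_lt hm
  have n0 : 0 < ‖u y‖ := e ▸ mul_pos m0 (w0 y hy)
  obtain ⟨h1, h2⟩ := at_max isOpen_Ioo ((du.cmul (conj (u y))).re.sub (dw.cmul (‖u y‖ * m))) hy'
    (by
      filter_upwards [Icc_mem_nhds hy'.1 hy'.2] with z hz
      have := re_cj_le (u y) (u z)
      rw [re_cj_self, Complex.ofReal_re, mul_assoc, mul_assoc, ← e]
      nlinarith only [this, k z hz, n0])
  have h3 : (conj (u y) * (u₂ y + b y * u₁ y + q y * u y)).re =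
      (conj (u y) * u₂ y).re + b y * (conj (u y) * u₁ y).re + (q y).re * (‖u y‖ * ‖u y‖) := by
    rw [mul_add, mul_add, mul_left_comm, mul_left_comm _ (q y), re_cj_self, Complex.add_re,
      Complex.add_re, Complex.re_ofReal_mul, Complex.re_mul_ofReal]
  have h4 := re_cj_le (u y) (-(u₂ y + b y * u₁ y + q y * u y))
  rw [mul_neg, Complex.neg_re, norm_neg, h3, sub_eq_zero.1 h1] at h4
  obtain ⟨g0, g1⟩ := hG y hy'
  have h5 := mul_le_mul_of_nonneg_left (hu y hy') n0.le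
  have h6 := mul_le_mul_of_nonneg_left g1 (mul_pos n0 m0).le
  have h7 := mul_lt_mul_of_pos_left hm (mul_pos n0 g0)
  have h8 : (q y).re * (‖u y‖ * ‖u y‖) = ‖u y‖ * m * ((q y).re * w y) := by
    rw [e]; ring
  nlinarith only [h2, h4, h5, h6, h7, h8]

/-- **maximum principle** on a half line; `p` is a second barrier that dominates `u` at infinity -/
theorem max_half {A M : ℝ} {u u₁ u₂ q : ℝ → ℂ} {b w w₁ w₂ p p₁ p₂ G : ℝ → ℝ}
    (cu : ContinuousOn u (Ici A)) (cw : ContinuousOn w (Ici A)) (cp : ContinuousOn p (Ici A))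
    (du : D2 (Ioi A) u u₁ u₂) (dw : D2 (Ioi A) w w₁ w₂) (dp : D2 (Ioi A) p p₁ p₂)
    (w0 : ∀ z ∈ Ici A, 0 < w z) (p0 : ∀ z ∈ Ici A, 0 ≤ p z)
    (hG : ∀ z ∈ Ioi A, 0 < G z ∧ w₂ z + b z * w₁ z + (q z).re * w z ≤ -G z)
    (hp : ∀ z ∈ Ioi A, p₂ z + b z * p₁ z + (q z).re * p z ≤ 0)
    (hu : ∀ z ∈ Ioi A, ‖u₂ z + b z * u₁ z + q z * u z‖ ≤ M * G z)
    (hA : ‖u A‖ ≤ M * w A) (hB : ∀ ε > 0, ∃ᶠ z in atTop, ‖u z‖ ≤ ε * p z) :
    ∀ z ∈ Ici A, ‖u z‖ ≤ M * w z := by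
  intro x hx
  have M0 : 0 ≤ M := nonneg_of_mul_nonneg_left ((norm_nonneg _).trans hA) (w0 A self_mem_Ici)
  have key : ∀ ε > 0, ‖u x‖ ≤ (M + ε) * w x + ε * p x := fun ε ε0 => by
    obtain ⟨B, h1, h2⟩ := ((hB ε ε0).and_eventually (eventually_ge_atTop x)).exists
    have s1 : Icc A B ⊆ Ici A := Icc_subset_Ici_self
    have s2 : Ioo A B ⊆ Ioi A := Ioo_subset_Ioi_self
    have Mp : 0 < M + ε := by positivity
    have := max_pr (M := 1) (b := b) (q := q) (G := fun z => (M + ε) * G z) (cu.mono s1)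
      (((cw.mono s1).const_smul (M + ε)).add ((cp.mono s1).const_smul ε)) (du.mono s2)
      (((dw.mono s2).cmul (M + ε)).add ((dp.mono s2).cmul ε))
      (fun z hz => add_pos_of_pos_of_nonneg (mul_pos Mp (w0 z hz.1))
        (mul_nonneg ε0.le (p0 z hz.1)))
      (fun z hz => ⟨mul_pos Mp (hG z hz.1).1, by
        have := mul_le_mul_of_nonneg_left (hG z hz.1).2 Mp.le
        have := mul_le_mul_of_nonneg_left (hp z hz.1) ε0.le
        simp only [Pi.add_apply, Pi.smul_apply, smul_eq_mul]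
        linarith⟩)
      (fun z hz => by nlinarith only [hu z hz.1, (hG z hz.1).1, ε0])
      (by
        simp only [Pi.add_apply, Pi.smul_apply, smul_eq_mul]
        nlinarith only [hA, w0 A self_mem_Ici, mul_nonneg ε0.le (p0 A self_mem_Ici), ε0])
      (by
        simp only [Pi.add_apply, Pi.smul_apply, smul_eq_mul]
        nlinarith only [h1, mul_pos Mp (w0 B (hx.trans h2))]) x ⟨hx, h2⟩
    simpa using this
  have t : Tendsto (fun ε : ℝ => (M + ε) * w x + ε * p x) (𝓝[>] 0) (𝓝 ((M + 0) * w x + 0 * p x)) :=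
    (Continuous.tendsto (by fun_prop) 0).mono_left nhdsWithin_le_nhds
  simpa using ge_of_tendsto t (eventually_mem_nhdsWithin.mono key)

/-- a bound on the open interval extends to the closed interval -/
theorem le_cl {A B : ℝ} (h : A < B) {f g : ℝ → ℝ} (cf : ContinuousOn f (Icc A B))
    (cg : ContinuousOn g (Icc A B)) (k : ∀ z ∈ Ioo A B, f z ≤ g z) : ∀ z ∈ Icc A B, f z ≤ g z := by
  intro z hz
  rw [← closure_Ioo h.ne] at hz cf cg
  exact le_on_closure k cf cg hz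

/-- backward comparison for the first order equation `v' + b v = h` -/
theorem back_cmp {A B M : ℝ} {v v₁ : ℝ → ℂ} {b P P₁ H : ℝ → ℝ}
    (cv : ContinuousOn v (Icc A B)) (cP : ContinuousOn P (Icc A B))
    (dv : ∀ z ∈ Ioo A B, HasDerivAt v (v₁ z) z) (dP : ∀ z ∈ Ioo A B, HasDerivAt P (P₁ z) z)
    (P0 : ∀ z ∈ Icc A B, 0 < P z) (hH : ∀ z ∈ Ioo A B, 0 < H z ∧ P₁ z + b z * P z ≤ -H z)
    (hv : ∀ z ∈ Ioo A B, ‖v₁ z + b z * v z‖ ≤ M * H z) (hB : ‖v B‖ ≤ M * P B) :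
    ∀ z ∈ Icc A B, ‖v z‖ ≤ M * P z := by
  intro x hx
  rcases (hx.1.trans hx.2).eq_or_lt with rfl | hAB
  · rw [le_antisymm hx.2 hx.1]; exact hB
  refine le_cl hAB cv.norm (cP.const_smul M) (fun x hx => ?_) x hx
  by_contra hc
  have s1 : Icc x B ⊆ Icc A B := Icc_subset_Icc_left hx.1.le
  obtain ⟨y, hy, m, hm, e, k⟩ := ex_max (M := M) (cv.mono s1) (cP.mono s1)
    (fun z hz => P0 z (s1 hz)) ⟨le_rfl, hx.2.le⟩ (not_le.1 hc)
  have hy' : y ∈ Ioo A B := by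
    refine ⟨hx.1.trans_le hy.1, lt_of_le_of_ne hy.2 ?_⟩
    rintro rfl
    exact (hB.trans_lt (mul_lt_mul_of_pos_right hm (P0 _ (s1 hy)))).ne e
  have M0 : 0 ≤ M := nonneg_of_mul_nonneg_left ((norm_nonneg _).trans hB) (P0 B ⟨hAB.le, le_rfl⟩)
  have m0 : 0 < m := M0.trans_lt hm
  have n0 : 0 < ‖v y‖ := e ▸ mul_pos m0 (P0 y (s1 hy))
  have d := (re_der ((dv y hy').const_mul (conj (v y)))).sub ((dP y hy').const_mul (‖v y‖ * m))
  have h1 : (conj (v y) * v₁ y).re - ‖v y‖ * m * P₁ y ≤ 0 := by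
    refine le_of_tendsto (hasDerivAt_iff_tendsto_slope_left_right.1 d).2 ?_
    filter_upwards [Ioo_mem_nhdsGT hy'.2] with z hz
    have := re_cj_le (v y) (v z)
    rw [slope_def_field]
    refine div_nonpos_of_nonpos_of_nonneg ?_ (sub_nonneg.2 hz.1.le)
    simp only [Pi.sub_apply]
    rw [re_cj_self, Complex.ofReal_re, mul_assoc, mul_assoc, ← e]
    nlinarith only [this, k z ⟨hy.1.trans hz.1.le, hz.2.le⟩, n0]
  have h3 : (conj (v y) * (v₁ y + b y * v y)).re =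
      (conj (v y) * v₁ y).re + b y * (‖v y‖ * ‖v y‖) := by
    rw [mul_add, mul_left_comm, re_cj_self, Complex.add_re, ← Complex.ofReal_mul,
      Complex.ofReal_re]
  have h4 := re_cj_le (v y) (-(v₁ y + b y * v y))
  rw [mul_neg, Complex.neg_re, norm_neg, h3] at h4
  obtain ⟨g0, g1⟩ := hH y hy'
  have h5 := mul_le_mul_of_nonneg_left (hv y hy') n0.le
  have h6 := mul_le_mul_of_nonneg_left g1 (mul_pos n0 m0).le
  have h7 := mul_lt_mul_of_pos_left hm (mul_pos n0 g0)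
  have h8 : b y * (‖v y‖ * ‖v y‖) = ‖v y‖ * m * (b y * P y) := by
    rw [e]; ring
  nlinarith only [h1, h4, h5, h6, h7, h8]

/-- mean value inequality -/
theorem mvi {E : Type*} [NormedAddCommGroup E] [NormedSpace ℝ E] {x y K : ℝ} {f f₁ : ℝ → E}
    (h : x ≤ y) (cf : ContinuousOn f (Icc x y)) (df : ∀ z ∈ Ioo x y, HasDerivAt f (f₁ z) z)
    (hK : ∀ z ∈ Ioo x y, ‖f₁ z‖ ≤ K) : ‖f y - f x‖ ≤ K * (y - x) := by
  have := norm_sub_le_integral_of_norm_deriv_le_of_le (B := fun _ => K) h cf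
    (fun z hz => (df z hz).differentiableAt.differentiableWithinAt)
    (.of_forall fun z hz => (df z hz).deriv ▸ hK z hz) intervalIntegrable_const
  simpa [mul_comm] using this

/-- Landau's inequality on an interval of length `l` -/
theorem landau {E : Type*} [NormedAddCommGroup E] [NormedSpace ℝ E] {x l U K : ℝ}
    {u u₁ u₂ : ℝ → E} (l0 : 0 < l) (cu : ContinuousOn u (Icc x (x + l)))
    (cu₁ : ContinuousOn u₁ (Icc x (x + l))) (du : D2 (Ioo x (x + l)) u u₁ u₂)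
    (hU : ∀ z ∈ Icc x (x + l), ‖u z‖ ≤ U) (hK : ∀ z ∈ Ioo x (x + l), ‖u₂ z‖ ≤ K) :
    ∀ z ∈ Icc x (x + l), ‖u₁ z‖ ≤ 2 * U / l + l * K := by
  intro z hz
  have K0 : 0 ≤ K := (norm_nonneg _).trans (hK (x + l / 2) ⟨by linarith, by linarith⟩)
  have a : ∀ s ∈ Icc x (x + l), ∀ t ∈ Icc x (x + l), s ≤ t → ‖u₁ t - u₁ s‖ ≤ K * l :=
    fun s hs t ht st => by
      have s2 : Ioo s t ⊆ Ioo x (x + l) := Ioo_subset_Ioo hs.1 ht.2
      refine (mvi st (cu₁.mono (Icc_subset_Icc hs.1 ht.2)) (fun y hy => (du y (s2 hy)).2)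
        fun y hy => hK y (s2 hy)).trans (mul_le_mul_of_nonneg_left ?_ K0)
      linarith [hs.1, ht.2]
  have b := mvi (f := fun s => u s - s • u₁ z) (f₁ := fun s => u₁ s - u₁ z) (K := K * l)
    (le_add_of_nonneg_right l0.le) (cu.sub (by fun_prop))
    (fun s hs => (du s hs).1.sub (by simpa using (hasDerivAt_id s).smul_const (u₁ z)))
    fun s hs => by
      rcases le_total z s with k | k
      · exact a z hz s (Ioo_subset_Icc_self hs) k
      · rw [norm_sub_rev]; exact a s (Ioo_subset_Icc_self hs) z hz k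
  have e : l • u₁ z = u (x + l) - u x - (u (x + l) - (x + l) • u₁ z - (u x - x • u₁ z)) := by
    rw [add_smul]; abel
  have c := norm_sub_le (u (x + l) - u x) (u (x + l) - (x + l) • u₁ z - (u x - x • u₁ z))
  rw [← e, norm_smul, Real.norm_of_nonneg l0.le] at c
  have c2 := norm_sub_le (u (x + l)) (u x)
  have c3 := hU x ⟨le_rfl, by linarith⟩
  have c4 := hU (x + l) ⟨by linarith, le_rfl⟩
  rw [div_add' _ _ _ l0.ne', le_div_iff₀ l0]
  simp only [add_sub_cancel_left] at b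
  nlinarith only [b, c, c2, c3, c4]

/-- gradient bound for `u'' + b u' = h` on an interval of length `l` with `|b| l ≤ 1 / 2` -/
theorem grad_le {x l U H : ℝ} {u u₁ u₂ : ℝ → ℂ} {b : ℝ → ℝ} (l0 : 0 < l)
    (cu : ContinuousOn u (Icc x (x + l))) (cu₁ : ContinuousOn u₁ (Icc x (x + l)))
    (du : D2 (Ioo x (x + l)) u u₁ u₂) (hb : ∀ z ∈ Ioo x (x + l), |b z| * l ≤ 1 / 2)
    (hU : ∀ z ∈ Icc x (x + l), ‖u z‖ ≤ U) (hH : ∀ z ∈ Ioo x (x + l), ‖u₂ z + b z * u₁ z‖ ≤ H) :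
    ∀ z ∈ Icc x (x + l), ‖u₁ z‖ ≤ 4 * U / l + 2 * l * H := by
  obtain ⟨y, hy, k⟩ := isCompact_Icc.exists_isMaxOn ⟨x, le_rfl, le_add_of_nonneg_right l0.le⟩
    cu₁.norm
  have := landau (K := H + ‖u₁ y‖ / (2 * l)) l0 cu cu₁ du hU (fun z hz => by
    have a := norm_sub_le (u₂ z + b z * u₁ z) (b z * u₁ z)
    rw [add_sub_cancel_right, norm_mul, Complex.norm_real, Real.norm_eq_abs] at a
    have c : |b z| * ‖u₁ z‖ ≤ ‖u₁ y‖ / (2 * l) := by
      rw [le_div_iff₀ (by positivity)]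
      have := mul_le_mul (hb z hz) (k (Ioo_subset_Icc_self hz)) (norm_nonneg _) (by norm_num)
      linarith
    linarith [hH z hz]) y hy
  have e : l * (H + ‖u₁ y‖ / (2 * l)) = l * H + ‖u₁ y‖ / 2 := by field_simp
  have e2 : 4 * U / l = 2 * (2 * U / l) := by ring
  intro z hz
  have := k hz
  simp only [mem_setOf_eq] at this
  linarith

end

end Vale.Agent.P218M
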