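import Vale.Agent.P218M.Bvp

/-!
# P218, block MODE: slowly varying weights (helper80)
-/

set_option linter.all false

open Set Filter Topology

namespace Vale.Agent.P218M

noncomputable section

/-- `F` is positive and `C²` on `s` with `|F'| ≤ e σ F` and `|F''| ≤ e σ² F` -/
def Slow (s : Set ℝ) (σ : ℝ → ℝ) (e : ℝ) (F : ℝ → ℝ) : Prop := ∃ F₁ F₂, D2 s F F₁ F₂ ∧
  ∀ z ∈ s, 0 ≤ σ z ∧ 0 < F z ∧ |F₁ z| ≤ e * σ z * F z ∧ |F₂ z| ≤ e * σ z ^ 2 * F z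

variable {s : Set ℝ} {σ : ℝ → ℝ} {e e' : ℝ} {F G : ℝ → ℝ}

namespace Slow

theorem pos (h : Slow s σ e F) {z : ℝ} (hz : z ∈ s) : 0 < F z :=
  let ⟨_, _, _, k⟩ := h; (k z hz).2.1

theorem cont (h : Slow s σ e F) : ContinuousOn F s :=
  let ⟨_, _, k, _⟩ := h; k.cont.1

theorem mono (h : Slow s σ e F) (k : e ≤ e') : Slow s σ e' F := by
  obtain ⟨F₁, F₂, d, h⟩ := h
  refine ⟨F₁, F₂, d, fun z hz => ?_⟩
  obtain ⟨h0, h1, h2, h3⟩ := h z hz
  exact ⟨h0, h1, h2.trans (by gcongr), h3.trans (by gcongr)⟩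

theorem scale {τ : ℝ → ℝ} {a : ℝ} (h : Slow s σ e F) (e0 : 0 ≤ e) (a0 : 0 ≤ a) (a1 : a ≤ 1)
    (k : ∀ z ∈ s, σ z ≤ a * τ z ∧ 0 ≤ τ z) : Slow s τ (e * a) F := by
  obtain ⟨F₁, F₂, d, h⟩ := h
  refine ⟨F₁, F₂, d, fun z hz => ?_⟩
  obtain ⟨h0, h1, h2, h3⟩ := h z hz
  obtain ⟨k1, k2⟩ := k z hz
  refine ⟨k2, h1, h2.trans (by rw [mul_assoc e a]; gcongr), h3.trans ?_⟩
  rw [mul_assoc e a]
  gcongr
  calc σ z ^ 2 ≤ (a * τ z) ^ 2 := by gcongr
    _ = a * (a * τ z ^ 2) := by ring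
    _ ≤ 1 * (a * τ z ^ 2) := by gcongr
    _ = _ := one_mul _

theorem congr (h : Slow s σ e F) (k : ∀ z ∈ s, G =ᶠ[𝓝 z] F) : Slow s σ e G := by
  obtain ⟨F₁, F₂, d, h⟩ := h
  exact ⟨F₁, F₂, fun z hz => ⟨(d z hz).1.congr_of_eventuallyEq (k z hz), (d z hz).2⟩,
    fun z hz => by rw [(k z hz).self_of_nhds]; exact h z hz⟩

theorem add (h : Slow s σ e F) (k : Slow s σ e G) : Slow s σ e fun z => F z + G z := by
  obtain ⟨F₁, F₂, d, h⟩ := h
  obtain ⟨G₁, G₂, d', k⟩ := k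
  refine ⟨_, _, d.add d', fun z hz => ?_⟩
  obtain ⟨h0, h1, h2, h3⟩ := h z hz
  obtain ⟨-, k1, k2, k3⟩ := k z hz
  exact ⟨h0, add_pos h1 k1, (abs_add_le _ _).trans (by linarith),
    (abs_add_le _ _).trans (by linarith)⟩

theorem add_const (h : Slow s σ e F) (e0 : 0 ≤ e) {a : ℝ} (a0 : 0 ≤ a) :
    Slow s σ e fun z => F z + a := by
  obtain ⟨F₁, F₂, d, h⟩ := h
  refine ⟨F₁, F₂, fun z hz => ⟨(d z hz).1.add_const a, (d z hz).2⟩, fun z hz => ?_⟩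
  obtain ⟨h0, h1, h2, h3⟩ := h z hz
  exact ⟨h0, by positivity, h2.trans (by gcongr; linarith), h3.trans (by gcongr; linarith)⟩

theorem cmul (h : Slow s σ e F) {a : ℝ} (a0 : 0 < a) : Slow s σ e fun z => a * F z := by
  obtain ⟨F₁, F₂, d, h⟩ := h
  refine ⟨_, _, d.cmul a, fun z hz => ?_⟩
  obtain ⟨h0, h1, h2, h3⟩ := h z hz
  simp only [abs_mul, abs_of_pos a0, mul_left_comm _ a]
  exact ⟨h0, by positivity, by gcongr, by gcongr⟩

theorem mul (h : Slow s σ e F) (k : Slow s σ e' G) :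
    Slow s σ (e + e' + 2 * (e * e')) fun z => F z * G z := by
  obtain ⟨F₁, F₂, d, h⟩ := h
  obtain ⟨G₁, G₂, d', k⟩ := k
  refine ⟨_, _, d.mul d', fun z hz => ?_⟩
  obtain ⟨h0, h1, h2, h3⟩ := h z hz
  obtain ⟨-, k1, k2, k3⟩ := k z hz
  have a := mul_le_mul h2 k2 (abs_nonneg _) ((abs_nonneg _).trans h2)
  have a1 := mul_le_mul_of_nonneg_right h2 k1.le
  have a2 := mul_le_mul_of_nonneg_left k2 h1.le
  have a3 := mul_le_mul_of_nonneg_right h3 k1.le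
  have a4 := mul_le_mul_of_nonneg_left k3 h1.le
  refine ⟨h0, mul_pos h1 k1, (abs_add_le _ _).trans ?_, (abs_add_three _ _ _).trans ?_⟩
  · rw [abs_mul, abs_mul, abs_of_pos h1, abs_of_pos k1]
    rcases h0.eq_or_lt with h0 | h0
    · rw [← h0] at a1 a2 ⊢
      linarith
    · have p1 : 0 ≤ e := nonneg_of_mul_nonneg_left
        (nonneg_of_mul_nonneg_left ((abs_nonneg _).trans h2) h1) h0
      have p2 : 0 ≤ e' := nonneg_of_mul_nonneg_left
        (nonneg_of_mul_nonneg_left ((abs_nonneg _).trans k2) k1) h0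
      have : 0 ≤ e * e' * σ z * (F z * G z) := by positivity
      linarith
  · rw [abs_mul, abs_mul, abs_mul, abs_mul, abs_of_pos h1, abs_of_pos k1, abs_two]
    linarith

theorem rpow (h : Slow s σ e F) (e0 : 0 ≤ e) {a : ℝ} (ha : |a| ≤ 2) :
    Slow s σ (2 * e + 6 * e ^ 2) fun z => F z ^ a := by
  obtain ⟨F₁, F₂, d, h⟩ := h
  have dd : ∀ z ∈ s, HasDerivAt (fun z => F z ^ a) (a * (F₁ z / F z) * F z ^ a) z := fun z hz =>
    ((d z hz).1.rpow_const (Or.inl (h z hz).2.1.ne')).congr_deriv (by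
      rw [Real.rpow_sub_one (h z hz).2.1.ne']; ring)
  refine ⟨fun z => a * (F₁ z / F z) * F z ^ a,
    fun z => (a * (F₂ z / F z) + a * (a - 1) * (F₁ z / F z) ^ 2) * F z ^ a, fun z hz => ⟨dd z hz,
      ((((d z hz).2.div (d z hz).1 (h z hz).2.1.ne').const_mul a).mul (dd z hz)).congr_deriv ?_⟩,
    fun z hz => ?_⟩
  · have := (h z hz).2.1.ne'
    simp only [Pi.div_apply]
    field_simp
    ring
  obtain ⟨h0, h1, h2, h3⟩ := h z hz
  have p := Real.rpow_pos_of_pos h1 a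
  have a1 : |F₁ z / F z| ≤ e * σ z := by rwa [abs_div, abs_of_pos h1, div_le_iff₀ h1]
  have a2 : |F₂ z / F z| ≤ e * σ z ^ 2 := by rwa [abs_div, abs_of_pos h1, div_le_iff₀ h1]
  have a3 : |a - 1| ≤ 3 := (abs_sub _ _).trans (by rw [abs_one]; linarith)
  refine ⟨h0, p, ?_, ?_⟩ <;> rw [abs_mul, abs_of_pos p] <;> gcongr
  · rw [abs_mul]
    calc _ ≤ 2 * (e * σ z) := by gcongr
      _ ≤ _ := by nlinarith only [mul_nonneg (sq_nonneg e) h0]
  · refine (abs_add_le _ _).trans ?_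
    rw [abs_mul, abs_mul, abs_mul, abs_pow]
    calc _ ≤ 2 * (e * σ z ^ 2) + 2 * 3 * (e * σ z) ^ 2 := by gcongr
      _ = _ := by ring

theorem inv (h : Slow s σ e F) (e0 : 0 ≤ e) : Slow s σ (2 * e + 6 * e ^ 2) fun z => (F z)⁻¹ := by
  simpa only [Real.rpow_neg_one] using h.rpow e0 (a := -1) (by norm_num)

/-- slowly varying weights are locally comparable -/
theorem cmp {R Z x y : ℝ} (h : Slow (Icc R Z) (fun z => z) e F) (he : e ≤ 1 / 2) (hx : R ≤ x)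
    (hy : y ≤ Z) (l : y * (y - x) ≤ 2) : ∀ a ∈ Icc x y, ∀ b ∈ Icc x y, F a ≤ 3 * F b := by
  obtain ⟨F₁, F₂, d, h⟩ := h.mono he
  have s1 : Icc x y ⊆ Icc R Z := Icc_subset_Icc hx hy
  have key : ∀ a ∈ Icc x y, ∀ b ∈ Icc x y, a ≤ b → |Real.log (F b) - Real.log (F a)| ≤ 1 :=
    fun a ha b hb ab => by
      have s2 : Icc a b ⊆ Icc R Z := (Icc_subset_Icc ha.1 hb.2).trans s1
      have y0 : 0 ≤ y := (h b (s1 hb)).1.trans hb.2
      have dl := fun z (hz : z ∈ Icc a b) => (d z (s2 hz)).1.log (h z (s2 hz)).2.1.ne'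
      refine (mvi (K := y / 2) ab (fun z hz => (dl z hz).continuousAt.continuousWithinAt)
        (fun z hz => dl z (Ioo_subset_Icc_self hz)) fun z hz => ?_).trans ?_
      · obtain ⟨h0, h1, h2, -⟩ := h z (s2 (Ioo_subset_Icc_self hz))
        rw [Real.norm_eq_abs, abs_div, abs_of_pos h1, div_le_iff₀ h1]
        refine h2.trans (mul_le_mul_of_nonneg_right ?_ h1.le)
        linarith [hz.2, hb.2]
      · nlinarith only [l, y0, ha.1, hb.2]
  intro a ha b hb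
  have k : Real.log (F a) ≤ 1 + Real.log (F b) := by
    rcases le_total a b with ab | ab
    · linarith [(abs_le.1 (key a ha b hb ab)).1]
    · linarith [(abs_le.1 (key b hb a ha ab)).2]
  have := Real.exp_le_exp.2 k
  rw [Real.exp_add, Real.exp_log (h a (s1 ha)).2.1, Real.exp_log (h b (s1 hb)).2.1] at this
  exact this.trans (mul_le_mul_of_nonneg_right (by linarith [Real.exp_one_lt_d9])
    (h b (s1 hb)).2.1.le)

end Slow

end

end Vale.Agent.P218M
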