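import Vale.Agent.P218M.Log

/-! P218, block MODE: elementary comparisons and continuity of the weights -/

set_option linter.all false

open Set

noncomputable section

namespace Vale.Agent.P218M

theorem rp_key {a n : ℝ} (a0 : 0 < a) (an : a ≤ n) (h : n ^ 2 ≤ 6 * a) :
    n ^ (7 / 4 : ℝ) * (n / a) ≤ 36 * a ^ (1 / 4 : ℝ) := by
  have n0 : 0 < n := a0.trans_le an
  have n6 : n ≤ 6 := by nlinarith
  have e1 : n ^ (7 / 4 : ℝ) = n * n ^ (1 / 2 : ℝ) * n ^ (1 / 4 : ℝ) := by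
    rw [show (7 / 4 : ℝ) = 1 + 1 / 2 + 1 / 4 by norm_num, Real.rpow_add n0, Real.rpow_add n0,
      Real.rpow_one]
  have e2 : n ^ (1 / 2 : ℝ) ≤ 2 * a ^ (1 / 4 : ℝ) := by
    have : n ^ (1 / 2 : ℝ) = (n ^ 2) ^ (1 / 4 : ℝ) := by
      rw [← Real.rpow_natCast, ← Real.rpow_mul n0.le]; norm_num
    rw [this]
    have h2 : (16 : ℝ) ^ (1 / 4 : ℝ) = 2 := by
      rw [show (16 : ℝ) = 2 ^ (4 : ℕ) by norm_num, ← Real.rpow_natCast,
        ← Real.rpow_mul (by norm_num)]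
      norm_num
    calc (n ^ 2) ^ (1 / 4 : ℝ) ≤ (16 * a) ^ (1 / 4 : ℝ) :=
          Real.rpow_le_rpow (by positivity) (by linarith) (by norm_num)
      _ = 2 * a ^ (1 / 4 : ℝ) := by rw [Real.mul_rpow (by norm_num) a0.le, h2]
  have e3 : n ^ (1 / 4 : ℝ) ≤ 2 := by
    have h2 : (16 : ℝ) ^ (1 / 4 : ℝ) = 2 := by
      rw [show (16 : ℝ) = 2 ^ (4 : ℕ) by norm_num, ← Real.rpow_natCast,
        ← Real.rpow_mul (by norm_num)]
      norm_num
    rw [← h2]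
    exact Real.rpow_le_rpow n0.le (by linarith) (by norm_num)
  have e4 : n * (n / a) ≤ 6 := by
    rw [← mul_div_assoc, div_le_iff₀ a0]; nlinarith
  have p1 : 0 ≤ n ^ (1 / 2 : ℝ) := by positivity
  have p2 : 0 ≤ a ^ (1 / 4 : ℝ) := by positivity
  have p3 : 0 ≤ n ^ (1 / 4 : ℝ) := by positivity
  have p4 : 0 ≤ n * (n / a) := by positivity
  calc n ^ (7 / 4 : ℝ) * (n / a) = n * (n / a) * (n ^ (1 / 2 : ℝ) * n ^ (1 / 4 : ℝ)) := by
        rw [e1]; ring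
    _ ≤ 6 * (2 * a ^ (1 / 4 : ℝ) * 2) := by gcongr
    _ ≤ 36 * a ^ (1 / 4 : ℝ) := by linarith

theorem Cyl.z0 {Y R Z : ℝ} {c : ℂ} (h : Cyl Y R Z c) {z : ℝ} (hz : z ∈ Icc R Z) : 0 < z :=
  h.R0.trans_le hz.1

theorem Cyl.re0 {Y R Z : ℝ} {c : ℂ} (h : Cyl Y R Z c) (Y0 : 0 < Y) {z : ℝ} (hz : z ∈ Icc R Z) :
    0 < (rh c z).re :=
  pos_of_mul_pos_left (Y0.trans_le ((h.tip z hz).trans_eq (mul_comm _ _))) (sq_nonneg z)

theorem Cyl.wtc {Y R Z : ℝ} {c : ℂ} (h : Cyl Y R Z c) (Y0 : 0 < Y) {z : ℝ} (hz : z ∈ Icc R Z) :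
    WtC 36 Y c Z z := by
  have z0 := h.z0 hz
  have a0 := h.re0 Y0 hz
  have an : (rh c z).re ≤ ‖rh c z‖ := Complex.re_le_norm _
  have n0 : 0 < ‖rh c z‖ := a0.trans_le an
  have d := h.dsc z hz
  have n6 : ‖rh c z‖ ≤ 6 := by nlinarith
  have s6 : 1 / 6 ≤ sg c z := by
    rw [sg_eq, div_le_div_iff₀ (by norm_num) (by positivity)]; linarith
  have l0 : 0 ≤ z ^ 2 * ly Z z := mul_nonneg (sq_nonneg z) (ly_pos Z z).le
  have wN0 : 0 < wN c z := by unfold wN; positivity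
  have wO0 : 0 < wO c z := by unfold wO; positivity
  have i6 : 1 / 6 ≤ ((rh c z).re)⁻¹ := by
    rw [← one_div, div_le_div_iff₀ (by norm_num) a0]; linarith
  have si : sg c z ≤ ((rh c z).re)⁻¹ := by
    rw [sg_eq, ← one_div, div_le_div_iff₀ (by positivity) a0]; nlinarith
  have t0 : 1 ≤ ta c z := by rw [ta, le_div_iff₀ a0]; linarith
  have NO : wN c z * ta c z ≤ 36 * wO c z := by
    have := mul_le_mul_of_nonneg_left (rp_key a0 an d) (Real.rpow_pos_of_pos z0 (-3 / 2)).le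
    unfold wN wO ta
    linarith
  refine ⟨a0, n6, s6, sg_eq c z, t0, wN0, wO0, mul_pos wN0 (by linarith),
    mul_pos wO0 (by linarith), ?_, ?_, NO, ?_, ?_⟩
  · unfold gN; nlinarith
  · unfold gO; nlinarith
  · unfold gN gO
    have := mul_le_mul NO (add_le_add_left si (z ^ 2 * ly Z z)) (by linarith) (by positivity)
    linarith
  · have h1 : (z ^ 2 * (rh c z).re) ^ (-3 / 4 : ℝ) ≤ Y ^ (-3 / 4 : ℝ) :=
      Real.rpow_le_rpow_of_nonpos Y0 (h.tip z hz) (by norm_num)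
    have h2 : (z ^ 2 * (rh c z).re) ^ (-3 / 4 : ℝ) * (rh c z).re = wO c z := by
      rw [Real.mul_rpow (sq_nonneg z) a0.le, ← Real.rpow_natCast, ← Real.rpow_mul z0.le, mul_assoc,
        ← Real.rpow_add_one a0.ne', wO]
      norm_num
    rw [← h2]
    exact mul_le_mul_of_nonneg_right h1 a0.le

theorem cont_rh (c : ℂ) : Continuous (rh c) := by unfold rh; fun_prop

theorem cont_ly (Z : ℝ) : Continuous (ly Z) := by unfold ly; fun_prop

theorem wtc : WTC := by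
  refine ⟨36, by norm_num, fun Y R Z c Y0 h => ⟨fun z hz => h.wtc Y0 hz, ?_⟩⟩
  have c0 : ContinuousOn (rh c) (Icc R Z) := (cont_rh c).continuousOn
  have cr : ContinuousOn (fun z => (rh c z).re) (Icc R Z) :=
    Complex.continuous_re.comp_continuousOn c0
  have a0 : ∀ z ∈ Icc R Z, (rh c z).re ≠ 0 := fun z hz => (h.re0 Y0 hz).ne'
  have r0 : ∀ z ∈ Icc R Z, rh c z ≠ 0 := fun z hz e => a0 z hz (by rw [e, Complex.zero_re])
  have cs : ContinuousOn (sg c) (Icc R Z) :=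
    Complex.continuous_re.comp_continuousOn (c0.inv₀ r0)
  have cz : ContinuousOn (fun z : ℝ => z ^ (-3 / 2 : ℝ)) (Icc R Z) :=
    continuousOn_id.rpow_const fun z hz => .inl (h.z0 hz).ne'
  have cN : ContinuousOn (wN c) (Icc R Z) :=
    cz.mul (c0.norm.rpow_const fun z hz => .inr (by norm_num))
  have cO : ContinuousOn (wO c) (Icc R Z) :=
    cz.mul (cr.rpow_const fun z hz => .inr (by norm_num))
  have cl : ContinuousOn (fun z => z ^ 2 * ly Z z) (Icc R Z) :=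
    ((continuous_pow 2).mul (cont_ly Z)).continuousOn
  exact ⟨c0, cs, c0.norm.div cr a0, cN, cN.mul (cs.add cl), cO, cO.mul ((cr.inv₀ a0).add cl)⟩

end Vale.Agent.P218M
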